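import Vale.Agent.P237.Petty.Cor.Band.A.Main
import Vale.Agent.P237.Petty.Cor.Band.C.Main

/-!
# P237: the cell of small values in orders from 98

The two bands meet at `(9 / 20) / (p + 1)`.
-/

namespace Vale.Agent.P237.Petty.Cor.Band

/-- The bounds from `(3 / 20) / (p + 2)` to `3 / (p + 2)`. -/
theorem corCell_band {p : ℕ} (hp : 98 ≤ p) :
    CorCell p (3 / 20 / ((p : ℝ) + 2)) (3 / ((p : ℝ) + 2)) := by
  have h98 : (98 : ℝ) ≤ p := by exact_mod_cast hp
  have h1 : (0 : ℝ) < (p : ℝ) + 1 := by linarith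
  have h2 : (0 : ℝ) < (p : ℝ) + 2 := by linarith
  refine CorCell.append (mid := 9 / 20 / ((p : ℝ) + 1)) (A.corCell_band hp ?_ ?_)
    (C.corCell_band hp ?_ ?_)
  · simp only [A.band]
    push_cast
    rw [div_mul_eq_mul_div, le_div_iff₀ h2]
    linarith
  · simp only [A.band]
    push_cast
    rw [div_mul_cancel₀ _ h1.ne']
  · simp only [C.band]
    push_cast
    rw [div_mul_cancel₀ _ h1.ne']
  · simp only [C.band]
    push_cast
    rw [div_mul_eq_mul_div, div_le_iff₀ h2]
    linarith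

end Vale.Agent.P237.Petty.Cor.Band
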