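import Vale.Agent.P237.Petty.Cor.Band.State
import Vale.Agent.P237.Petty.Cor.Top.Bounds

/-!
# P237: bounds of the mass below and of `1 / r` for a cell of small values
-/

namespace Vale.Agent.P237.Petty.Cor.Band

open Set
open Ident (half)
open Lift (circLow circHigh)

variable {p : ℕ} {ell s t a r q : ℝ}

/-- The reciprocal of the power of the half circle, to second order. -/
theorem inv_arc_pow_le_two (hs : s ∈ Ioo (-1 : ℝ) 1) :
    1 / arc s ^ (p + 1) ≤ Real.exp (((p : ℝ) + 1) * s ^ 2 / 2 +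
      ((p : ℝ) + 1) * s ^ 2 * s ^ 2 / (4 * (1 - s ^ 2))) := by
  have hz : 0 < 1 - s ^ 2 := by nlinarith [hs.1, hs.2]
  have hc := arc_pos hs
  set z := s ^ 2 with hzdef
  have hz0 : 0 ≤ z := sq_nonneg s
  have hA : 1 ≤ Real.exp (z / 2 + z ^ 2 / (4 * (1 - z))) * arc s := by
    have h1 : 1 / (1 - z) ≤ Real.exp (z + z ^ 2 / (2 * (1 - z))) := by
      refine le_trans ?_ (Real.quadratic_le_exp_of_nonneg (by positivity))
      rw [div_le_iff₀ hz]
      have e : (1 + (z + z ^ 2 / (2 * (1 - z))) + (z + z ^ 2 / (2 * (1 - z))) ^ 2 / 2) * (1 - z) =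
          1 + z ^ 4 / (8 * (1 - z)) := by field_simp; ring
      rw [e]
      exact le_add_of_nonneg_right (by positivity)
    refine (pow_le_pow_iff_left₀ zero_le_one (by positivity) two_ne_zero).1 ?_
    rw [mul_pow, one_pow, ← Real.exp_nat_mul, arc, Real.sq_sqrt hz.le, ← div_le_iff₀ hz]
    refine h1.trans (le_of_eq (congrArg Real.exp ?_))
    push_cast
    field_simp
    ring
  rw [div_le_iff₀ (pow_pos hc _)]
  have e : ((p : ℝ) + 1) * z / 2 + ((p : ℝ) + 1) * z * z / (4 * (1 - z)) =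
      ((p + 1 : ℕ) : ℝ) * (z / 2 + z ^ 2 / (4 * (1 - z))) := by push_cast; ring
  rw [e, Real.exp_nat_mul, ← mul_pow]
  exact one_le_pow₀ hA

/-- The mass below over the power, away from the centre. -/
theorem circLow_le_away {C Y : ℝ} (hp : 98 ≤ p) (hs : s ∈ Ioo (0 : ℝ) 1) (hY : 0 < Y)
    (hY2 : Y ^ 2 ≤ ((p : ℝ) + 1) * s ^ 2)
    (hC : Real.exp (((p : ℝ) + 1) * s ^ 2 / 2 +
      ((p : ℝ) + 1) * s ^ 2 * s ^ 2 / (4 * (1 - s ^ 2))) ≤ C) :
    circLow p s ≤ C * (127 / 100 / Y) * (s * arc s ^ (p + 1)) := by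
  have hp' : (99 : ℝ) ≤ (p : ℝ) + 1 := by
    have : (98 : ℝ) ≤ p := by exact_mod_cast hp
    linarith
  have hc : 0 < arc s ^ (p + 1) := pow_pos (arc_pos ⟨by linarith [hs.1], hs.2⟩) _
  have h1 : 1 ≤ C * arc s ^ (p + 1) := by
    have := (inv_arc_pow_le_two (p := p) ⟨by linarith [hs.1], hs.2⟩).trans hC
    rwa [div_le_iff₀ hc] at this
  have hH := Top.half_mul_sqrt_le (m0 := 99) (hk := 127 / 100) (by norm_num) hp' (by norm_num)
    (by norm_num)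
  have hL : circLow p s ≤ half (p + 1) := by
    rw [show half (p + 1) = circLow p s + circHigh p s from (circLow_add_circHigh p s).symm]
    exact le_add_of_nonneg_right (intervalIntegral.integral_nonneg hs.2.le fun v _ =>
      pow_nonneg (Real.sqrt_nonneg _) _)
  have hys : Y ≤ √((p : ℝ) + 3) * s := by
    refine (pow_le_pow_iff_left₀ hY.le (mul_nonneg (Real.sqrt_nonneg _) hs.1.le) two_ne_zero).1 ?_
    rw [mul_pow, Real.sq_sqrt (by positivity)]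
    nlinarith [sq_nonneg s]
  have h2 : half (p + 1) * Y ≤ 127 / 100 * s := by
    refine le_trans (mul_le_mul_of_nonneg_left hys (Ident.half_pos _).le) ?_
    rw [← mul_assoc]
    exact mul_le_mul_of_nonneg_right hH hs.1.le
  calc circLow p s ≤ half (p + 1) * 1 := by rw [mul_one]; exact hL
    _ ≤ half (p + 1) * (C * arc s ^ (p + 1)) :=
        mul_le_mul_of_nonneg_left h1 (Ident.half_pos _).le
    _ = half (p + 1) * Y * (C * arc s ^ (p + 1) / Y) := by field_simp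
    _ ≤ 127 / 100 * s * (C * arc s ^ (p + 1) / Y) :=
        mul_le_mul_of_nonneg_right h2 (div_nonneg (zero_le_one.trans h1) hY.le)
    _ = _ := by ring

/-- A bound of `1 / r` near the centre. -/
theorem inv_rate_le_near (h : FlatState p ell s t a r q) (h0 : 0 ≤ ell) {E w Φ : ℝ}
    (hE : Real.exp ell ≤ E) (hΦ : circLow p s ≤ Φ * (s * arc s ^ (p + 1)))
    (hw : E * ((1 - s ^ 2) + ell * Φ * (((p : ℝ) + 1) * s ^ 2 + 2 * s ^ 2 + 1)) ≤
      w * (1 - s ^ 2)) : 1 / r ≤ w := by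
  have hc := pow_pos h.state.arc_pos' (p + 1)
  have hs0 := h.state.s_mem.1.ne'
  have hc2 := one_sub_pos h
  refine (h.inv_rate_le_pow h0 hE hΦ (le_refl (1 / arc s ^ (p + 1)))).trans ?_
  have e : ell * (Φ * (s * arc s ^ (p + 1))) * (1 / arc s ^ (p + 1)) *
      ((((p : ℝ) + 3) * s ^ 2 + 1) / (s * (1 - s ^ 2))) =
      ell * Φ * (((p : ℝ) + 1) * s ^ 2 + 2 * s ^ 2 + 1) / (1 - s ^ 2) := by
    field_simp
    ring
  rw [e]
  refine le_of_mul_le_mul_right (le_trans (le_of_eq ?_) hw) hc2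
  field_simp

/-- A bound of `1 / r` away from the centre, from the hazard at the base `u = x / √(p + 1)`. -/
theorem inv_rate_le_far (h : FlatState p ell s t a r q) (h0 : 0 ≤ ell) {E w x Kb L C : ℝ}
    (hE : Real.exp ell ≤ E) (hx : 0 < x) (hxy : x ^ 2 ≤ ((p : ℝ) + 1) * s ^ 2)
    (hL : circLow p (x / √((p : ℝ) + 1)) ≤ L * (x / √((p : ℝ) + 1)))
    (hC : 1 / arc (x / √((p : ℝ) + 1)) ^ (p + 1) ≤ C)
    (hb : (1 - x ^ 2 * (1 / ((p : ℝ) + 1))) * (x ^ 2 + 2 + 3 * x ^ 2 * (1 / ((p : ℝ) + 1))) +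
        ell * L * C * x ^ 2 * (1 + 2 * (1 / ((p : ℝ) + 1))) *
          (x ^ 2 * (1 + 2 * (1 / ((p : ℝ) + 1))) + 3) ≤
      Kb * x * (1 + 2 * (1 / ((p : ℝ) + 1))) * (x ^ 2 * (1 + 2 * (1 / ((p : ℝ) + 1))) + 3))
    (hK : 0 ≤ Kb) (hw : E ≤ w)
    (hsq : (E * Kb * (((p : ℝ) + 1) * s ^ 2 + 2 * s ^ 2 + 1)) ^ 2 ≤
      w ^ 2 * (1 - s ^ 2) ^ 2 * (((p : ℝ) + 1) * s ^ 2)) : 1 / r ≤ w := by
  have hm : (0 : ℝ) < (p : ℝ) + 1 := by positivity
  have hr : 0 < √((p : ℝ) + 1) := Real.sqrt_pos.2 hm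
  have hm2 : √((p : ℝ) + 1) ^ 2 = (p : ℝ) + 1 := Real.sq_sqrt hm.le
  have hs := h.state.s_mem
  have hc2 := one_sub_pos h
  set u := x / √((p : ℝ) + 1) with hu
  have hu0 : 0 < u := div_pos hx hr
  have hus : u ≤ s := by
    refine (pow_le_pow_iff_left₀ hu0.le hs.1.le two_ne_zero).1 ?_
    rw [hu, div_pow, hm2, div_le_iff₀ hm]
    linarith
  refine (h.inv_rate_le_hazard h0 ⟨hu0, hus⟩ hE hL hC).trans ?_
  have hE0 : 0 ≤ E := (Real.exp_pos ell).le.trans hE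
  rw [mul_max_of_nonneg _ _ hE0, mul_one]
  refine max_le hw ?_
  have key : (1 - u ^ 2) * ((((p : ℝ) + 4) * u ^ 2 + 2) /
      (((p : ℝ) + 3) * u * (((p : ℝ) + 3) * u ^ 2 + 3))) + ell * (L * u) * C ≤
      Kb / √((p : ℝ) + 1) := by
    obtain ⟨w', hw', hww⟩ : ∃ w' : ℝ, 0 < w' ∧ √((p : ℝ) + 1) = w' := ⟨_, hr, rfl⟩
    rw [hu, hww]
    rw [hww] at hm2
    rw [show (p : ℝ) + 4 = w' ^ 2 + 3 by linarith, show (p : ℝ) + 3 = w' ^ 2 + 2 by linarith]
    rw [← hm2] at hb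
    have e : (1 - (x / w') ^ 2) * (((w' ^ 2 + 3) * (x / w') ^ 2 + 2) /
        ((w' ^ 2 + 2) * (x / w') * ((w' ^ 2 + 2) * (x / w') ^ 2 + 3))) + ell * (L * (x / w')) * C =
        ((1 - x ^ 2 * (1 / w' ^ 2)) * (x ^ 2 + 2 + 3 * x ^ 2 * (1 / w' ^ 2)) +
          ell * L * C * x ^ 2 * (1 + 2 * (1 / w' ^ 2)) * (x ^ 2 * (1 + 2 * (1 / w' ^ 2)) + 3)) /
        (x * (1 + 2 * (1 / w' ^ 2)) * (x ^ 2 * (1 + 2 * (1 / w' ^ 2)) + 3) * w') := by
      field_simp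
      ring
    rw [e, div_le_div_iff₀ (by positivity) hw']
    refine le_trans (mul_le_mul_of_nonneg_right hb hw'.le) (le_of_eq (by ring))
  have hA : 0 ≤ (((p : ℝ) + 3) * s ^ 2 + 1) / (s * (1 - s ^ 2)) :=
    div_nonneg (by positivity) (mul_nonneg hs.1.le hc2.le)
  refine (mul_le_mul_of_nonneg_left (mul_le_mul_of_nonneg_left key hA) hE0).trans ?_
  rw [show E * ((((p : ℝ) + 3) * s ^ 2 + 1) / (s * (1 - s ^ 2)) * (Kb / √((p : ℝ) + 1))) =
    E * Kb * (((p : ℝ) + 1) * s ^ 2 + 2 * s ^ 2 + 1) / (√((p : ℝ) + 1) * s * (1 - s ^ 2)) by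
      field_simp; ring, div_le_iff₀ (by have := hs.1; positivity)]
  refine (pow_le_pow_iff_left₀ (by positivity) (mul_nonneg (hE0.trans hw)
    (mul_nonneg (mul_nonneg hr.le hs.1.le) hc2.le)) two_ne_zero).1 (hsq.trans_eq ?_)
  rw [mul_pow w, mul_pow (√((p : ℝ) + 1) * s), mul_pow (√((p : ℝ) + 1)), hm2]
  ring

end Vale.Agent.P237.Petty.Cor.Band
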