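import Vale.Agent.P237.Petty.Cor.Band.Poly
import Vale.Agent.P237.Petty.Cor.Band.Caps
import Vale.Agent.P237.Petty.Cor.MidHigh.Point

/-!
# P237: the cancelled quadratic of a cell of small values, below a polynomial form
-/

namespace Vale.Agent.P237.Petty.Cor.Band

open Set
open Vale.Agent.P237.Petty.Cor.Top (toReal)
open Ident (half)


variable {p : ℕ} {d : Par}

/-- `(p + 1) s ^ 2`. -/
noncomputable def yOf (p : ℕ) (s : ℝ) : ℝ := ((p : ℝ) + 1) * s ^ 2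

/-- `1 / (p + 1)`. -/
noncomputable def eOf (p : ℕ) : ℝ := 1 / ((p : ℝ) + 1)

/-- The multiplier of the shadow. -/
noncomputable def gamP (p : ℕ) (d : Par) : ℝ :=
  gP toReal d (eOf p) * ((p : ℝ) + 1) / Ident.b0 p

/-- The multiplier of the Fisher excess. -/
noncomputable def nuP (p : ℕ) (d : Par) : ℝ := nP toReal d (eOf p) - Ident.muMin p / 2

/-- The linear potential. -/
noncomputable def potK (p : ℕ) (d : Par) (s : ℝ) : ℝ :=
  -gP toReal d (eOf p) * (1 + s ^ 2 / 2 + 3 / 8 * s ^ 4 + 5 / 16 * s ^ 6) +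
    ((d.l0 : ℝ) / ((p : ℝ) + 1) + d.l1 * s ^ 2 + d.l2 * ((p : ℝ) + 1) * s ^ 4 +
      d.l3 * ((p : ℝ) + 1) * s ^ 6)

/-- Its derivative. -/
noncomputable def potK' (p : ℕ) (d : Par) (s : ℝ) : ℝ :=
  s * (-gP toReal d (eOf p) * (1 + 3 / 2 * s ^ 2 + 15 / 8 * s ^ 4) +
    (2 * d.l1 + 4 * d.l2 * ((p : ℝ) + 1) * s ^ 2 + 6 * d.l3 * ((p : ℝ) + 1) * s ^ 4))

/-- The square potential. -/
noncomputable def potB (p : ℕ) (d : Par) (s : ℝ) : ℝ :=
  -(d.a : ℝ) * (1 - s ^ 2) / s - d.a2 * ((p : ℝ) + 1) * s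

/-- Its derivative. -/
noncomputable def potB' (p : ℕ) (d : Par) (s : ℝ) : ℝ :=
  (d.a : ℝ) * (1 + 1 / s ^ 2) - d.a2 * ((p : ℝ) + 1)

theorem hasDerivAt_potK (p : ℕ) (d : Par) (s : ℝ) :
    HasDerivAt (potK p d) (potK' p d s) s := by
  refine ((((((hasDerivAt_pow 2 s).div_const 2).const_add 1).add
    ((hasDerivAt_pow 4 s).const_mul (3 / 8 : ℝ))).add
    ((hasDerivAt_pow 6 s).const_mul (5 / 16 : ℝ))).const_mul (-gP toReal d (eOf p))).add
    (((((hasDerivAt_pow 2 s).const_mul (d.l1 : ℝ)).const_add ((d.l0 : ℝ) / ((p : ℝ) + 1))).add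
      ((hasDerivAt_pow 4 s).const_mul ((d.l2 : ℝ) * ((p : ℝ) + 1)))).add
      ((hasDerivAt_pow 6 s).const_mul ((d.l3 : ℝ) * ((p : ℝ) + 1)))) |>.congr_deriv ?_
  rw [potK']
  push_cast
  ring

theorem hasDerivAt_potB {s : ℝ} (hs : s ∈ Ioo (0 : ℝ) 1) :
    HasDerivAt (potB p d) (potB' p d s) s := by
  refine ((polePot_null p (d.a : ℝ) hs).1.sub
    ((hasDerivAt_id s).const_mul ((d.a2 : ℝ) * ((p : ℝ) + 1)))).congr_deriv ?_
  rw [potB']
  simp

theorem zP_eq (p : ℕ) (s : ℝ) : zP (yOf p s) (eOf p) = s ^ 2 := by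
  rw [zP, yOf, eOf]
  field_simp

theorem cP_eq (p : ℕ) (s : ℝ) : cP toReal (yOf p s) (eOf p) = 1 - s ^ 2 := by
  rw [cP, zP_eq]
  simp [toReal]

/-- The linear coefficient in `δ`. -/
theorem potD_eq {s : ℝ} (hs : s ∈ Ioo (0 : ℝ) 1) :
    (1 - s ^ 2) * (s * cancelD p (nuP p d) (potK p d) (potK' p d) s) =
      eOf p * yOf p s * dP toReal d (yOf p s) (eOf p) := by
  have hc : 1 - s ^ 2 ≠ 0 := by nlinarith [hs.1, hs.2]
  have hb := (Ident.b0_pos p).ne'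
  have h4 : ((p : ℝ) + 4) ≠ 0 := by positivity
  have hm : ((p : ℝ) + 1) ≠ 0 := by positivity
  have e : sqCoef p + ((p : ℝ) + 4) * (nuP p d - nuS p) = ((p : ℝ) + 4) * nP toReal d (eOf p) := by
    rw [nuP, nuS, sqCoef]
    field_simp
    ring
  rw [cancelD, e, potRate, potK, potK']
  simp only [dP, cP, gP, nP, lamP, zP, yOf, eOf, toReal]
  push_cast
  field_simp
  ring

/-- The multiplier of the Fisher excess between its bounds. -/
theorem nuP_bounds (hm : 3 / 4 - 296 / 100 / ((p : ℝ) + 1) ≤ Ident.muMin p)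
    (hm' : Ident.muMin p ≤ 3 / 4 - 250 / 100 / ((p : ℝ) + 1)) :
    nLo toReal d (eOf p) ≤ nuP p d ∧ nuP p d ≤ nHi toReal d (eOf p) := by
  simp only [nuP, nLo, nHi, eOf, toReal]
  push_cast
  constructor <;> linarith [mul_one_div (296 / 100 : ℝ) ((p : ℝ) + 1),
    mul_one_div (250 / 100 : ℝ) ((p : ℝ) + 1)]

theorem invLo_eq (p : ℕ) (s : ℝ) : invLo toReal (yOf p s) (eOf p) =
    1 + 1 / 2 * s ^ 2 + 3 / 8 * (s ^ 2) ^ 2 + 5 / 16 * (s ^ 2) ^ 3 := by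
  rw [invLo, zP_eq]
  simp only [toReal]
  push_cast
  ring

theorem invRes_eq (p : ℕ) (s : ℝ) :
    invRes toReal (yOf p s) (eOf p) = 47 / 100 * (s ^ 2) ^ 4 := by
  rw [invRes, zP_eq]
  simp only [toReal]
  push_cast
  ring

/-- The reciprocal of the half circle between its Taylor polynomials. -/
theorem inv_arc_bounds {s : ℝ} (hs : s ∈ Ioo (0 : ℝ) 1) (hz : s ^ 2 ≤ 44 / 100) :
    1 + 1 / 2 * s ^ 2 + 3 / 8 * (s ^ 2) ^ 2 + 5 / 16 * (s ^ 2) ^ 3 ≤ 1 / arc s ∧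
      1 / arc s ≤ 1 + 1 / 2 * s ^ 2 + 3 / 8 * (s ^ 2) ^ 2 + 5 / 16 * (s ^ 2) ^ 3 +
        47 / 100 * (s ^ 2) ^ 4 := by
  have hc : 0 < arc s := arc_pos ⟨by linarith [hs.1], hs.2⟩
  have hc2 : arc s ^ 2 = 1 - s ^ 2 := Real.sq_sqrt (by nlinarith [hs.1, hs.2])
  have hz0 : 0 ≤ s ^ 2 := sq_nonneg s
  obtain ⟨z, rfl⟩ : ∃ z, s ^ 2 = z := ⟨_, rfl⟩
  constructor
  · rw [le_div_iff₀ hc]
    refine (pow_le_pow_iff_left₀ (by positivity) zero_le_one two_ne_zero).1 ?_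
    rw [mul_pow, hc2]
    nlinarith [mul_nonneg (mul_nonneg hz0 hz0) (mul_nonneg hz0 hz0), pow_nonneg hz0 5,
      pow_nonneg hz0 6, pow_nonneg hz0 7]
  · rw [div_le_iff₀ hc]
    refine (pow_le_pow_iff_left₀ zero_le_one (by positivity) two_ne_zero).1 ?_
    rw [mul_pow, hc2]
    nlinarith [mul_nonneg (pow_nonneg hz0 4) (sub_nonneg.2 hz),
      mul_nonneg (pow_nonneg hz0 5) (sub_nonneg.2 hz), mul_nonneg (pow_nonneg hz0 6) (sub_nonneg.2 hz),
      mul_nonneg (pow_nonneg hz0 7) (sub_nonneg.2 hz),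
      mul_nonneg (pow_nonneg hz0 8) (sub_nonneg.2 hz)]

theorem gam_eq (p : ℕ) (d : Par) (s : ℝ) :
    gamP p d * Ident.b0 p / ((p : ℝ) + 1) / arc s = gP toReal d (eOf p) * (1 / arc s) := by
  have := (Ident.b0_pos p).ne'
  have : ((p : ℝ) + 1) ≠ 0 := by positivity
  rw [gamP]
  field_simp

/-- The linear coefficient in `u`, with the residual of the reciprocal. -/
theorem linU_ge {s : ℝ} (hs : s ∈ Ioo (0 : ℝ) 1) (hz : s ^ 2 ≤ 44 / 100)
    (hG : 0 ≤ gP toReal d (eOf p)) (u : ℝ) :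
    eOf p * lamP toReal d (yOf p s) (eOf p) * u - skP toReal d (yOf p s) (eOf p) * (1 + u ^ 2) ≤
      cancelU p (gamP p d) (potK p d) s * u := by
  obtain ⟨hi1, hi2⟩ := inv_arc_bounds hs hz
  have eU : cancelU p (gamP p d) (potK p d) s =
      gP toReal d (eOf p) * (1 / arc s - invLo toReal (yOf p s) (eOf p)) +
        eOf p * lamP toReal d (yOf p s) (eOf p) := by
    rw [cancelU, gam_eq, potK, invLo_eq]
    simp only [lamP, zP, yOf, eOf, toReal]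
    field_simp
    ring
  have hsk : skP toReal d (yOf p s) (eOf p) =
      gP toReal d (eOf p) * (47 / 100 * (s ^ 2) ^ 4) / 2 := by
    rw [skP, invRes_eq]
    simp only [toReal]
    push_cast
    ring
  rw [eU, hsk, invLo_eq]
  have hε0 := mul_nonneg hG (sub_nonneg.2 hi1)
  have hε1 := mul_le_mul_of_nonneg_left (sub_le_iff_le_add'.2 hi2) hG
  nlinarith [mul_nonneg hε0 (sq_nonneg (u + 1)), mul_nonneg (sub_nonneg.2 hε1)
    (add_nonneg zero_le_one (sq_nonneg u))]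

/-- The coefficient of `u ^ 2 / v`, less the share of the square in `δ`, is above `α v`. -/
theorem quadU_ge {s v α : ℝ} {qh : ℚ} (hs : s ∈ Ioo (0 : ℝ) 1) (hz : s ^ 2 ≤ 44 / 100)
    (hg : 0 < (d.g : ℝ)) (hG : 0 ≤ gP toReal d (eOf p))
    (hν : nLo toReal d (eOf p) ≤ nuP p d ∧ nuP p d ≤ nHi toReal d (eOf p)) (hv : 0 < v)
    (hvh : v ≤ qh) (ha : α * v ≤ aP toReal d (yOf p s) (eOf p) qh) :
    α * v ≤ cancelUU p (gamP p d) (nuP p d) (d.g : ℝ) s v -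
      (d.side : ℝ) * nuP p d * s ^ 2 := by
  obtain ⟨hi1, hi2⟩ := inv_arc_bounds hs hz
  refine ha.trans ?_
  have hc : 0 ≤ 1 - s ^ 2 := by linarith
  have hK : (2 * v + 1) / (2 * (v + 2)) ≤ (2 * (qh : ℝ) + 1) / (2 * ((qh : ℝ) + 2)) := by
    rw [div_le_div_iff₀ (by linarith) (by linarith)]
    nlinarith
  have hsd : 0 ≤ (d.side : ℝ) := by
    rw [Par.side]
    push_cast
    positivity
  have b1 : gP toReal d (eOf p) * (1 / arc s) * ((2 * v + 1) / (2 * (v + 2))) ≤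
      gP toReal d (eOf p) * (invLo toReal (yOf p s) (eOf p) + invRes toReal (yOf p s) (eOf p)) *
        ((2 * (qh : ℝ) + 1) / (2 * ((qh : ℝ) + 2))) := by
    rw [invLo_eq, invRes_eq]
    exact mul_le_mul (mul_le_mul_of_nonneg_left (by linarith) hG) hK (by positivity)
      (mul_nonneg hG (by positivity))
  have b2 := mul_le_mul_of_nonneg_left (mul_le_mul_of_nonneg_right hν.1 hc)
    (show 0 ≤ 2 * (1 + (d.g : ℝ)) by positivity)
  have b3 := mul_le_mul_of_nonneg_left (mul_le_mul_of_nonneg_right hν.2 (sq_nonneg s)) hsd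
  rw [cancelUU, gam_eq, aP, cP_eq, zP_eq]
  simp only [toReal]
  push_cast
  linarith

/-- The coefficient of `δ ^ 2`. -/
theorem quadD_ge {s v δ : ℝ} (hs : s ∈ Ioo (0 : ℝ) 1)
    (hν : nLo toReal d (eOf p) ≤ nuP p d ∧ nuP p d ≤ nHi toReal d (eOf p)) :
    (1 - s ^ 2) * (2 * nuP p d * (d.g : ℝ) * (1 + d.g) / v * (s * δ) ^ 2) +
        bP toReal d (yOf p s) (eOf p) * δ ^ 2 ≤
      (1 - s ^ 2) * (cancelDD p (nuP p d) (d.g : ℝ) (potB p d) (potB' p d) s v * (s * δ) ^ 2) := by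
  have hc : 0 < 1 - s ^ 2 := by nlinarith [hs.1, hs.2]
  have e1 : (1 - s ^ 2) * (potB' p d s - potRate p s * potB p d s) * s ^ 2 =
      (1 - s ^ 2) * ((d.a : ℝ) * (1 + yOf p s + s ^ 2)) +
        d.a2 * yOf p s * (yOf p s - (1 - s ^ 2)) := by
    simp only [potB', potB, potRate, yOf]
    field_simp [hs.1.ne', hc.ne']
    ring
  have e2 : ((p : ℝ) + 4) * s ^ 2 = yOf p s + 3 * s ^ 2 := by rw [yOf]; ring
  have e3 : bP toReal d (yOf p s) (eOf p) = (1 - s ^ 2) * ((d.a : ℝ) * (1 + yOf p s + s ^ 2)) +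
      d.a2 * yOf p s * (yOf p s - (1 - s ^ 2)) -
      (1 - s ^ 2) * (nHi toReal d (eOf p) * (yOf p s + 3 * s ^ 2) * (d.g : ℝ) ^ 2) := by
    rw [bP, cP_eq, zP_eq]
    simp only [toReal]
    push_cast
    ring
  have hy : 0 ≤ yOf p s := by rw [yOf]; positivity
  have b := mul_le_mul_of_nonneg_left (mul_le_mul_of_nonneg_right hν.2
    (show 0 ≤ (yOf p s + 3 * s ^ 2) * (d.g : ℝ) ^ 2 * δ ^ 2 by positivity)) hc.le
  have e4 : (1 - s ^ 2) *
      (cancelDD p (nuP p d) (d.g : ℝ) (potB p d) (potB' p d) s v * (s * δ) ^ 2) =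
      ((1 - s ^ 2) * (potB' p d s - potRate p s * potB p d s) * s ^ 2) * δ ^ 2 -
        (1 - s ^ 2) * (nuP p d * ((((p : ℝ) + 4) * s ^ 2) * (d.g : ℝ) ^ 2 * δ ^ 2)) +
        (1 - s ^ 2) * (2 * nuP p d * (d.g : ℝ) * (1 + d.g) / v * (s * δ) ^ 2) := by
    rw [cancelDD]
    ring
  rw [e4, e1, e2, e3]
  linarith

/-- The cancelled quadratic, times `c ^ 2`, is above the form of the polynomials. -/
theorem base_ge {ell s t a r q v δ α : ℝ} {qh : ℚ} (h : FlatState p ell s t a r q)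
    (hg : 0 < (d.g : ℝ)) (hG : 0 ≤ gP toReal d (eOf p)) (hn : 0 < nLo toReal d (eOf p))
    (hν : nLo toReal d (eOf p) ≤ nuP p d ∧ nuP p d ≤ nHi toReal d (eOf p)) (hz : s ^ 2 ≤ 44 / 100)
    (hv : 1 / r = v) (hδ : (t - s) / s = δ) (hvh : v ≤ qh)
    (ha : α * v ≤ aP toReal d (yOf p s) (eOf p) qh) :
    cP toReal (yOf p s) (eOf p) * (α * (v - 1) ^ 2) +
        cP toReal (yOf p s) (eOf p) * eOf p * lamP toReal d (yOf p s) (eOf p) * (v - 1) +
        eOf p * yOf p s * dP toReal d (yOf p s) (eOf p) * δ +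
        cP toReal (yOf p s) (eOf p) * udP toReal d (yOf p s) (eOf p) * ((v - 1) * δ) +
        bP toReal d (yOf p s) (eOf p) * δ ^ 2 -
        cP toReal (yOf p s) (eOf p) * skP toReal d (yOf p s) (eOf p) * (1 + (v - 1) ^ 2) ≤
      (1 - s ^ 2) * (cancelU p (gamP p d) (potK p d) s * (1 / r - 1) +
        cancelD p (nuP p d) (potK p d) (potK' p d) s * (t - s) +
        cancelUU p (gamP p d) (nuP p d) (d.g : ℝ) s (1 / r) * ((1 / r - 1) ^ 2 / (1 / r)) +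
        cancelDD p (nuP p d) (d.g : ℝ) (potB p d) (potB' p d) s (1 / r) * (t - s) ^ 2 +
        cancelUD (nuP p d) (d.g : ℝ) (potB p d) s (1 / r) * ((1 / r - 1) * (t - s))) := by
  have hs := h.state.s_mem
  have hv0 : 0 < v := by rw [← hv]; have := h.state.rate_pos; positivity
  have ht : t - s = s * δ := by rw [← hδ]; field_simp [hs.1.ne']
  rw [hv, ht, cP_eq]
  have hc : 0 < 1 - s ^ 2 := one_sub_pos h
  have hν0 : 0 < nuP p d := hn.trans_le hν.1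
  have hA := quadU_ge hs hz hg hG hν hv0 hvh ha
  have hA2 : α * (v - 1) ^ 2 + (d.side : ℝ) * nuP p d * s ^ 2 * ((v - 1) ^ 2 / v) ≤
      cancelUU p (gamP p d) (nuP p d) (d.g : ℝ) s v * ((v - 1) ^ 2 / v) := by
    have := mul_le_mul_of_nonneg_right hA (show 0 ≤ (v - 1) ^ 2 / v by positivity)
    rw [show α * v * ((v - 1) ^ 2 / v) = α * (v - 1) ^ 2 by field_simp, sub_mul] at this
    linarith
  have hUD : cancelUD (nuP p d) (d.g : ℝ) (potB p d) s v * ((v - 1) * (s * δ)) =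
      udP toReal d (yOf p s) (eOf p) * ((v - 1) * δ) -
        2 * nuP p d * ((d.g : ℝ) ^ 2 - 1) / v * (s ^ 2 * ((v - 1) * δ)) := by
    rw [cancelUD, udP, cP_eq, potB]
    simp only [yOf, toReal]
    push_cast
    field_simp [hs.1.ne']
  have hsq : 0 ≤ 2 * nuP p d * (d.g : ℝ) * (1 + d.g) / v * (s * δ) ^ 2 -
      2 * nuP p d * ((d.g : ℝ) ^ 2 - 1) / v * (s ^ 2 * ((v - 1) * δ)) +
      (d.side : ℝ) * nuP p d * s ^ 2 * ((v - 1) ^ 2 / v) := by
    have e5 : 2 * nuP p d * (d.g : ℝ) * (1 + d.g) / v * (s * δ) ^ 2 -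
        2 * nuP p d * ((d.g : ℝ) ^ 2 - 1) / v * (s ^ 2 * ((v - 1) * δ)) +
        (d.side : ℝ) * nuP p d * s ^ 2 * ((v - 1) ^ 2 / v) =
        nuP p d * s ^ 2 / (2 * v * d.g * (1 + d.g)) *
          (2 * d.g * (1 + d.g) * δ - ((d.g : ℝ) ^ 2 - 1) * (v - 1)) ^ 2 := by
      rw [Par.side]
      push_cast
      field_simp
      ring
    rw [e5]
    positivity
  have i1 := mul_le_mul_of_nonneg_left (linU_ge (p := p) (d := d) hs hz hG (v - 1)) hc.le
  have i2 := mul_le_mul_of_nonneg_left hA2 hc.le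
  have i3 := mul_nonneg hc.le hsq
  have i4 := quadD_ge (v := v) (δ := δ) hs hν
  have i5 : (1 - s ^ 2) * (cancelD p (nuP p d) (potK p d) (potK' p d) s * (s * δ)) =
      eOf p * yOf p s * dP toReal d (yOf p s) (eOf p) * δ := by rw [← potD_eq hs]; ring
  have i6 : (1 - s ^ 2) *
      (cancelUD (nuP p d) (d.g : ℝ) (potB p d) s v * ((v - 1) * (s * δ))) =
      (1 - s ^ 2) * (udP toReal d (yOf p s) (eOf p) * ((v - 1) * δ) -
        2 * nuP p d * ((d.g : ℝ) ^ 2 - 1) / v * (s ^ 2 * ((v - 1) * δ))) := by rw [hUD]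
  linarith

end Vale.Agent.P237.Petty.Cor.Band
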