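import Vale.Agent.P237.Petty.Cor.Band.Sound

/-!
# P237: a tree of cuts that finds a row for every point
-/

namespace Vale.Agent.P237.Petty.Cor.Band

/-- A tree of cuts across the three axes. -/
inductive Cut
  /-- The row of a box. -/
  | leaf (i : ℕ)
  /-- A cut at `m` across the axis `dim`. -/
  | split (dim : ℕ) (m : ℚ) (l r : Cut)

/-- The box contains the other. -/
def Box.holds (R B : Box) : Bool :=
  decide (R.a0 ≤ B.a0) && decide (B.a1 ≤ R.a1) && decide (R.b0 ≤ B.b0) && decide (B.b1 ≤ R.b1) &&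
    decide (R.w0 ≤ B.w0) && decide (B.w1 ≤ R.w1)

/-- The lower part of a box at a cut. -/
def Box.below (B : Box) : ℕ → ℚ → Box
  | 0, m => { B with a1 := m }
  | 1, m => { B with b1 := m }
  | _, m => { B with w1 := m }

/-- The upper part of a box at a cut. -/
def Box.above (B : Box) : ℕ → ℚ → Box
  | 0, m => { B with a0 := m }
  | 1, m => { B with b0 := m }
  | _, m => { B with w0 := m }

/-- Every leaf of the tree holds its part of the box. -/
def Cut.covers (rows : List Box) : Cut → Box → Bool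
  | .leaf i, B => match rows[i]? with
    | some R => R.holds B
    | none => false
  | .split n m l r, B => l.covers rows (B.below n m) && r.covers rows (B.above n m)

theorem Box.mem_of_holds {R B : Box} (h : R.holds B = true) {a b w : ℝ} (hm : B.Mem a b w) :
    R.Mem a b w := by
  simp only [Box.holds, Bool.and_eq_true, decide_eq_true_eq] at h
  obtain ⟨⟨⟨⟨⟨h1, h2⟩, h3⟩, h4⟩, h5⟩, h6⟩ := h
  exact ⟨⟨le_trans (by exact_mod_cast h1) hm.a_mem.1, hm.a_mem.2.trans (by exact_mod_cast h2)⟩,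
    ⟨le_trans (by exact_mod_cast h3) hm.b_mem.1, hm.b_mem.2.trans (by exact_mod_cast h4)⟩,
    ⟨le_trans (by exact_mod_cast h5) hm.w_mem.1, hm.w_mem.2.trans (by exact_mod_cast h6)⟩⟩

theorem Box.mem_cut {B : Box} {a b w : ℝ} (hm : B.Mem a b w) :
    ∀ (n : ℕ) (m : ℚ), (B.below n m).Mem a b w ∨ (B.above n m).Mem a b w
  | 0, m => (le_total a (m : ℝ)).imp (fun h => ⟨⟨hm.a_mem.1, h⟩, hm.b_mem, hm.w_mem⟩)
      fun h => ⟨⟨h, hm.a_mem.2⟩, hm.b_mem, hm.w_mem⟩
  | 1, m => (le_total b (m : ℝ)).imp (fun h => ⟨hm.a_mem, ⟨hm.b_mem.1, h⟩, hm.w_mem⟩)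
      fun h => ⟨hm.a_mem, ⟨h, hm.b_mem.2⟩, hm.w_mem⟩
  | _ + 2, m => (le_total w (m : ℝ)).imp (fun h => ⟨hm.a_mem, hm.b_mem, ⟨hm.w_mem.1, h⟩⟩)
      fun h => ⟨hm.a_mem, hm.b_mem, ⟨h, hm.w_mem.2⟩⟩

theorem Cut.covers_sound {α : Type} {f : α → Box} {rows : List α} {a b w : ℝ} : ∀ (T : Cut) (B : Box),
    T.covers (rows.map f) B = true → B.Mem a b w → ∃ r ∈ rows, (f r).Mem a b w
  | .leaf i, B, h, hm => by
    simp only [Cut.covers, List.getElem?_map] at h
    cases hi : rows[i]? with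
    | none => simp [hi] at h
    | some r =>
      simp only [hi, Option.map_some] at h
      exact ⟨r, List.mem_of_getElem? hi, Box.mem_of_holds h hm⟩
  | .split n m l r, B, h, hm => by
    simp only [Cut.covers, Bool.and_eq_true] at h
    rcases Box.mem_cut hm n m with h' | h'
    · exact Cut.covers_sound l _ h.1 h'
    · exact Cut.covers_sound r _ h.2 h'

end Vale.Agent.P237.Petty.Cor.Band
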