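import Vale.Agent.P237.Petty.Cor.Band.Sound

/-!
# P237: the mean of the remainder of a cell of small values

The remainder less its constant is the derivative of `arc s ^ (p + 3) s Q` over `arc s ^ (p + 1)`,
and that function vanishes at both ends.
-/

namespace Vale.Agent.P237.Petty.Cor.Band

open MeasureTheory Set intervalIntegral
open Vale.Agent.P237.Petty.Cor.Top (toReal)
open Ident (half)

variable {p : ℕ}

/-- The atoms are continuously differentiable along `(p + 1) s ^ 2`. -/
def Fld.smooth (fd : Fld) : Bool :=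
  fd.atoms.all fun a => decide (2 ≤ a.n) || decide (a.n = 0) || decide (a.k ≤ 0)

theorem hasDerivAt_posPow {n : ℕ} (hn : 2 ≤ n) (x : ℝ) :
    HasDerivAt (fun x : ℝ => max 0 x ^ n) (n * max 0 x ^ (n - 1)) x := by
  rcases lt_trichotomy x 0 with hx | rfl | hx
  · rw [max_eq_left hx.le, zero_pow (show n - 1 ≠ 0 by omega), mul_zero]
    refine (hasDerivAt_const x (0 : ℝ)).congr_of_eventuallyEq ?_
    filter_upwards [Iio_mem_nhds hx] with t ht
    rw [max_eq_left (le_of_lt ht), zero_pow (show n ≠ 0 by omega)]
  · rw [max_self, zero_pow (show n - 1 ≠ 0 by omega), mul_zero, hasDerivAt_iff_tendsto_slope]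
    have hc : Filter.Tendsto (fun t : ℝ => max 0 t ^ (n - 1)) (nhdsWithin 0 {0}ᶜ) (nhds 0) := by
      have h : Continuous fun t : ℝ => max 0 t ^ (n - 1) := by fun_prop
      have h2 := h.tendsto 0
      simp only [max_self, zero_pow (show n - 1 ≠ 0 by omega)] at h2
      exact h2.mono_left nhdsWithin_le_nhds
    refine hc.congr' ?_
    filter_upwards [self_mem_nhdsWithin] with t ht
    have ht' : t ≠ 0 := ht
    rw [slope_def_field, max_self, zero_pow (show n ≠ 0 by omega), sub_zero, sub_zero]
    rcases le_total t 0 with h | h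
    · rw [max_eq_left h, zero_pow (show n - 1 ≠ 0 by omega), zero_pow (show n ≠ 0 by omega),
        zero_div]
    · rw [max_eq_right h, eq_div_iff ht', ← pow_succ, show n - 1 + 1 = n by omega]
  · rw [max_eq_right hx.le]
    refine (hasDerivAt_pow n x).congr_of_eventuallyEq ?_
    filter_upwards [Ioi_mem_nhds hx] with t ht
    rw [max_eq_right (le_of_lt ht)]

theorem hasDerivAt_qFull {e w : ℝ} (p : ℕ) (s : ℝ) : ∀ l : List Atom,
    (l.all fun a => decide (2 ≤ a.n) || decide (a.n = 0) || decide (a.k ≤ 0)) = true →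
    HasDerivAt (fun s => qFull (yOf p s) e w l)
      (qFull' (yOf p s) e w l * (2 * ((p : ℝ) + 1) * s)) s
  | [], _ => by simpa [qFull, qFull'] using hasDerivAt_const s (0 : ℝ)
  | a :: l, h => by
    simp only [List.all_cons, Bool.and_eq_true, Bool.or_eq_true, decide_eq_true_eq] at h
    have i := hasDerivAt_qFull (e := e) (w := w) p s l h.2
    have hy : HasDerivAt (fun s => yOf p s - (a.k : ℝ)) (2 * ((p : ℝ) + 1) * s) s := by
      refine (((hasDerivAt_pow 2 s).const_mul ((p : ℝ) + 1)).sub_const (a.k : ℝ)).congr_deriv ?_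
      push_cast
      ring
    have hone : HasDerivAt (fun s => max 0 (yOf p s - (a.k : ℝ)) ^ a.n)
        ((a.n : ℝ) * max 0 (yOf p s - (a.k : ℝ)) ^ (a.n - 1) * (2 * ((p : ℝ) + 1) * s)) s := by
      rcases h.1 with (hn | hn) | hk
      · exact (hasDerivAt_posPow hn _).comp s hy
      · simpa [hn] using hasDerivAt_const s (1 : ℝ)
      · have hk' : (a.k : ℝ) ≤ 0 := by exact_mod_cast hk
        have e1 : ∀ t : ℝ, max 0 (yOf p t - (a.k : ℝ)) = yOf p t - a.k := fun t =>
          max_eq_right (by
            have : 0 ≤ yOf p t := by rw [yOf]; positivity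
            linarith)
        simp only [e1]
        exact hy.pow a.n
    refine ((hone.const_mul (a.c.at toReal e w)).add i).congr_deriv ?_
    simp only [qFull']
    ring

theorem continuous_qFull {e w : ℝ} (p : ℕ) : ∀ l : List Atom,
    Continuous (fun s => qFull (yOf p s) e w l) ∧ Continuous (fun s => qFull' (yOf p s) e w l)
  | [] => by simp [qFull, qFull', continuous_const]
  | a :: l => by
    obtain ⟨i1, i2⟩ := continuous_qFull (e := e) (w := w) p l
    simp only [qFull, qFull', yOf] at i1 i2 ⊢
    constructor <;> fun_prop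

theorem continuous_rem (fd : Fld) (p : ℕ) (w : ℝ) :
    Continuous fun s => remFull fd (yOf p s) (eOf p) w := by
  obtain ⟨i1, i2⟩ := continuous_qFull (e := eOf p) (w := w) p fd.atoms
  simp only [remFull, remOf, zP, yOf] at i1 i2 ⊢
  fun_prop

/-- The mean of the remainder is that of its constant. -/
theorem integral_rem {fd : Fld} (hfd : fd.smooth = true) (p : ℕ) (w : ℝ) :
    ∫ s in (0 : ℝ)..1, arc s ^ (p + 1) * remFull fd (yOf p s) (eOf p) w =
      fd.kap toReal (eOf p) w * half (p + 1) := by
  have hac := continuous_arc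
  have hR := continuous_rem fd p w
  obtain ⟨i1, i2⟩ := continuous_qFull (e := eOf p) (w := w) p fd.atoms
  set F : ℝ → ℝ := fun s => arc s ^ (p + 3) * (s * qFull (yOf p s) (eOf p) w fd.atoms) with hF
  have hFc : Continuous F := by
    rw [hF]
    exact (hac.pow _).mul (continuous_id.mul i1)
  have hD : ∀ s ∈ Ioo (0 : ℝ) 1, HasDerivAt F
      (arc s ^ (p + 1) * remFull fd (yOf p s) (eOf p) w -
        fd.kap toReal (eOf p) w * arc s ^ (p + 1)) s := by
    intro s hs
    have hz : 0 < 1 - s ^ 2 := by nlinarith [hs.1, hs.2]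
    have h2 : arc s ^ 2 = 1 - s ^ 2 := Real.sq_sqrt hz.le
    refine ((hasDerivAt_arc_pow (p + 2) (s := s) ⟨by linarith [hs.1], hs.2⟩).mul
      ((hasDerivAt_id s).mul (hasDerivAt_qFull p s fd.atoms hfd))).congr_deriv ?_
    simp only [id, Pi.mul_apply, remFull, remOf, zP, toReal]
    rw [show arc s ^ (p + 2 + 1) = arc s ^ (p + 1) * (1 - s ^ 2) by rw [← h2]; ring]
    push_cast
    simp only [yOf, eOf]
    field_simp
    ring
  have hci : Continuous fun s => arc s ^ (p + 1) * remFull fd (yOf p s) (eOf p) w -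
      fd.kap toReal (eOf p) w * arc s ^ (p + 1) :=
    ((hac.pow _).mul hR).sub (continuous_const.mul (hac.pow _))
  have h := intervalIntegral.integral_eq_sub_of_hasDerivAt_of_le zero_le_one hFc.continuousOn hD
    (hci.intervalIntegrable _ _)
  have i3 : IntervalIntegrable (fun s => arc s ^ (p + 1) * remFull fd (yOf p s) (eOf p) w)
      volume 0 1 := ((hac.pow _).mul hR).intervalIntegrable _ _
  have i4 : IntervalIntegrable (fun s => fd.kap toReal (eOf p) w * arc s ^ (p + 1)) volume 0 1 :=
    (continuous_const.mul (hac.pow _)).intervalIntegrable _ _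
  rw [intervalIntegral.integral_sub i3 i4, intervalIntegral.integral_const_mul] at h
  have e1 : F 1 = 0 := by simp [hF, arc]
  have e0 : F 0 = 0 := by simp [hF]
  rw [e1, e0, sub_zero] at h
  rw [sub_eq_zero.1 h]
  congr 1

end Vale.Agent.P237.Petty.Cor.Band
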