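import Vale.Agent.P237.Petty.Cor.Band.Tail
import Vale.Agent.P237.Petty.Cor.Band.Mean
import Vale.Agent.P237.Petty.Cor.Band.Cover

/-!
# P237: a cell of small values from its rows

The remainder is the `O ((p + 1) ^ (-2))` spline, with a crude part beyond the chart.
-/

namespace Vale.Agent.P237.Petty.Cor.Band

open MeasureTheory Set
open Vale.Agent.P100.Bernstein
open Vale.Agent.P237.Petty.Cor.Top (toReal)
open Ident (half)
open Huge (moment)

variable {p : ℕ}

/-- The constants and rows of a band of `w = (p + 1) ell`. -/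
structure Data where
  /-- The constants. -/
  par : Par
  /-- The spline. -/
  fld : Fld
  /-- The least `w`. -/
  w0 : ℚ
  /-- The largest `w`. -/
  w1 : ℚ
  /-- The rows in the bulk. -/
  bulk : List Row
  /-- The rows in the chart. -/
  chart : List ChartRow
  /-- The cuts in the bulk. -/
  cut : Cut
  /-- The cuts in the chart. -/
  cutFar : Cut

/-- The budget of the mean. -/
def Data.budget (B : Data) : Expr :=
  let k : Expr := ofQ B.fld.m0 - ofQ B.fld.m1 * eV
  wV * (.frac 3 4 - .frac 74 25 * eV) - (1 + eV) * (wV * k + ofQ (B.par.tailK * tailFac))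

/-- The test of a band without its rows. -/
def Data.ok (B : Data) : Bool :=
  B.par.ok && B.par.tailOK && B.fld.smooth && B.fld.sepFar 32 && decide (0 ≤ B.w0) &&
    decide (B.w1 ≤ 6) && decide (0 ≤ B.par.tailK) &&
    B.cut.covers (B.bulk.map Row.box) ⟨0, 32, 0, 1 / 99, B.w0, B.w1⟩ &&
    B.cutFar.covers (B.chart.map ChartRow.box) ⟨0, 44 / 100, 0, 1, B.w0, B.w1⟩ &&
    okFar ⟨44 / 100, 1, 0, 1, B.w0, B.w1⟩ (remPoly ofQ yV eV wV B.fld B.fld.atoms) &&
    okBulk ⟨0, 1, 0, 1 / 99, B.w0, B.w1⟩ B.budget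

/-- The remainder of a band. -/
noncomputable def Data.psi (B : Data) (p : ℕ) (ell s : ℝ) : ℝ :=
  ell * wS p (arc s) - eOf p ^ 2 * remFull B.fld (yOf p s) (eOf p) (ell * ((p : ℝ) + 1)) -
    (B.par.tailK : ℝ) * ((p : ℝ) + 1) ^ 2 / (1 - s ^ 2) ^ 2 * (s ^ 2 / (44 / 100)) ^ 36

theorem arc_pow_mul_psi (B : Data) (hp : 4 ≤ p) (ell : ℝ) {s : ℝ} (hs : s ∈ Icc (0 : ℝ) 1) :
    arc s ^ (p + 1) * B.psi p ell s = ell * (arc s ^ (p + 1) * wS p (arc s)) -
      eOf p ^ 2 * (arc s ^ (p + 1) * remFull B.fld (yOf p s) (eOf p) (ell * ((p : ℝ) + 1))) -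
      (B.par.tailK : ℝ) * ((p : ℝ) + 1) ^ 2 * (100 / 44) ^ 36 * (arc s ^ (p - 3) * s ^ (2 * 36)) := by
  have h2 : arc s ^ 2 = 1 - s ^ 2 := Real.sq_sqrt (by nlinarith [hs.1, hs.2])
  have e : arc s ^ (p + 1) * ((s ^ 2 / (44 / 100)) ^ 36 / (1 - s ^ 2) ^ 2) =
      (100 / 44) ^ 36 * (arc s ^ (p - 3) * s ^ (2 * 36)) := by
    rw [show p + 1 = p - 3 + 4 by omega, pow_add, ← h2, ← pow_mul, pow_mul s 2 36]
    rcases eq_or_ne (arc s) 0 with h | h
    · simp [h, show p - 3 ≠ 0 by omega]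
    · generalize p - 3 = k
      rw [show s ^ 2 / (44 / 100 : ℝ) = s ^ 2 * (100 / 44) by ring, mul_pow]
      field_simp
      ring
  rw [Data.psi, mul_assoc _ ((100 / 44 : ℝ) ^ 36), ← e]
  ring

/-- The mean of the remainder is not negative. -/
theorem psi_mean {B : Data} (hB : B.ok = true) (hp : 98 ≤ p) {ell : ℝ}
    (h0 : (B.w0 : ℝ) ≤ ell * ((p : ℝ) + 1)) (h1 : ell * ((p : ℝ) + 1) ≤ B.w1) :
    ContinuousOn (fun s => arc s ^ (p + 1) * B.psi p ell s) (Icc 0 1) ∧
      0 ≤ ∫ s in (0 : ℝ)..1, arc s ^ (p + 1) * B.psi p ell s := by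
  simp only [Data.ok, Bool.and_eq_true, decide_eq_true_eq] at hB
  obtain ⟨⟨⟨⟨⟨⟨⟨⟨⟨⟨-, -⟩, hsm⟩, -⟩, hw0⟩, -⟩, hK⟩, -⟩, -⟩, -⟩, hbud⟩ := hB
  set w := ell * ((p : ℝ) + 1) with hw
  have hw0' : 0 ≤ w := le_trans (by exact_mod_cast hw0) h0
  obtain ⟨he, he'⟩ := eOf_bounds hp
  have hac := continuous_arc
  have c1 : Continuous fun s => ell * (arc s ^ (p + 1) * wS p (arc s)) :=
    continuous_const.mul (continuous_arc_pow_wS p)
  have c2 : Continuous fun s =>
      eOf p ^ 2 * (arc s ^ (p + 1) * remFull B.fld (yOf p s) (eOf p) w) :=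
    continuous_const.mul ((hac.pow (p + 1)).mul (continuous_rem B.fld p w))
  have c3 : Continuous fun s => (B.par.tailK : ℝ) * ((p : ℝ) + 1) ^ 2 * (100 / 44) ^ 36 *
      (arc s ^ (p - 3) * s ^ (2 * 36)) :=
    continuous_const.mul ((hac.pow (p - 3)).mul (continuous_pow (2 * 36)))
  have e := fun s (hs : s ∈ Icc (0 : ℝ) 1) => arc_pow_mul_psi B (show 4 ≤ p by omega) ell hs
  refine ⟨((c1.sub c2).sub c3).continuousOn.congr e, ?_⟩
  have i12 : IntervalIntegrable (fun s => ell * (arc s ^ (p + 1) * wS p (arc s)) -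
      eOf p ^ 2 * (arc s ^ (p + 1) * remFull B.fld (yOf p s) (eOf p) w)) volume 0 1 :=
    (c1.sub c2).intervalIntegrable _ _
  rw [intervalIntegral.integral_congr fun s hs => e s (by rwa [uIcc_of_le zero_le_one] at hs),
    ← hw, intervalIntegral.integral_sub i12 (c3.intervalIntegrable _ _),
    intervalIntegral.integral_sub (c1.intervalIntegrable _ _) (c2.intervalIntegrable _ _),
    intervalIntegral.integral_const_mul, intervalIntegral.integral_const_mul,
    intervalIntegral.integral_const_mul, integral_wS (by omega), integral_rem hsm]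
  have hT := mul_le_mul_of_nonneg_left (tail_mean_le hp)
    (show 0 ≤ (B.par.tailK : ℝ) * ((p : ℝ) + 1) ^ 2 by
      have : (0 : ℝ) ≤ (B.par.tailK : ℝ) := by exact_mod_cast hK
      positivity)
  rw [moment] at hT
  have hk := okBulk_nonneg hbud (y := 0) (e := eOf p) (w := w)
    ⟨⟨le_of_eq (by simp), by norm_num⟩, ⟨by push_cast; exact he.le, by push_cast; exact he'⟩, ⟨h0, h1⟩⟩
  simp [Data.budget, eV, wV, toReal] at hk
  have hmu := (MidHigh.muMin_bounds hp).1
  have hH := (Ident.half_pos (p + 1)).le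
  have hm : (0 : ℝ) < (p : ℝ) + 1 := by positivity
  have key : 0 ≤ eOf p ^ 2 / (1 + eOf p) * half (p + 1) *
      (w * Ident.muMin p - (1 + eOf p) * (w * ((B.fld.m0 : ℝ) - B.fld.m1 * eOf p) +
        (B.par.tailK : ℝ) * tailFac)) := by
    refine mul_nonneg (by positivity) ?_
    rw [show (296 : ℝ) / 100 / ((p : ℝ) + 1) = 74 / 25 * eOf p by rw [eOf]; ring] at hmu
    linarith [mul_le_mul_of_nonneg_left hmu hw0']
  have e1 : ell * (half (p + 1) * Ident.muMin p / ((p : ℝ) + 2)) =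
      eOf p ^ 2 / (1 + eOf p) * half (p + 1) * (w * Ident.muMin p) := by
    rw [hw, eOf, show (p : ℝ) + 2 = (p : ℝ) + 1 + 1 by ring]
    field_simp
  have e2 : (B.par.tailK : ℝ) * ((p : ℝ) + 1) ^ 2 *
      ((tailFac : ℝ) / ((p : ℝ) + 1) ^ 4 * half (p + 1)) =
      eOf p ^ 2 * half (p + 1) * ((B.par.tailK : ℝ) * tailFac) := by
    rw [eOf]
    field_simp
  rw [e2, ← mul_assoc] at hT
  rw [e1, Fld.kap]
  simp only [toReal]
  have e3 : eOf p ^ 2 / (1 + eOf p) * half (p + 1) * ((1 + eOf p) *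
      (w * ((B.fld.m0 : ℝ) - B.fld.m1 * eOf p) + (B.par.tailK : ℝ) * tailFac)) =
      eOf p ^ 2 * half (p + 1) *
        (w * ((B.fld.m0 : ℝ) - B.fld.m1 * eOf p) + (B.par.tailK : ℝ) * tailFac) := by
    field_simp
  linarith

/-- The remainder is below the cancelled cell. -/
theorem psi_le {B : Data} (hB : B.ok = true) (hb : ∀ R ∈ B.bulk, R.ok B.par B.fld = true)
    (hc : ∀ R ∈ B.chart, R.ok B.par B.fld = true) (hp : 98 ≤ p) {ell s t a r q : ℝ}
    (h0 : (B.w0 : ℝ) ≤ ell * ((p : ℝ) + 1)) (h1 : ell * ((p : ℝ) + 1) ≤ B.w1)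
    (h : FlatState p ell s t a r q) :
    B.psi p ell s ≤ cancelExpr p (gamP p B.par) (nuP p B.par) ell
      (fun s t => s + (B.par.g : ℝ) * (s - t)) (fun _ _ => 1 + (B.par.g : ℝ))
      (fun _ _ => -(B.par.g : ℝ)) (quadPot (potK p B.par) (potB p B.par))
      (quadPotS (potK p B.par) (potK' p B.par) (potB p B.par) (potB' p B.par))
      (quadPotT (potK p B.par) (potB p B.par)) s t a r := by
  simp only [Data.ok, Bool.and_eq_true, decide_eq_true_eq] at hB
  obtain ⟨⟨⟨⟨⟨⟨⟨⟨⟨⟨hok, hT⟩, -⟩, hsep⟩, hw0⟩, hw6⟩, hK⟩, hcov⟩, hcovF⟩, hRfar⟩, -⟩ := hB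
  have hd := parOK_of_ok hok hp
  set w := ell * ((p : ℝ) + 1) with hw
  have hm : (0 : ℝ) < (p : ℝ) + 1 := by positivity
  have hwe : ell = w * eOf p := by rw [hw, eOf]; field_simp
  have hw0' : 0 ≤ w := le_trans (by exact_mod_cast hw0) h0
  obtain ⟨he, he'⟩ := eOf_bounds hp
  have hs := h.state.s_mem
  have hs2 : s ^ 2 ≤ 1 := pow_le_one₀ hs.1.le hs.2.le
  have hy0 : 0 ≤ yOf p s := by rw [yOf]; positivity
  have hT0 : 0 ≤ (B.par.tailK : ℝ) * ((p : ℝ) + 1) ^ 2 / (1 - s ^ 2) ^ 2 *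
      (s ^ 2 / (44 / 100)) ^ 36 := by
    have : (0 : ℝ) ≤ (B.par.tailK : ℝ) := by exact_mod_cast hK
    positivity
  rcases le_or_gt (s ^ 2) (44 / 100 : ℝ) with hz | hz
  · have hgam : 0 ≤ gamP p B.par := by
      have := hd.gam_nonneg
      have := Ident.b0_pos p
      rw [gamP]; positivity
    have hq : -(eOf p ^ 2 * remFull B.fld (yOf p s) (eOf p) w) ≤ quadCell p B.par s t r := by
      rcases le_or_gt (yOf p s) 32 with hy | hy
      · obtain ⟨R, hR, hmem⟩ := Cut.covers_sound (a := yOf p s) (b := eOf p) (w := w) _ _ hcov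
          ⟨⟨by push_cast; exact hy0, by push_cast; exact hy⟩,
            ⟨by push_cast; exact he.le, by push_cast; exact he'⟩, ⟨h0, h1⟩⟩
        exact Row.sound (hb R hR) hd hp h hwe hmem
      · obtain ⟨R, hR, hmem⟩ := Cut.covers_sound (a := s ^ 2) (b := 32 / yOf p s) (w := w) _ _ hcovF
          ⟨⟨by push_cast; positivity, by push_cast; exact hz⟩,
            ⟨by push_cast; positivity, by push_cast; rw [div_le_one (by linarith)]; exact hy.le⟩,
            ⟨h0, h1⟩⟩
        exact ChartRow.sound (hc R hR) hd hp h hwe hy.le hmem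
    refine le_trans ?_ (cancelExpr_quad_ge hgam _ _ _ _ h)
    rw [quadCell] at hq
    rw [Data.psi, ← hw]
    linarith
  · have hell : ell ≤ 6 / ((p : ℝ) + 1) := by
      rw [le_div_iff₀ hm, ← hw]
      exact h1.trans (by exact_mod_cast hw6)
    have hy : 32 ≤ yOf p s := by
      rw [yOf]
      have : (98 : ℝ) ≤ p := by exact_mod_cast hp
      nlinarith
    have hR : 0 ≤ remFull B.fld (yOf p s) (eOf p) w := by
      have := okFar_nonneg hRfar (y := yOf p s) (e := eOf p) (w := w) (by linarith)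
        ⟨⟨by rw [show yOf p s * eOf p = s ^ 2 from zP_eq p s]; push_cast; linarith,
            by rw [show yOf p s * eOf p = s ^ 2 from zP_eq p s]; push_cast; linarith⟩,
          ⟨by push_cast; positivity, by push_cast; rw [div_le_one (by linarith)]; exact hy⟩,
          ⟨h0, h1⟩⟩
      simp [yV, eV, wV] at this
      rwa [remPoly_far hsep hy] at this
    refine le_trans ?_ (tail_pointwise hd hT hp h (by rw [hwe]; positivity) hell hz.le)
    rw [Data.psi, ← hw]
    linarith [mul_nonneg (sq_nonneg (eOf p)) hR]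

/-- A cell from a band that passes its test. -/
theorem corCell_of_band {B : Data} (hB : B.ok = true) (hb : ∀ R ∈ B.bulk, R.ok B.par B.fld = true)
    (hc : ∀ R ∈ B.chart, R.ok B.par B.fld = true) (hp : 98 ≤ p) {lo hi : ℝ}
    (hlo : (B.w0 : ℝ) ≤ lo * ((p : ℝ) + 1)) (hhi : hi * ((p : ℝ) + 1) ≤ B.w1) :
    CorCell p lo hi := fun ell hl => by
  have hok : B.par.ok = true := by
    simp only [Data.ok, Bool.and_eq_true] at hB
    exact hB.1.1.1.1.1.1.1.1.1.1
  have hd := parOK_of_ok hok hp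
  obtain ⟨he, he'⟩ := eOf_bounds hp
  have hgam : 0 < gamP p B.par := by
    simp only [Par.ok, Bool.and_eq_true, decide_eq_true_eq] at hok
    obtain ⟨⟨⟨⟨-, h2⟩, h3⟩, -⟩, -⟩ := hok
    have h2' : (0 : ℝ) < 1 + 2 * (B.par.th : ℝ) := by exact_mod_cast h2
    have h3' : (0 : ℝ) < 1 + 2 * (B.par.th : ℝ) + (B.par.g1 : ℝ) / 99 := by exact_mod_cast h3
    have hG : 0 < gP toReal B.par (eOf p) := by
      simp only [gP, toReal]
      push_cast
      linarith [mul_nonneg (show 0 ≤ 1 - eOf p * 99 by linarith) h2'.le, mul_pos he h3']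
    have := Ident.b0_pos p
    rw [gamP]; positivity
  have hm : (0 : ℝ) ≤ (p : ℝ) + 1 := by positivity
  have h0 := hlo.trans (mul_le_mul_of_nonneg_right hl.1 hm)
  have h1 := (mul_le_mul_of_nonneg_right hl.2 hm).trans hhi
  have hnu : 0 ≤ nuP p B.par := hd.low_pos.le.trans hd.nu_bounds.1
  obtain ⟨hψ, hmean⟩ := psi_mean hB hp h0 h1
  have hac := continuous_arc
  refine ⟨gamP p B.par, nuP p B.par, _, ell, hgam, hnu, Lift.muMin_pos (by omega), le_rfl,
    corBound_of_flat hnu le_rfl (flatField_of_cancel (by omega) (axTest_affine (B.par.g : ℝ))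
      (nullField_quadPot (k := potK p B.par) (k' := potK' p B.par) (β := potB p B.par)
        (β' := potB' p B.par)
        (B := fun s => arc s ^ (p + 1) *
          (-(B.par.a : ℝ) * (1 - s ^ 2) - B.par.a2 * ((p : ℝ) + 1) * s ^ 2))
        (fun s _ => hasDerivAt_potK p B.par s) (fun s hs => hasDerivAt_potB hs) ?_ ?_
        fun s hs => ?_)
      hψ hmean fun s t a r q h => psi_le hB hb hc hp h0 h1 h)⟩
  · exact ((hac.pow _).mul (by unfold potK; fun_prop)).continuousOn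
  · exact ((hac.pow _).mul (by fun_prop)).continuousOn
  · have := hs.1.ne'
    rw [potB]
    field_simp

end Vale.Agent.P237.Petty.Cor.Band
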