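import Vale.Agent.P100.Bernstein.Cert

/-!
# P237: the kernel check on a row, with bisection, and the chart at infinity

In the chart the variables are `z = y e`, `φ = 32 / y` and `w`.
-/

namespace Vale.Agent.P237.Petty.Cor.Band

open Vale.Agent.P100.Bernstein

/-- The product of the first two variables. -/
def isZ : Expr → Expr → Bool
  | .var 0, .var 1 => true
  | _, _ => false

theorem isZ_eq {a b : Expr} (h : isZ a b = true) : a = .var 0 ∧ b = .var 1 := by
  unfold isZ at h
  split at h
  · exact ⟨rfl, rfl⟩
  · simp at h

/-- A change of variables to `(z, φ, w)`, with the power of `φ`. -/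
def toChart : Expr → Expr × ℕ
  | .num c => (.num c, 0)
  | .frac c d => (.frac c d, 0)
  | .var i => if i = 0 then (.num 32, 1)
      else if i = 1 then (.frac 1 32 * .var 0 * .var 1, 0) else (.var 2, 0)
  | .add a b => (.add ((toChart a).1 * .var 1 ^ ((toChart b).2 - (toChart a).2))
      ((toChart b).1 * .var 1 ^ ((toChart a).2 - (toChart b).2)),
      max (toChart a).2 (toChart b).2)
  | .sub a b => (.sub ((toChart a).1 * .var 1 ^ ((toChart b).2 - (toChart a).2))
      ((toChart b).1 * .var 1 ^ ((toChart a).2 - (toChart b).2)),
      max (toChart a).2 (toChart b).2)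
  | .neg a => (.neg (toChart a).1, (toChart a).2)
  | .mul a b => if isZ a b then (.var 0, 0)
      else (.mul (toChart a).1 (toChart b).1, (toChart a).2 + (toChart b).2)
  | .pow a k => (.pow (toChart a).1 k, (toChart a).2 * k)

theorem toChart_eval {y e w z ph : ℝ} (hy : y * ph = 32) (he : e = 1 / 32 * z * ph)
    (hz : y * e = z) : ∀ a : Expr, a.ok 3 = true →
      (toChart a).1.eval [z, ph, w] = ph ^ (toChart a).2 * a.eval [y, e, w]
  | .num c, _ => by simp [toChart, Expr.eval]
  | .frac c d, _ => by simp [toChart, Expr.eval]
  | .var i, h => by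
    simp only [Expr.ok, decide_eq_true_eq] at h
    rcases i with _ | _ | _ | i
    · simp [toChart, Expr.eval, ← hy, mul_comm]
    · simp [toChart, Expr.eval, he]
    · simp [toChart, Expr.eval]
    · omega
  | .add a b, h => by
    simp only [Expr.ok, Bool.and_eq_true] at h
    show (toChart a).1.eval [z, ph, w] * ph ^ ((toChart b).2 - (toChart a).2) +
      (toChart b).1.eval [z, ph, w] * ph ^ ((toChart a).2 - (toChart b).2) =
      ph ^ max (toChart a).2 (toChart b).2 * (a.eval [y, e, w] + b.eval [y, e, w])
    rw [toChart_eval hy he hz a h.1, toChart_eval hy he hz b h.2, mul_add, mul_right_comm,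
      ← pow_add, mul_right_comm (ph ^ _) (b.eval _), ← pow_add,
      show (toChart a).2 + ((toChart b).2 - (toChart a).2) = max (toChart a).2 (toChart b).2 by omega,
      show (toChart b).2 + ((toChart a).2 - (toChart b).2) = max (toChart a).2 (toChart b).2 by omega]
  | .sub a b, h => by
    simp only [Expr.ok, Bool.and_eq_true] at h
    show (toChart a).1.eval [z, ph, w] * ph ^ ((toChart b).2 - (toChart a).2) -
      (toChart b).1.eval [z, ph, w] * ph ^ ((toChart a).2 - (toChart b).2) =
      ph ^ max (toChart a).2 (toChart b).2 * (a.eval [y, e, w] - b.eval [y, e, w])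
    rw [toChart_eval hy he hz a h.1, toChart_eval hy he hz b h.2, mul_sub, mul_right_comm,
      ← pow_add, mul_right_comm (ph ^ _) (b.eval _), ← pow_add,
      show (toChart a).2 + ((toChart b).2 - (toChart a).2) = max (toChart a).2 (toChart b).2 by omega,
      show (toChart b).2 + ((toChart a).2 - (toChart b).2) = max (toChart a).2 (toChart b).2 by omega]
  | .neg a, h => by
    simp only [Expr.ok] at h
    show -(toChart a).1.eval [z, ph, w] = ph ^ (toChart a).2 * -a.eval [y, e, w]
    rw [toChart_eval hy he hz a h, mul_neg]
  | .mul a b, h => by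
    simp only [Expr.ok, Bool.and_eq_true] at h
    have ha := toChart_eval (w := w) hy he hz a h.1
    have hb := toChart_eval (w := w) hy he hz b h.2
    by_cases hs : isZ a b = true
    · obtain ⟨rfl, rfl⟩ := isZ_eq hs
      simp [toChart, isZ, Expr.eval, hz]
    · simp only [toChart, hs, Bool.false_eq_true, if_false, Expr.eval]
      rw [ha, hb, pow_add]
      ring
  | .pow a k, h => by
    simp only [Expr.ok] at h
    show (toChart a).1.eval [z, ph, w] ^ k = ph ^ ((toChart a).2 * k) * a.eval [y, e, w] ^ k
    rw [toChart_eval hy he hz a h, mul_pow, pow_mul]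

end Vale.Agent.P237.Petty.Cor.Band
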