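import Vale.Agent.P237.Petty.Cor.Band.Fld
import Vale.Agent.P237.Petty.Cor.Top.Bounds

/-!
# P237: the polynomials of a cell of small values as expressions of the kernel check
-/

namespace Vale.Agent.P237.Petty.Cor.Band

open Vale.Agent.P100.Bernstein
open Vale.Agent.P237.Petty.Cor.Top (toReal)

/-- A rational constant. -/
def ofQ (q : ℚ) : Expr := .frac q.num q.den

@[simp] theorem eval_ofQ (x : List ℝ) (q : ℚ) : (ofQ q).eval x = toReal q := by
  simp [ofQ, toReal, Rat.cast_def]

variable (x : List ℝ) (d : Par) (P : Piece) (F : Env) (R y e w A : Expr)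

@[simp] theorem eval_zP : (zP y e).eval x = zP (y.eval x) (e.eval x) := by simp [zP]

@[simp] theorem eval_cP : (cP ofQ y e).eval x = cP toReal (y.eval x) (e.eval x) := by simp [cP]

@[simp] theorem eval_gP : (gP ofQ d e).eval x = gP toReal d (e.eval x) := by simp [gP]

@[simp] theorem eval_nP : (nP ofQ d e).eval x = nP toReal d (e.eval x) := by simp [nP]

@[simp] theorem eval_nLo : (nLo ofQ d e).eval x = nLo toReal d (e.eval x) := by simp [nLo]

@[simp] theorem eval_nHi : (nHi ofQ d e).eval x = nHi toReal d (e.eval x) := by simp [nHi]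

@[simp] theorem eval_invLo : (invLo ofQ y e).eval x = invLo toReal (y.eval x) (e.eval x) := by
  simp [invLo]

@[simp] theorem eval_invRes : (invRes ofQ y e).eval x = invRes toReal (y.eval x) (e.eval x) := by
  simp [invRes]

@[simp] theorem eval_lamP : (lamP ofQ d y e).eval x = lamP toReal d (y.eval x) (e.eval x) := by
  simp [lamP]

@[simp] theorem eval_dP : (dP ofQ d y e).eval x = dP toReal d (y.eval x) (e.eval x) := by simp [dP]

@[simp] theorem eval_bP : (bP ofQ d y e).eval x = bP toReal d (y.eval x) (e.eval x) := by simp [bP]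

@[simp] theorem eval_udP : (udP ofQ d y e).eval x = udP toReal d (y.eval x) (e.eval x) := by
  simp [udP]

@[simp] theorem eval_aP (vh : ℚ) :
    (aP ofQ d y e vh).eval x = aP toReal d (y.eval x) (e.eval x) vh := by simp [aP]

@[simp] theorem eval_skP : (skP ofQ d y e).eval x = skP toReal d (y.eval x) (e.eval x) := by
  simp [skP]

@[simp] theorem eval_skP2 : (skP2 ofQ d y e).eval x = skP2 toReal d (y.eval x) (e.eval x) := by
  simp [skP2]

@[simp] theorem eval_mulPow (b : Expr) : ∀ (a : Expr) (n : ℕ),
    (mulPow a b n).eval x = mulPow (a.eval x) (b.eval x) n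
  | _, 0 => rfl
  | _, 1 => by simp [mulPow]
  | _, n + 2 => by simp [mulPow]

@[simp] theorem eval_term (t : Term) :
    (t.at ofQ y e w).eval x = t.at toReal (y.eval x) (e.eval x) (w.eval x) := by
  simp [Term.at]

@[simp] theorem eval_mult : ∀ l : Mult,
    (Mult.at ofQ y e w l).eval x = Mult.at toReal (y.eval x) (e.eval x) (w.eval x) l
  | [] => by simp [Mult.at]
  | [t] => by simp [Mult.at]
  | t :: u :: l => by simp [Mult.at, eval_mult (u :: l)]

@[simp] theorem eval_env : (F.at ofQ y e).eval x = F.at toReal (y.eval x) (e.eval x) := by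
  simp [Env.at]

@[simp] theorem eval_qP : (qP ofQ y e).eval x = qP toReal (y.eval x) (e.eval x) := by simp [qP]

@[simp] theorem eval_boxA : (boxA ofQ y e).eval x = boxA toReal (y.eval x) (e.eval x) := by
  simp [boxA]

@[simp] theorem eval_boxB :
    (boxB ofQ y e w).eval x = boxB toReal (y.eval x) (e.eval x) (w.eval x) := by
  simp [boxB]

@[simp] theorem eval_boxH :
    (boxH ofQ P F y e w).eval x = boxH toReal P F (y.eval x) (e.eval x) (w.eval x) := by
  simp [boxH]

@[simp] theorem eval_cutK : (cutK ofQ P e w).eval x = cutK toReal P (e.eval x) (w.eval x) := by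
  simp [cutK]

@[simp] theorem eval_cutC : (cutC ofQ P e w).eval x = cutC toReal P (e.eval x) (w.eval x) := by
  simp [cutC]

@[simp] theorem eval_chord1 :
    (chord1 ofQ P e w).eval x = chord1 toReal P (e.eval x) (w.eval x) := by
  simp [chord1]

@[simp] theorem eval_chord2 :
    (chord2 ofQ P y e w).eval x = chord2 toReal P (y.eval x) (e.eval x) (w.eval x) := by
  simp [chord2]

@[simp] theorem eval_nearA :
    (nearA ofQ d P y e w).eval x = nearA toReal d P (y.eval x) (e.eval x) (w.eval x) := by
  simp [nearA]

@[simp] theorem eval_farA :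
    (farA ofQ d P y e w).eval x = farA toReal d P (y.eval x) (e.eval x) (w.eval x) := by
  simp [farA]

@[simp] theorem eval_alphaP : (alphaP ofQ P A).eval x = alphaP toReal P (A.eval x) := by
  simp [alphaP]

@[simp] theorem eval_alphaOK : (alphaOK ofQ P A).eval x = alphaOK toReal P (A.eval x) := by
  simp [alphaOK]

/-- The values of the coefficients of a form. -/
noncomputable def evalForm (M : Form Expr) : Form ℝ :=
  ⟨M.a.eval x, M.b.eval x, M.c.eval x, M.d.eval x, M.f.eval x, M.g.eval x⟩

theorem evalForm_near : evalForm x (nearForm ofQ d P F R y e w) =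
    nearForm toReal d P F (R.eval x) (y.eval x) (e.eval x) (w.eval x) := by
  simp [evalForm, nearForm]

theorem evalForm_far : evalForm x (farForm ofQ d P F R y e w) =
    farForm toReal d P F (R.eval x) (y.eval x) (e.eval x) (w.eval x) := by
  simp [evalForm, farForm]

theorem eval_minor (M : Form Expr) : (M.minor ofQ).eval x = (evalForm x M).minor toReal := by
  simp [Form.minor, evalForm]

theorem eval_det (M : Form Expr) : (M.det ofQ).eval x = (evalForm x M).det toReal := by
  simp [Form.det, evalForm, eval_minor]

@[simp] theorem eval_cf (c : Cf) :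
    (c.at ofQ e w).eval x = c.at toReal (e.eval x) (w.eval x) := by simp [Cf.at]

@[simp] theorem eval_qPoly : ∀ l : List Atom,
    (qPoly ofQ y e w l).eval x = qPoly toReal (y.eval x) (e.eval x) (w.eval x) l
  | [] => by simp [qPoly]
  | a :: l => by simp [qPoly, eval_qPoly l]

@[simp] theorem eval_qPoly' : ∀ l : List Atom,
    (qPoly' ofQ y e w l).eval x = qPoly' toReal (y.eval x) (e.eval x) (w.eval x) l
  | [] => by simp [qPoly']
  | a :: l => by simp [qPoly', eval_qPoly' l]

@[simp] theorem eval_remPoly (fd : Fld) (l : List Atom) :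
    (remPoly ofQ y e w fd l).eval x =
      remPoly toReal (y.eval x) (e.eval x) (w.eval x) fd l := by
  simp [remPoly, remOf, Fld.kap]

end Vale.Agent.P237.Petty.Cor.Band
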