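import Vale.Agent.P237.Petty.Cor.Band.Row

/-!
# P237: the spline of the remainder of a cell of small values

The remainder is `κ + (1 - y - 3 y e) Q + 2 y (1 - y e) Q'` for a spline `Q` in `y` with
coefficients affine in `e` and in `w`; its mean against the power of the half circle is that of `κ`.
-/

namespace Vale.Agent.P237.Petty.Cor.Band

/-- A coefficient `a₀ + a₁ w + e (b₀ + b₁ w)`. -/
structure Cf where
  /-- The constant. -/
  a0 : ℚ
  /-- The slope in `w`. -/
  a1 : ℚ
  /-- The slope in `e`. -/
  b0 : ℚ
  /-- The slope in `e w`. -/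
  b1 : ℚ

/-- A multiple of `((y - k)₊) ^ n`. -/
structure Atom where
  /-- The knot. -/
  k : ℚ
  /-- The power. -/
  n : ℕ
  /-- The coefficient. -/
  c : Cf

/-- The spline with the two constants of `κ`. -/
structure Fld where
  /-- The constant of `κ / w`. -/
  m0 : ℚ
  /-- The slope of `κ / w` in `e`. -/
  m1 : ℚ
  /-- The atoms. -/
  atoms : List Atom

section

variable {α : Type} [Add α] [Sub α] [Mul α] [Pow α ℕ] (C : ℚ → α) (y e w : α)

/-- The value of a coefficient. -/
def Cf.at (c : Cf) : α := C c.a0 + C c.a1 * w + e * (C c.b0 + C c.b1 * w)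

/-- The spline where exactly the atoms of the list are active. -/
def qPoly : List Atom → α
  | [] => C 0
  | a :: l => a.c.at C e w * (y - C a.k) ^ a.n + qPoly l

/-- Its derivative. -/
def qPoly' : List Atom → α
  | [] => C 0
  | a :: l => a.c.at C e w * (C (a.n : ℚ) * (y - C a.k) ^ (a.n - 1)) + qPoly' l

/-- The constant of the mean. -/
def Fld.kap (fd : Fld) : α := w * (C fd.m0 - C fd.m1 * e)

/-- The remainder from the spline and its derivative. -/
def remOf (fd : Fld) (Q D : α) : α :=
  fd.kap C e w + (C 1 - y - C 3 * zP y e) * Q + C 2 * y * (C 1 - zP y e) * D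

/-- The remainder where exactly the atoms of the list are active. -/
def remPoly (fd : Fld) (l : List Atom) : α :=
  remOf C y e w fd (qPoly C y e w l) (qPoly' C y e w l)

end

/-- The atoms active from `y₀` on. -/
def Fld.active (fd : Fld) (y0 : ℚ) : List Atom := fd.atoms.filter fun a => decide (a.k ≤ y0)

/-- No knot is inside `(y₀, y₁)`. -/
def Fld.sep (fd : Fld) (y0 y1 : ℚ) : Bool :=
  fd.atoms.all fun a => decide (a.k ≤ y0) || (decide (2 ≤ a.n) && decide (y1 ≤ a.k))

/-- No knot is above `y₀`. -/
def Fld.sepFar (fd : Fld) (y0 : ℚ) : Bool := fd.atoms.all fun a => decide (a.k ≤ y0)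

end Vale.Agent.P237.Petty.Cor.Band
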