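import Vale.Agent.P237.Petty.Cor.Band.Poly

/-!
# P237: the forms of a cell of small values on a piece of values of `1 / r`

On `1 / r ≤ 21 / 20` the form is over `(e ^ 2, e, 1)`; above it is plain. Multipliers are polynomials
in `(y, e)`, affine in `w`.
-/

namespace Vale.Agent.P237.Petty.Cor.Band

/-- A term `(c₀ + c₁ w) y ^ i e ^ j (y e) ^ l` of a multiplier. -/
structure Term where
  /-- The power of `y`. -/
  i : ℕ
  /-- The power of `e`. -/
  j : ℕ
  /-- The power of `y e`. -/
  l : ℕ
  /-- The constant. -/
  c0 : ℚ
  /-- The slope. -/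
  c1 : ℚ

/-- A multiplier. -/
abbrev Mult := List Term

/-- A piece of values of `1 / r` with its multipliers. -/
structure Piece where
  /-- The start. -/
  vl : ℚ
  /-- The end. -/
  vh : ℚ
  /-- Above the square root of the end. -/
  sv : ℚ
  /-- The base of the cut. -/
  v0 : ℚ := 1
  /-- Below the logarithm of the base. -/
  L0 : ℚ := 0
  /-- The slack of the coefficient of `u ^ 2`. -/
  gam : ℚ := 0
  /-- The cut. -/
  mu : Mult := []
  /-- The box below. -/
  rho : Mult := []
  /-- The product of the boxes. -/
  eta : Mult := []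
  /-- The tail chord at the abscissa. -/
  tau : Mult := []
  /-- The tail chord at half of it. -/
  tau2 : Mult := []
  /-- The product with the first tail chord. -/
  rlt : Mult := []
  /-- The product with the second tail chord. -/
  rlt2 : Mult := []
  /-- The interval of `u`. -/
  the : Mult := []
  /-- Above the excess of `1 / r`, over `e w`. -/
  cap : ℚ := 0

/-- A bound of the mass below over `s c ^ m`, as `φ₀ + φ₁ y + φ₂ y ^ 2 e`. -/
structure Env where
  /-- The constant. -/
  p0 : ℚ
  /-- The slope in `y`. -/
  p1 : ℚ := 0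
  /-- The slope in `y ^ 2 e`. -/
  p2 : ℚ := 0

/-- The six coefficients of a form. -/
structure Form (α : Type) where
  /-- The constant. -/
  a : α
  /-- The coefficient of `u`. -/
  b : α
  /-- The coefficient of `δ`. -/
  c : α
  /-- The coefficient of `u ^ 2`. -/
  d : α
  /-- The coefficient of `u δ`. -/
  f : α
  /-- The coefficient of `δ ^ 2`. -/
  g : α

section

variable {α : Type} [Add α] [Sub α] [Mul α] [Pow α ℕ] (C : ℚ → α) (d : Par) (P : Piece) (F : Env)
  (R y e w : α)

/-- A product with a power, with no factor at the power zero. -/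
def mulPow (x b : α) : ℕ → α
  | 0 => x
  | 1 => x * b
  | n + 2 => x * b ^ (n + 2)

/-- The value of a term of a multiplier. -/
def Term.at (t : Term) : α :=
  mulPow (mulPow (mulPow (C t.c0 + C t.c1 * w) y t.i) e t.j) (zP y e) t.l

/-- The value of a multiplier. -/
def Mult.at : Mult → α
  | [] => C 0
  | [t] => t.at C y e w
  | t :: u :: l => t.at C y e w + Mult.at (u :: l)

/-- The bound of the mass below. -/
def Env.at : α := C F.p0 + C F.p1 * y + C F.p2 * y ^ 2 * e

/-- `y + 2 z`. -/
def qP : α := y + C 2 * zP y e

/-- The slope of the box below, over `e`. -/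
def boxA : α := y * (C 1 + C 2 * e) * (qP C y e + C 3)

/-- The constant of the box below, over `e`. -/
def boxB : α :=
  w * (C 1 + C (13 / 25) * w * e) * cP C y e * (qP C y e + C 2 + zP y e)

/-- The box above, over `e`. -/
def boxH : α := C (1006 / 1000 * P.sv) * w * F.at C y e

/-- The factor of the cut. -/
def cutK : α :=
  C 1 + C 2 * e * (w * e - C P.L0) + C 4 * e ^ 2 * (w * e - C P.L0) ^ 2

/-- The constant of the cut. -/
def cutC : α :=
  C 0 - (w * e - C P.L0) - C 2 * e * (w * e - C P.L0) ^ 2 - cutK C P e w * C (P.v0 - 1)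

/-- The first tail chord. -/
def chord1 : α := C (1 + P.L0) - w * e

/-- The second tail chord. -/
def chord2 : α := chord1 C P e w + C (3 / 8) * y * (C 1 + C (5 / 8) * zP y e)

/-- The coefficient of `u ^ 2 / v` near `1`, less the cut. -/
def nearA : α := aP C d y e P.vh - e * P.mu.at C y e w * cutK C P e w

/-- The coefficient of `u ^ 2 / v` beyond `1`, less the cut. -/
def farA : α := aP C d y e P.vh - P.mu.at C y e w * cutK C P e w * C P.v0

/-- The bound of the coefficient of `u ^ 2`. -/
def alphaP (A : α) : α := A * C (1 / P.vh) - C P.gam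

/-- The sign condition of the bound. -/
def alphaOK (A : α) : α := A * C (1 - P.vl / P.vh) + C (P.gam * P.vl)

/-- The form near `1`, over `(e ^ 2, e, 1)`. -/
def nearForm : Form α where
  a := cP C y e * (R - skP2 C d y e) +
    P.mu.at C y e w * cP C y e * (C 0 - w - C 2 * w ^ 2 * e ^ 2) - P.rho.at C y e w * boxB C y e w -
    P.eta.at C y e w * boxB C y e w * boxH C P F y e w +
    P.the.at C y e w * C ((P.vl - 1) * (P.vh - 1))
  b := cP C y e * lamP C d y e + P.mu.at C y e w * cP C y e * cutK C P e w -
    P.tau.at C y e w * C P.cap * w - P.the.at C y e w * C (P.vl + P.vh - 2)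
  c := y * dP C d y e - P.mu.at C y e w * y - P.rho.at C y e w * boxA C y e +
    P.eta.at C y e w * (boxB C y e w - boxA C y e * boxH C P F y e w)
  d := cP C y e * (alphaP C P (nearA C d P y e w) - skP C d y e) + P.tau.at C y e w +
    P.the.at C y e w * e
  f := cP C y e * udP C d y e
  g := bP C d y e - C (1 / 2) * e * P.mu.at C y e w * y + P.eta.at C y e w * boxA C y e

/-- The form beyond `1`. -/
def farForm : Form α where
  a := cP C y e * (e ^ 2 * R - skP C d y e) + P.mu.at C y e w * cP C y e * cutC C P e w +
    P.tau.at C y e w * cP C y e * (chord1 C P e w - C P.v0) +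
    P.tau2.at C y e w * (cP C y e * (chord2 C P y e w - C P.v0) - C (1 / 2) * (qP C y e + C 1)) +
    P.the.at C y e w * C ((P.vl - 1) * (P.vh - 1))
  b := e * cP C y e * lamP C d y e + P.mu.at C y e w * cP C y e * cutK C P e w * C P.v0 +
    P.tau.at C y e w * cP C y e * chord1 C P e w + P.tau2.at C y e w * cP C y e * chord2 C P y e w -
    P.the.at C y e w * C (P.vl + P.vh - 2)
  c := zP y e * dP C d y e - P.mu.at C y e w * y - P.rho.at C y e w -
    (P.tau.at C y e w + P.tau2.at C y e w) * (qP C y e + C 1) -
    P.eta.at C y e w * e * boxH C P F y e w +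
    P.rlt.at C y e w * cP C y e * (chord1 C P e w - C P.v0) +
    P.rlt2.at C y e w * (cP C y e * (chord2 C P y e w - C P.v0) - C (1 / 2) * (qP C y e + C 1))
  d := cP C y e * (alphaP C P (farA C d P y e w) - skP C d y e) + P.the.at C y e w
  f := cP C y e * udP C d y e + P.rlt.at C y e w * cP C y e * chord1 C P e w +
    P.rlt2.at C y e w * cP C y e * chord2 C P y e w
  g := bP C d y e - C (1 / 2) * P.mu.at C y e w * y + P.eta.at C y e w -
    (P.rlt.at C y e w + P.rlt2.at C y e w) * (qP C y e + C 1)

/-- Four times the principal minor. -/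
def Form.minor (M : Form α) : α := C 4 * M.g * M.d - M.f ^ 2

/-- Four times the determinant. -/
def Form.det (M : Form α) : α :=
  M.a * M.minor C - M.b * (M.b * M.g - M.f * M.c) - M.c ^ 2 * M.d

end

end Vale.Agent.P237.Petty.Cor.Band
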