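import Vale.Agent.P237.Petty.Cor.Band.Base
import Vale.Agent.P237.Petty.Cor.Band.Row

/-!
# P237: a piece of values of `1 / r` of a cell of small values, from the signs of its polynomials
-/

namespace Vale.Agent.P237.Petty.Cor.Band

open Set
open Vale.Agent.P237.Petty.Cor.Top (toReal)
open Lift (circLow)


variable {p : ℕ} {d : Par} {P : Piece} {F : Env}

/-- The cancelled quadratic. -/
noncomputable def quadCell (p : ℕ) (d : Par) (s t r : ℝ) : ℝ :=
  cancelU p (gamP p d) (potK p d) s * (1 / r - 1) +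
    cancelD p (nuP p d) (potK p d) (potK' p d) s * (t - s) +
    cancelUU p (gamP p d) (nuP p d) (d.g : ℝ) s (1 / r) * ((1 / r - 1) ^ 2 / (1 / r)) +
    cancelDD p (nuP p d) (d.g : ℝ) (potB p d) (potB' p d) s (1 / r) * (t - s) ^ 2 +
    cancelUD (nuP p d) (d.g : ℝ) (potB p d) s (1 / r) * ((1 / r - 1) * (t - s))

/-- The conditions on the constants at an order. -/
structure ParOK (p : ℕ) (d : Par) : Prop where
  g_pos : 0 < (d.g : ℝ)
  gam_nonneg : 0 ≤ gP toReal d (eOf p)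
  low_pos : 0 < nLo toReal d (eOf p)
  nu_bounds : nLo toReal d (eOf p) ≤ nuP p d ∧ nuP p d ≤ nHi toReal d (eOf p)

/-- The positivity of a form. -/
structure FormOK (M : Form ℝ) : Prop where
  g_pos : 0 < M.g
  minor_pos : 0 < M.minor toReal
  det_nonneg : 0 ≤ M.det toReal

theorem FormOK.nonneg {M : Form ℝ} (h : FormOK M) (u x : ℝ) :
    0 ≤ M.a + M.b * u + M.c * x + M.d * u ^ 2 + M.f * (u * x) + M.g * x ^ 2 := by
  have h2 := h.minor_pos
  have h3 := h.det_nonneg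
  simp only [Form.minor, Form.det, toReal] at h2 h3
  push_cast at h2 h3
  have := form_nonneg (a := M.a) (b := M.b / 2) (c := M.c / 2) (d := M.d) (f := M.f / 2)
    (g := M.g) (u := u) (x := x) h.g_pos (by linarith) (by linarith)
  linarith

theorem exp_le_sq {x : ℝ} (hx : |x| ≤ 1) : Real.exp x ≤ 1 + x + x ^ 2 := by
  have := (abs_le.1 (Real.abs_exp_sub_one_sub_id_le hx)).2
  linarith

theorem scale_form {M : Form ℝ} (h : FormOK M) {e : ℝ} (he : 0 < e) (u x : ℝ) :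
    0 ≤ e ^ 2 * M.a + e * M.b * u + e * M.c * x + M.d * u ^ 2 + M.f * (u * x) + M.g * x ^ 2 := by
  refine le_of_le_of_eq (mul_nonneg (sq_nonneg e) (h.nonneg (u / e) (x / e))) ?_
  field_simp

theorem alpha_le {v A : ℝ} (hv : (P.vl : ℝ) ≤ v) (hvh : v ≤ P.vh) (hh : 0 < (P.vh : ℝ))
    (hgam : 0 ≤ (P.gam : ℝ)) (hok : 0 ≤ alphaOK toReal P A) : alphaP toReal P A * v ≤ A := by
  simp only [alphaP, alphaOK, toReal] at *
  push_cast at *
  have e : A * (1 / (P.vh : ℝ)) * P.vh = A := by field_simp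
  rcases le_total 0 (A * (1 / (P.vh : ℝ)) - P.gam) with h | h
  · nlinarith [mul_le_mul_of_nonneg_left hvh h, mul_nonneg hgam hh.le]
  · have e2 : A * (1 - (P.vl : ℝ) / P.vh) = A - A * (1 / (P.vh : ℝ)) * P.vl := by ring
    nlinarith [mul_le_mul_of_nonpos_left hv h]

theorem exp_sub_one_le {x : ℝ} (h0 : 0 ≤ x) (h1 : x ≤ 4 / 100) :
    Real.exp x - 1 ≤ x * (1 + 13 / 25 * x) := by
  have h := Real.exp_bound' h0 (by linarith) (n := 3) (by norm_num)
  simp only [Finset.sum_range_succ, Finset.sum_range_zero, Nat.factorial] at h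
  norm_num at h
  nlinarith [mul_le_mul_of_nonneg_left h1 (sq_nonneg x)]

theorem exp_half_sub_le {x : ℝ} (h0 : 0 ≤ x) (h1 : x ≤ 4 / 100) :
    Real.exp (x / 2) - Real.exp (-x / 2) ≤ 1006 / 1000 * x := by
  have h := Real.exp_bound' (show 0 ≤ x / 2 by linarith) (by linarith) (n := 3) (by norm_num)
  simp only [Finset.sum_range_succ, Finset.sum_range_zero, Nat.factorial] at h
  norm_num at h
  have h2 := Real.add_one_le_exp (-x / 2)
  nlinarith [mul_le_mul_of_nonneg_left h1 (sq_nonneg x), mul_le_mul_of_nonneg_left h1 h0]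

/-- The box above, over the rational bounds. -/
theorem box_high_le {ell s t a r q Φ : ℝ} (h : FlatState p ell s t a r q) (h0 : 0 ≤ ell)
    (h1 : ell ≤ 4 / 100) (hsv : (0 : ℝ) ≤ P.sv) (hsv2 : (P.vh : ℝ) ≤ (P.sv : ℝ) ^ 2)
    (hv : 1 / r ≤ P.vh) (hΦ0 : 0 ≤ Φ) (hΦ : circLow p s ≤ Φ * (s * arc s ^ (p + 1))) :
    (t - s) / s ≤ 1006 / 1000 * ell * P.sv * Φ := by
  have hs := h.state.s_mem
  rcases le_or_gt t s with hts | hts
  · refine (div_nonpos_of_nonpos_of_nonneg (sub_nonpos.2 hts) hs.1.le).trans ?_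
    positivity
  refine (box_high h hts hΦ).trans (mul_le_mul_of_nonneg_right ?_ hΦ0)
  refine mul_le_mul (exp_half_sub_le h0 h1) ?_ (Real.sqrt_nonneg _) (by positivity)
  rw [Real.sqrt_le_left hsv]
  exact hv.trans hsv2

/-- Near `1`: the cancelled quadratic is above `-e ^ 2 R`. -/
theorem near_ge {ell s t a r q R w : ℝ} (hp : 98 ≤ p) (hd : ParOK p d)
    (h : FlatState p ell s t a r q) (hz : s ^ 2 ≤ 44 / 100) (hw : ell = w * eOf p)
    (h0 : 0 ≤ w) (h1 : ell ≤ 4 / 100) (hv : (P.vl : ℝ) ≤ 1 / r) (hvh : 1 / r ≤ P.vh)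
    (hh : 0 < (P.vh : ℝ)) (hgam : 0 ≤ (P.gam : ℝ)) (hsv : (0 : ℝ) ≤ P.sv)
    (hsv2 : (P.vh : ℝ) ≤ (P.sv : ℝ) ^ 2) (hL : P.L0 = 0)
    (hmu : 0 ≤ P.mu.at toReal (yOf p s) (eOf p) w) (hrho : 0 ≤ P.rho.at toReal (yOf p s) (eOf p) w) (heta : 0 ≤ P.eta.at toReal (yOf p s) (eOf p) w)
    (htau : 0 ≤ P.tau.at toReal (yOf p s) (eOf p) w)
    (hthe : 0 ≤ P.the.at toReal (yOf p s) (eOf p) w)
    (hbox : P.eta = [] ∨ 0 ≤ F.at toReal (yOf p s) (eOf p) ∧
      circLow p s ≤ F.at toReal (yOf p s) (eOf p) * (s * arc s ^ (p + 1)))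
    (hcap : P.tau = [] ∨ 1 ≤ (P.vl : ℝ) ∧ 1 / r ≤ 1 + eOf p * P.cap * w)
    (hint : P.the = [] ∨ 0 ≤ ((P.vl : ℝ) - 1) * ((P.vh : ℝ) - 1))
    (hok : 0 ≤ alphaOK toReal P (nearA toReal d P (yOf p s) (eOf p) w))
    (hform : FormOK (nearForm toReal d P F R (yOf p s) (eOf p) w)) :
    -(eOf p ^ 2 * R) ≤ quadCell p d s t r := by
  have hr := h.state.rate_pos
  have hs := h.state.s_mem
  have hc : 0 < 1 - s ^ 2 := one_sub_pos h
  have he : 0 < eOf p := by rw [eOf]; positivity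
  have hm : ((p : ℝ) + 1) * eOf p = 1 := by rw [eOf]; field_simp
  obtain ⟨v, hve⟩ : ∃ v, v = 1 / r := ⟨_, rfl⟩
  obtain ⟨δ, hδ⟩ : ∃ δ, δ = (t - s) / s := ⟨_, rfl⟩
  rw [← hve] at hv hvh
  have hv' : 0 < v := by rw [hve]; positivity
  have h0' : 0 ≤ ell := by rw [hw]; positivity
  set y := yOf p s with hy
  set e := eOf p with hedef
  set K := cutK toReal P e w with hK
  have eK : K = 1 + 2 * e * (w * e) + 4 * e ^ 2 * (w * e) ^ 2 := by
    rw [hK, cutK, hL]; simp only [toReal]; push_cast; ring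
  have hcut := cut_base (v₀ := 1) (K := K) (by omega) h one_pos (by
    rw [Real.log_one, sub_zero, eK, show 2 * ell / ((p : ℝ) + 1) = 2 * e * (w * e) by
      rw [hw, hedef, eOf]; field_simp]
    refine (exp_le_sq ?_).trans (le_of_eq (by ring))
    rw [abs_of_nonneg (by positivity)]
    rw [← hw]
    have : e ≤ 1 := by
      rw [hedef, eOf, div_le_one (by positivity)]
      linarith [(Nat.cast_nonneg p : (0 : ℝ) ≤ p)]
    nlinarith)
  have hlow := box_low h h0' (eps := ell * (1 + 13 / 25 * ell)) (exp_sub_one_le h0' h1)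
  have hA := alpha_le hv hvh hh hgam hok
  have hbase := base_ge (v := v) (δ := δ)
    (α := alphaP toReal P (nearA toReal d P y e w) + e * P.mu.at toReal y e w * K / v) h hd.g_pos hd.gam_nonneg
    hd.low_pos hd.nu_bounds hz hve.symm hδ.symm hvh (by
      rw [add_mul, div_mul_cancel₀ _ hv'.ne']
      simp only [nearA, ← hK] at hA ⊢
      linarith)
  have hF2 := scale_form hform he (v - 1) δ
  simp only [nearForm, alphaP, qP, boxA, boxB, boxH, skP2, ← hK, toReal] at hF2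
  push_cast at hF2
  simp only [alphaP, toReal, ← hy, ← hedef] at hbase
  push_cast at hbase
  rw [cP_eq, zP_eq] at *
  rw [← hδ] at hlow hcut
  -- the facts, in the variables of the form
  have f1 : (1 - s ^ 2) * ((1 - K) * (((p : ℝ) + 1) / 2) - K * (1 * r - 1)) ≤
      y * (δ + δ ^ 2 / 2) := by
    have := mul_le_mul_of_nonneg_left hcut hc.le
    rw [mul_div_cancel₀ _ hc.ne'] at this
    simpa [hy, yOf] using this
  have f2 : 0 ≤ y * (1 + 2 * e) * (y + 2 * s ^ 2 + 3) * δ +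
      e * (w * (1 + 13 / 25 * w * e) * (1 - s ^ 2) * (y + 2 * s ^ 2 + 2 + s ^ 2)) := by
    refine le_of_le_of_eq hlow ?_
    simp only [hy, yOf, hedef, eOf, hw]
    ring
  have m1 := mul_le_mul_of_nonneg_left f1 (mul_nonneg he.le hmu)
  have m2 := mul_nonneg (mul_nonneg he.le hrho) f2
  have m3 : 0 ≤ P.eta.at toReal y e w * ((y * (1 + 2 * e) * (y + 2 * s ^ 2 + 3) * δ +
      e * (w * (1 + 13 / 25 * w * e) * (1 - s ^ 2) * (y + 2 * s ^ 2 + 2 + s ^ 2))) *
        (e * (1006 / 1000 * P.sv * w * F.at toReal y e) - δ)) := by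
    rcases hbox with h' | ⟨hΦ0, hΦ⟩
    · simp [h', Mult.at, toReal]
    have hhigh := box_high_le (P := P) h h0' h1 hsv hsv2 (hve ▸ hvh) hΦ0 hΦ
    refine mul_nonneg heta (mul_nonneg f2 ?_)
    rw [sub_nonneg, hδ]
    refine hhigh.trans (le_of_eq ?_)
    rw [hw]; ring
  have m4 : 0 ≤ P.tau.at toReal y e w * ((v - 1) * (e * P.cap * w - (v - 1))) := by
    rcases hcap with h' | ⟨h', h''⟩
    · simp [h', Mult.at, toReal]
    · rw [← hve] at h''
      exact mul_nonneg htau (mul_nonneg (by linarith) (by linarith))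
  have m5 : e * (P.the.at toReal y e w * ((v - 1) ^ 2 - ((P.vl : ℝ) + P.vh - 2) * (v - 1))) +
      e ^ 2 * (P.the.at toReal y e w * (((P.vl : ℝ) - 1) * ((P.vh : ℝ) - 1))) ≤ 0 := by
    rcases hint with h' | h'
    · simp [h', Mult.at, toReal]
    have he1 : e ≤ 1 := by
      rw [hedef, eOf, div_le_one (by positivity)]
      linarith [(Nat.cast_nonneg p : (0 : ℝ) ≤ p)]
    have := mul_le_mul_of_nonneg_right (pow_le_of_le_one he.le he1 two_ne_zero)
      (mul_nonneg hthe h')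
    have h'' := mul_nonneg (mul_nonneg he.le hthe) (mul_nonneg (sub_nonneg.2 hv) (sub_nonneg.2 hvh))
    linear_combination this + h'' 
  have ecl : e * P.mu.at toReal y e w * ((1 - s ^ 2) * ((1 - K) * (((p : ℝ) + 1) / 2) - K * (1 * r - 1))) =
      e ^ 2 * (P.mu.at toReal y e w * (1 - s ^ 2) * (-w - 2 * w ^ 2 * e ^ 2)) +
        e * P.mu.at toReal y e w * (1 - s ^ 2) * K * (v - 1) -
        (1 - s ^ 2) * (e * P.mu.at toReal y e w * K / v * (v - 1) ^ 2) := by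
    rw [show r = 1 / v by rw [hve, one_div_one_div],
      show ((p : ℝ) + 1) = 1 / e by rw [eq_div_iff he.ne', hm], eK]
    field_simp
    ring
  rw [ecl] at m1
  have hgoal : 0 ≤ (1 - s ^ 2) * (quadCell p d s t r + e ^ 2 * R) := by
    have eS : (47 : ℝ) / 200 * gP toReal d e * y ^ 2 * (s ^ 2) ^ 2 * e ^ 2 = skP toReal d y e := by
      rw [skP, invRes, hy, hedef, zP_eq]; simp only [toReal]; push_cast; rw [← zP_eq p s, zP, yOf, eOf]; ring
    rw [← eS] at hbase hF2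
    rw [quadCell, mul_add]
    linarith
  exact neg_le_iff_add_nonneg'.2 (by linarith [nonneg_of_mul_nonneg_right hgoal hc])

/-- The sum of the form and the multiplied facts beyond `1`. -/
theorem far_combine {c X sk el ey ud b G u δ q h T T2 v₀ K cl μ ρ η τ τ' χ χ' θ A vl vh R e y : ℝ}
    (hform : 0 ≤ (c * (e ^ 2 * R - sk) + μ * c * cl + τ * c * (T - v₀) +
        τ' * (c * (T2 - v₀) - 1 / 2 * q) + θ * ((vl - 1) * (vh - 1))) +
      (el + μ * c * K * v₀ + τ * c * T + τ' * c * T2 - θ * (vl + vh - 2)) * u +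
      (ey - μ * y - ρ - (τ + τ') * q - η * h + χ * c * (T - v₀) +
        χ' * (c * (T2 - v₀) - 1 / 2 * q)) * δ +
      (c * (A - sk) + θ) * u ^ 2 + (ud + χ * c * T + χ' * c * T2) * (u * δ) +
      (b - 1 / 2 * μ * y + η - (χ + χ') * q) * δ ^ 2)
    (hbase : c * ((A + μ * K * v₀ / (u + 1)) * u ^ 2) + el * u + ey * δ + ud * (u * δ) +
      b * δ ^ 2 - c * sk * (1 + u ^ 2) ≤ c * X)
    (m1 : μ * c * cl + μ * c * K * v₀ * u - c * (μ * K * v₀ / (u + 1) * u ^ 2) ≤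
      μ * (y * (δ + δ ^ 2 / 2)))
    (m2 : 0 ≤ ρ * δ) (m3 : 0 ≤ η * (δ * (h - δ)))
    (m4 : 0 ≤ τ * (q * δ - c * (T * (u + 1) - v₀)))
    (m5 : 0 ≤ τ' * (q * (δ + 1 / 2) - c * (T2 * (u + 1) - v₀)))
    (m6 : 0 ≤ χ * (δ * (q * δ - c * (T * (u + 1) - v₀))))
    (m7 : 0 ≤ χ' * (δ * (q * (δ + 1 / 2) - c * (T2 * (u + 1) - v₀))))
    (m8 : 0 ≤ θ * ((u + 1 - vl) * (vh - (u + 1)))) (hG : G = X + e ^ 2 * R) :
    0 ≤ c * G := by
  subst hG
  linarith

/-- Beyond `1`: the cancelled quadratic is above `-e ^ 2 R`. -/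
theorem far_ge {ell s t a r q R w : ℝ} (hp : 98 ≤ p) (hd : ParOK p d)
    (h : FlatState p ell s t a r q) (hz : s ^ 2 ≤ 44 / 100) (hw : ell = w * eOf p)
    (h0 : 0 ≤ w) (h1 : ell ≤ 4 / 100) (hv : (P.vl : ℝ) ≤ 1 / r) (hvh : 1 / r ≤ P.vh)
    (hh : 0 < (P.vh : ℝ)) (hvl : 21 / 20 ≤ (P.vl : ℝ)) (hgam : 0 ≤ (P.gam : ℝ))
    (hsv : (0 : ℝ) ≤ P.sv) (hsv2 : (P.vh : ℝ) ≤ (P.sv : ℝ) ^ 2) (hv0 : 0 < (P.v0 : ℝ))
    (hL : (P.L0 : ℝ) ≤ Real.log P.v0) (hx : |2 * eOf p * (w * eOf p - P.L0)| ≤ 1)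
    (hmu : 0 ≤ P.mu.at toReal (yOf p s) (eOf p) w) (hrho : 0 ≤ P.rho.at toReal (yOf p s) (eOf p) w) (heta : 0 ≤ P.eta.at toReal (yOf p s) (eOf p) w)
    (htau : 0 ≤ P.tau.at toReal (yOf p s) (eOf p) w) (htau2 : 0 ≤ P.tau2.at toReal (yOf p s) (eOf p) w) (hrlt : 0 ≤ P.rlt.at toReal (yOf p s) (eOf p) w)
    (hrlt2 : 0 ≤ P.rlt2.at toReal (yOf p s) (eOf p) w) (hthe : 0 ≤ P.the.at toReal (yOf p s) (eOf p) w)
    (hbox : P.eta = [] ∨ 0 ≤ F.at toReal (yOf p s) (eOf p) ∧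
      circLow p s ≤ F.at toReal (yOf p s) (eOf p) * (s * arc s ^ (p + 1)))
    (hok : 0 ≤ alphaOK toReal P (farA toReal d P (yOf p s) (eOf p) w))
    (hform : FormOK (farForm toReal d P F R (yOf p s) (eOf p) w)) :
    -(eOf p ^ 2 * R) ≤ quadCell p d s t r := by
  have hr := h.state.rate_pos
  have hs := h.state.s_mem
  have hc : 0 < 1 - s ^ 2 := one_sub_pos h
  have he : 0 < eOf p := by rw [eOf]; positivity
  have hm : ((p : ℝ) + 1) * eOf p = 1 := by rw [eOf]; field_simp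
  obtain ⟨v, hve⟩ : ∃ v, v = 1 / r := ⟨_, rfl⟩
  obtain ⟨δ, hδ⟩ : ∃ δ, δ = (t - s) / s := ⟨_, rfl⟩
  rw [← hve] at hv hvh
  have hv' : 0 < v := by rw [hve]; positivity
  have h0' : 0 ≤ ell := by rw [hw]; positivity
  have hexp : Real.exp ell < 1 / r := by
    rw [← hve]
    linarith [exp_sub_one_le h0' h1,
      mul_le_mul h1 (show 1 + 13 / 25 * ell ≤ 11 / 10 by linarith) (by positivity) (by norm_num)]
  obtain ⟨hst, hline⟩ := tail_line h hexp hv0 hL
  have hhalf := tail_half h hexp hv0 hL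
  set y := yOf p s with hy
  set e := eOf p with hedef
  set K := cutK toReal P e w with hK
  have eK : K = 1 + 2 * e * (w * e - P.L0) + 4 * e ^ 2 * (w * e - P.L0) ^ 2 := by
    rw [hK, cutK]; simp only [toReal]; push_cast; ring
  have hcut := cut_base (v₀ := P.v0) (K := K) (by omega) h hv0 (by
    refine (Real.exp_le_exp.2 (show 2 * (ell - Real.log P.v0) / ((p : ℝ) + 1) ≤
      2 * e * (w * e - P.L0) from ?_)).trans ((exp_le_sq hx).trans (le_of_eq (by rw [eK]; ring)))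
    rw [← hw, div_eq_mul_one_div]
    rw [show (1 : ℝ) / ((p : ℝ) + 1) = e from rfl]
    linarith [mul_le_mul_of_nonneg_left hL he.le])
  have hA := alpha_le hv hvh hh hgam hok
  have hbase := base_ge (v := v) (δ := δ)
    (α := alphaP toReal P (farA toReal d P y e w) + P.mu.at toReal y e w * K * P.v0 / v) h hd.g_pos hd.gam_nonneg
    hd.low_pos hd.nu_bounds hz hve.symm hδ.symm hvh (by
      rw [add_mul, div_mul_cancel₀ _ hv'.ne']
      simp only [farA, ← hK, toReal] at hA ⊢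
      linarith)
  have hF2 := hform.nonneg (v - 1) δ
  simp only [farForm, alphaP, qP, boxH, chord1, chord2, cutC, ← hK, toReal] at hF2
  push_cast at hF2
  simp only [alphaP, toReal, ← hy, ← hedef] at hbase
  push_cast at hbase
  rw [cP_eq, zP_eq] at *
  rw [← hδ] at hcut hline hhalf
  rw [← hve] at hline hhalf
  have f1 : (1 - s ^ 2) * ((1 - K) * (((p : ℝ) + 1) / 2) - K * (P.v0 * r - 1)) ≤
      y * (δ + δ ^ 2 / 2) := by
    have := mul_le_mul_of_nonneg_left hcut hc.le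
    rw [mul_div_cancel₀ _ hc.ne'] at this
    simpa [hy, yOf] using this
  have f2 : 0 ≤ δ := hδ ▸ div_nonneg (sub_nonneg.2 hst.le) hs.1.le
  have f4 : 0 ≤ (y + 2 * s ^ 2 + 1) * δ - (1 - s ^ 2) * ((1 + P.L0 - w * e) * v - P.v0) := by
    rw [sub_nonneg]
    refine le_trans (le_of_eq ?_) (hline.trans (le_of_eq ?_))
    · rw [hw]
    · simp only [hy, yOf]; ring
  have f5 : 0 ≤ (y + 2 * s ^ 2 + 1) * (δ + 1 / 2) -
      (1 - s ^ 2) * ((1 + P.L0 - w * e + 3 / 8 * y * (1 + 5 / 8 * s ^ 2)) * v - P.v0) := by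
    rw [sub_nonneg]
    refine le_trans (le_of_eq ?_) (hhalf.trans (le_of_eq ?_))
    · rw [hw]; simp only [hy, yOf]
    · simp only [hy, yOf]; ring
  have f6 : 0 ≤ (v - P.vl) * (P.vh - v) := mul_nonneg (sub_nonneg.2 hv) (sub_nonneg.2 hvh)
  have m1 := mul_le_mul_of_nonneg_left f1 hmu
  have m2 := mul_nonneg hrho f2
  have m3 : 0 ≤ P.eta.at toReal y e w *
      (δ * (1006 / 1000 * P.sv * w * F.at toReal y e * e - δ)) := by
    rcases hbox with h' | ⟨hΦ0, hΦ⟩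
    · simp [h', Mult.at, toReal]
    have hhigh := box_high_le (P := P) h h0' h1 hsv hsv2 (hve ▸ hvh) hΦ0 hΦ
    refine mul_nonneg heta (mul_nonneg f2 ?_)
    rw [sub_nonneg, hδ]
    refine hhigh.trans (le_of_eq ?_)
    rw [hw]; ring
  have m4 := mul_nonneg htau f4
  have m5 := mul_nonneg htau2 f5
  have m6 := mul_nonneg hrlt (mul_nonneg f2 f4)
  have m7 := mul_nonneg hrlt2 (mul_nonneg f2 f5)
  have m8 := mul_nonneg hthe f6
  have ecl : P.mu.at toReal y e w * ((1 - s ^ 2) * ((1 - K) * (((p : ℝ) + 1) / 2) - K * (P.v0 * r - 1))) =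
      P.mu.at toReal y e w * (1 - s ^ 2) * (0 - (w * e - P.L0) - 2 * e * (w * e - P.L0) ^ 2 -
          K * (P.v0 - 1)) +
        P.mu.at toReal y e w * (1 - s ^ 2) * K * P.v0 * (v - 1) -
        (1 - s ^ 2) * (P.mu.at toReal y e w * K * P.v0 / v * (v - 1) ^ 2) := by
    rw [show r = 1 / v by rw [hve, one_div_one_div],
      show ((p : ℝ) + 1) = 1 / e by rw [eq_div_iff he.ne', hm]]
    have e2 : (1 - K) * (1 / e / 2) = 0 - (w * e - P.L0) - 2 * e * (w * e - P.L0) ^ 2 := by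
      rw [eK]; field_simp; ring
    rw [e2]
    field_simp
    ring
  rw [ecl] at m1
  have hes : s ^ 2 = e * y := by rw [hedef, hy, yOf, eOf]; field_simp
  obtain ⟨u, hu⟩ : ∃ u, v = u + 1 := ⟨v - 1, by ring⟩
  subst hu
  simp only [add_sub_cancel_right] at hF2 hbase m1
  have hgoal : 0 ≤ (1 - s ^ 2) * (quadCell p d s t r + e ^ 2 * R) := by
    refine far_combine (G := quadCell p d s t r + e ^ 2 * R) (X := quadCell p d s t r)
      (el := e * (1 - s ^ 2) * lamP toReal d y e) (ey := e * y * dP toReal d y e)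
      (ud := (1 - s ^ 2) * udP toReal d y e) (b := bP toReal d y e) (sk := skP toReal d y e)
      (A := farA toReal d P y e w * (1 / (P.vh : ℝ)) - P.gam) (q := y + 2 * s ^ 2 + 1)
      (h := 1006 / 1000 * P.sv * w * F.at toReal y e * e)
      (T := 1 + P.L0 - w * e) (T2 := 1 + P.L0 - w * e + 3 / 8 * y * (1 + 5 / 8 * s ^ 2))
      (cl := 0 - (w * e - P.L0) - 2 * e * (w * e - P.L0) ^ 2 - K * (P.v0 - 1))
      (v₀ := P.v0) (K := K) (vl := P.vl) (vh := P.vh)
      (le_of_le_of_eq hF2 (by linear_combination δ * dP toReal d y e * hes)) ?_ m1 m2 m3 m4 m5 m6 m7 m8 rfl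
    rw [quadCell]
    refine le_of_eq_of_le ?_ hbase
    ring
  exact neg_le_iff_add_nonneg'.2 (by linarith [nonneg_of_mul_nonneg_right hgoal hc])

end Vale.Agent.P237.Petty.Cor.Band
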