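import Vale.Agent.P100.Bernstein.Cert
import Mathlib.Data.Rat.Cast.Defs

/-!
# P237: the polynomials of a cell of small values

Written once over the reals and the expressions of the kernel check, in `y = (p + 1) s ^ 2`,
`e = 1 / (p + 1)` and `w = ell (p + 1)`, with `z = s ^ 2 = y e`.
-/

namespace Vale.Agent.P237.Petty.Cor.Band

/-- The constants of a field. -/
structure Par where
  /-- The excess of the multiplier of the shadow. -/
  th : ℚ
  /-- The slope of the test. -/
  g : ℚ
  /-- The first order part of the multiplier of the shadow. -/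
  g1 : ℚ
  /-- The first order part of the multiplier of the Fisher excess. -/
  n1 : ℚ
  /-- The constant of the linear potential. -/
  l0 : ℚ
  /-- The slope of the linear potential. -/
  l1 : ℚ
  /-- The square of the linear potential. -/
  l2 : ℚ
  /-- The cube of the linear potential. -/
  l3 : ℚ
  /-- The pole of the square potential. -/
  a : ℚ
  /-- The slope of the square potential. -/
  a2 : ℚ

/-- The share of `s ^ 2` in the coefficient of `u ^ 2 / v`. -/
def Par.side (d : Par) : ℚ := (d.g ^ 2 - 1) ^ 2 / (2 * d.g * (1 + d.g))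

section

variable {α : Type} [Add α] [Sub α] [Mul α] [Pow α ℕ] (C : ℚ → α) (d : Par) (y e : α)

/-- The square of the abscissa. -/
def zP : α := y * e

/-- The square of the half circle. -/
def cP : α := C 1 - zP y e

/-- The factor of the shadow. -/
def gP : α := C (1 + 2 * d.th) + C d.g1 * e

/-- The multiplier of the Fisher excess, with half the eigenvalue. -/
def nP : α := C ((1 + 2 * d.th) / 2) + C d.n1 * e

/-- Below the multiplier of the Fisher excess. -/
def nLo : α := nP C d e + C (5 / 4) * e - C (3 / 8)

/-- Above the multiplier of the Fisher excess. -/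
def nHi : α := nP C d e + C (37 / 25) * e - C (3 / 8)

/-- Below the reciprocal of the half circle. -/
def invLo : α :=
  C 1 + C (1 / 2) * zP y e + C (3 / 8) * zP y e ^ 2 + C (5 / 16) * zP y e ^ 3

/-- The residual of the reciprocal, above. -/
def invRes : α := C (47 / 100) * zP y e ^ 4

/-- The linear potential over `e`. -/
def lamP : α := C d.l0 + C d.l1 * y + C d.l2 * y ^ 2 + C d.l3 * y ^ 2 * zP y e

/-- The coefficient of `δ`, times `c ^ 2 / (e y)`. -/
def dP : α :=
  cP C y e * (C 2 * (C d.l1 + C (2 * d.l2) * y + C (3 * d.l3) * y * zP y e) -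
      C 2 * gP C d e * (C (1 / 2) + C (3 / 4) * zP y e + C (15 / 16) * zP y e ^ 2)) +
    C (d.g1 - 2 * d.n1) +
    gP C d e * y * (C (1 / 2) + C (3 / 8) * zP y e + C (5 / 16) * zP y e ^ 2) +
    C 2 * nP C d e * y - lamP C d y e - C 6 * nP C d e * cP C y e

/-- The coefficient of `δ ^ 2`, times `c ^ 2`. -/
def bP : α :=
  cP C y e * (C d.a * (C 1 + y + zP y e)) + C d.a2 * y * (y - cP C y e) -
    cP C y e * (nHi C d e * (y + C 3 * zP y e) * C (d.g ^ 2))

/-- The coefficient of `u δ`. -/
def udP : α := C (-2 * d.a) * cP C y e - C (2 * d.a2) * y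

/-- Below the coefficient of `u ^ 2 / v` up to `v = vh`. -/
def aP (vh : ℚ) : α :=
  C (2 * (1 + d.g)) * nLo C d e * cP C y e -
    C ((2 * vh + 1) / (2 * (vh + 2))) * gP C d e * (invLo C y e + invRes C y e) -
    C d.side * nHi C d e * zP y e

/-- Half the shadow's residual. -/
def skP : α := C (1 / 2) * gP C d e * invRes C y e

/-- The same over `e ^ 2`. -/
def skP2 : α := C (47 / 200) * gP C d e * y ^ 2 * zP y e ^ 2

end

end Vale.Agent.P237.Petty.Cor.Band
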