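import Vale.Agent.P237.Petty.Cor.Band.Sound

/-!
# P237: the cancelled quadratic on a row that passes its test
-/

namespace Vale.Agent.P237.Petty.Cor.Band

open Set
open Vale.Agent.P100.Bernstein
open Vale.Agent.P237.Petty.Cor.Top (toReal)
open Lift (circLow)

variable {p : ℕ} {d : Par}

/-- The test of the constants. -/
def Par.ok (d : Par) : Bool :=
  decide (0 < d.g) && decide (0 < 1 + 2 * d.th) && decide (0 < 1 + 2 * d.th + d.g1 / 99) &&
    decide (3 / 8 < (1 + 2 * d.th) / 2) && decide (3 / 8 < (1 + 2 * d.th) / 2 + (d.n1 + 5 / 4) / 99)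

theorem eOf_bounds (hp : 98 ≤ p) : 0 < eOf p ∧ eOf p ≤ 1 / 99 := by
  have : (98 : ℝ) ≤ p := by exact_mod_cast hp
  refine ⟨by rw [eOf]; positivity, ?_⟩
  rw [eOf]
  exact one_div_le_one_div_of_le (by norm_num) (by linarith)

theorem parOK_of_ok (h : d.ok = true) (hp : 98 ≤ p) : ParOK p d := by
  simp only [Par.ok, Bool.and_eq_true, decide_eq_true_eq] at h
  obtain ⟨⟨⟨⟨h1, h2⟩, h3⟩, h4⟩, h5⟩ := h
  obtain ⟨he, he'⟩ := eOf_bounds hp
  have h2' : (0 : ℝ) < 1 + 2 * (d.th : ℝ) := by exact_mod_cast h2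
  have h3' : (0 : ℝ) < 1 + 2 * (d.th : ℝ) + (d.g1 : ℝ) / 99 := by exact_mod_cast h3
  have h4' : (3 : ℝ) / 8 < (1 + 2 * (d.th : ℝ)) / 2 := by
    have := (Rat.cast_lt (K := ℝ)).2 h4; push_cast at this; exact this
  have h5' : (3 : ℝ) / 8 < (1 + 2 * (d.th : ℝ)) / 2 + ((d.n1 : ℝ) + 5 / 4) / 99 := by
    have := (Rat.cast_lt (K := ℝ)).2 h5; push_cast at this; exact this
  have t0 : 0 ≤ 1 - eOf p * 99 := by linarith
  refine ⟨by exact_mod_cast h1, ?_, ?_, ?_⟩
  · simp only [gP, toReal]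
    push_cast
    linarith [mul_nonneg t0 h2'.le, mul_nonneg he.le h3'.le]
  · simp only [nLo, nP, toReal]
    push_cast
    linarith [mul_nonneg t0 (sub_nonneg.2 h4'.le), mul_pos he (sub_pos.2 h5')]
  · obtain ⟨m1, m2⟩ := MidHigh.muMin_bounds hp
    exact nuP_bounds m1 m2

theorem ne_nil_of_eta {l : Mult} {b : Bool} (h : (l.isEmpty || b) = true) : l = [] ∨ b = true := by
  simpa [List.isEmpty_iff] using h

/-- A piece that passes its test. -/
theorem okPiece_sound {ok : Expr → Bool} {F : Env} {env : Bool} {cap : Option ℚ} {Rx : Expr}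
    {P : Piece} (hP : okPiece ok d F env cap Rx P = true) {ell s t a r q w : ℝ}
    (hok : ∀ e : Expr, ok e = true → 0 ≤ e.eval [yOf p s, eOf p, w])
    (hp : 98 ≤ p) (hd : ParOK p d) (h : FlatState p ell s t a r q) (hz : s ^ 2 ≤ 44 / 100)
    (hw : ell = w * eOf p) (hw0 : 0 ≤ w) (h1 : ell ≤ 4 / 100)
    (hv : (P.vl : ℝ) ≤ 1 / r) (hvh : 1 / r ≤ P.vh)
    (henv : env = true → 0 ≤ F.at toReal (yOf p s) (eOf p) ∧
      circLow p s ≤ F.at toReal (yOf p s) (eOf p) * (s * arc s ^ (p + 1)))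
    (hcap : ∀ U, cap = some U → 1 / r ≤ 1 + eOf p * U * w) :
    -(eOf p ^ 2 * Rx.eval [yOf p s, eOf p, w]) ≤ quadCell p d s t r := by
  simp only [okPiece, Piece.base, Bool.and_eq_true, decide_eq_true_eq] at hP
  obtain ⟨⟨⟨⟨hh, hgam⟩, hsv⟩, hsv2⟩, hrest⟩ := hP
  have hh' : (0 : ℝ) < (P.vh : ℝ) := by exact_mod_cast hh
  have hgam' : (0 : ℝ) ≤ (P.gam : ℝ) := by exact_mod_cast hgam
  have hsv' : (0 : ℝ) ≤ (P.sv : ℝ) := by exact_mod_cast hsv
  have hsv2' : (P.vh : ℝ) ≤ (P.sv : ℝ) ^ 2 := by exact_mod_cast hsv2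
  have ht : ∀ M : Form Expr, 0 ≤ (M.g - tiny).eval [yOf p s, eOf p, w] →
      0 ≤ (M.minor ofQ - tiny).eval [yOf p s, eOf p, w] →
      0 ≤ (M.det ofQ).eval [yOf p s, eOf p, w] →
      FormOK (evalForm [yOf p s, eOf p, w] M) := by
    intro M a1 a2 a3
    simp only [Expr.eval_sub, tiny, Expr.eval_frac, eval_minor] at a1 a2
    push_cast at a1 a2
    rw [eval_det] at a3
    exact ⟨by simp only [evalForm]; linarith, by linarith, a3⟩
  by_cases hb : (21 / 20 : ℚ) ≤ P.vl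
  · simp only [hb, decide_true, cond_true, Piece.farBase, Bool.and_eq_true, decide_eq_true_eq]
      at hrest
    obtain ⟨⟨⟨⟨⟨⟨⟨-, hv0⟩, hL0⟩, hL10⟩, -⟩, hexp⟩, heta⟩, hall⟩ := hrest
    have hL : (P.L0 : ℝ) ≤ Real.log P.v0 := le_log_of_expUp hL0 (by linarith) hv0 hexp
    simp only [pieceExprs, List.map_cons, List.map_nil, List.cons_append, List.nil_append,
      List.all_cons, List.all_nil, Bool.and_eq_true, and_true] at hall
    obtain ⟨e1, e2, e3, e4, e5, e6, e7, e8, e9, e10, e11, e12⟩ := hall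
    have hA := hok _ e9
    simp [yV, eV, wV] at hA
    have hF := ht _ (hok _ e10) (hok _ e11) (hok _ e12)
    rw [evalForm_far] at hF
    simp [yV, eV, wV] at hF
    have hm : ∀ l : Mult, ok (Mult.at ofQ yV eV wV l) = true →
        0 ≤ Mult.at toReal (yOf p s) (eOf p) w l := fun l hl => by
      simpa [yV, eV, wV] using hok _ hl
    have hL0' : (0 : ℝ) ≤ (P.L0 : ℝ) := by exact_mod_cast hL0
    have hL10' : (P.L0 : ℝ) ≤ 10 := by exact_mod_cast hL10
    obtain ⟨he, he'⟩ := eOf_bounds hp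
    have hvl : (21 : ℝ) / 20 ≤ (P.vl : ℝ) := by
      have := (Rat.cast_le (K := ℝ)).2 hb; push_cast at this; exact this
    have hx : |2 * eOf p * (w * eOf p - P.L0)| ≤ 1 := by
      rw [← hw, abs_le]
      have h0 : 0 ≤ ell := by rw [hw]; positivity
      have a1 := mul_le_mul he' (show ell ≤ 4 / 100 from h1) h0 (by norm_num)
      have a2 := mul_le_mul he' hL10' hL0' (by norm_num)
      constructor <;> linarith [mul_nonneg he.le h0, mul_nonneg he.le hL0']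
    refine far_ge hp hd h hz hw hw0 h1 hv hvh hh' hvl hgam' hsv' hsv2'
      (by exact_mod_cast hv0) hL hx (hm _ e1) (hm _ e2) (hm _ e3) (hm _ e4) (hm _ e5) (hm _ e6)
      (hm _ e7) (hm _ e8) ?_ hA hF
    rcases ne_nil_of_eta heta with he0 | he0
    · exact Or.inl he0
    · exact Or.inr (henv he0)
  · simp only [hb, decide_false, cond_false, Piece.nearBase, Bool.and_eq_true, Bool.or_eq_true,
      decide_eq_true_eq, List.isEmpty_iff, beq_iff_eq] at hrest
    obtain ⟨⟨⟨⟨hL, heta⟩, htau⟩, hthe⟩, hall⟩ := hrest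
    simp only [pieceExprs, List.map_cons, List.map_nil, List.cons_append, List.nil_append,
      List.all_cons, List.all_nil, Bool.and_eq_true, and_true] at hall
    obtain ⟨e1, e2, e3, e4, -, -, -, e8, e9, e10, e11, e12⟩ := hall
    have hA := hok _ e9
    simp [yV, eV, wV] at hA
    have hF := ht _ (hok _ e10) (hok _ e11) (hok _ e12)
    rw [evalForm_near] at hF
    simp [yV, eV, wV] at hF
    have hm : ∀ l : Mult, ok (Mult.at ofQ yV eV wV l) = true →
        0 ≤ Mult.at toReal (yOf p s) (eOf p) w l := fun l hl => by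
      simpa [yV, eV, wV] using hok _ hl
    refine near_ge hp hd h hz hw hw0 h1 hv hvh hh' hgam' hsv' hsv2' hL (hm _ e1) (hm _ e2)
      (hm _ e3) (hm _ e4) (hm _ e8) ?_ ?_ ?_ hA hF
    · exact heta.imp_right henv
    · rcases htau with ht0 | ⟨ht1, ht2⟩
      · exact Or.inl ht0
      · exact Or.inr ⟨by exact_mod_cast ht1, hcap _ ht2⟩
    · rcases hthe with ht0 | ht1
      · exact Or.inl ht0
      · exact Or.inr (by exact_mod_cast ht1)

theorem chainTo_sound {v : ℝ} : ∀ (l : List Piece) {lo hi : ℚ}, chainTo lo hi l = true →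
    (lo : ℝ) ≤ v → v ≤ hi → ∃ P ∈ l, (P.vl : ℝ) ≤ v ∧ v ≤ P.vh
  | [], _, _, h, _, _ => by simp [chainTo] at h
  | [P], lo, hi, h, h0, h1 => by
    simp only [chainTo, Bool.and_eq_true, decide_eq_true_eq] at h
    exact ⟨P, by simp, le_trans (by exact_mod_cast h.1) h0, h1.trans (by exact_mod_cast h.2)⟩
  | P :: Q :: l, lo, hi, h, h0, h1 => by
    simp only [chainTo, Bool.and_eq_true, decide_eq_true_eq] at h
    rcases le_or_gt v (P.vh : ℝ) with hc | hc
    · exact ⟨P, by simp, le_trans (by exact_mod_cast h.1) h0, hc⟩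
    · obtain ⟨R, hR, hR'⟩ := chainTo_sound (Q :: l) h.2 hc.le h1
      exact ⟨R, List.mem_cons_of_mem _ hR, hR'⟩

/-- A row in the bulk that passes its test. -/
theorem Row.sound {fd : Fld} {R : Row} (hR : R.ok d fd = true) (hd : ParOK p d) (hp : 98 ≤ p)
    {ell s t a r q w : ℝ} (h : FlatState p ell s t a r q) (hw : ell = w * eOf p)
    (hm : R.box.Mem (yOf p s) (eOf p) w) :
    -(eOf p ^ 2 * remFull fd (yOf p s) (eOf p) w) ≤ quadCell p d s t r := by
  simp only [Row.ok, Bool.and_eq_true, Box.inBulk, decide_eq_true_eq, List.all_eq_true] at hR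
  obtain ⟨⟨⟨⟨⟨⟨⟨⟨⟨⟨hy0, hb0⟩, hw0⟩, hz⟩, hl⟩, -⟩, hsep⟩, henv⟩, hcap⟩, hch⟩, hall⟩ := hR
  have hs := h.state.s_mem
  have hw0' : 0 ≤ w := le_trans (by exact_mod_cast hw0) hm.w_mem.1
  have he := (eOf_bounds hp).1
  have hz' : s ^ 2 ≤ 44 / 100 := by
    have h2 : (R.box.a1 : ℝ) * R.box.b1 ≤ 44 / 100 := by
      have := (Rat.cast_le (K := ℝ)).2 hz; push_cast at this; exact this
    rw [← zP_eq p s]
    exact le_trans (mul_le_mul hm.a_mem.2 hm.b_mem.2 he.le
      (le_trans (by rw [yOf]; positivity) hm.a_mem.2)) h2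
  have hl' : ell ≤ 4 / 100 := by
    have h2 : (R.box.w1 : ℝ) * R.box.b1 ≤ 4 / 100 := by
      have := (Rat.cast_le (K := ℝ)).2 hl; push_cast at this; exact this
    rw [hw]
    exact le_trans (mul_le_mul hm.w_mem.2 hm.b_mem.2 he.le (hw0'.trans hm.w_mem.2)) h2
  obtain ⟨hv, hU⟩ := cap_sound hcap henv hp h hw hw0' hl' hm
  have hv0 : ((0 : ℚ) : ℝ) ≤ 1 / r := by
    have := h.state.rate_pos; push_cast; positivity
  obtain ⟨P, hPm, hPv, hPv'⟩ := chainTo_sound R.pieces hch hv0 hv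
  have := okPiece_sound (hall P hPm) (fun e he => okBulk_nonneg he hm) hp hd h hz' hw hw0' hl'
    hPv hPv' (fun hh => env_sound henv hh hp hs hm) hU
  simp [yV, eV, wV] at this
  rwa [remPoly_eq hsep hm.a_mem.1 hm.a_mem.2] at this

/-- The conditions beyond `8`. -/
theorem big_ge {ell s t a r q w R : ℝ} (hp : 98 ≤ p) (hd : ParOK p d)
    (h : FlatState p ell s t a r q) (hz : s ^ 2 ≤ 44 / 100) (hw : ell = w * eOf p) (hw0 : 0 ≤ w)
    (h1 : ell ≤ 4 / 100) (hv : 8 ≤ 1 / r) {T A : ℝ}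
    (hT : T = 1 + 2079 / 1000 - w * eOf p + 3 / 8 * yOf p s * (1 + 5 / 8 * s ^ 2))
    (hA : A = 2 * (1 + (d.g : ℝ)) * nLo toReal d (eOf p) * (1 - s ^ 2) -
      gP toReal d (eOf p) * (invLo toReal (yOf p s) (eOf p) + invRes toReal (yOf p s) (eOf p)) -
        (d.side : ℝ) * nHi toReal d (eOf p) * s ^ 2)
    (c1 : 0 ≤ (1 - s ^ 2) * T - 11 / 50 * (yOf p s + 2 * s ^ 2 + 1))
    (c2 : 0 ≤ 7 * ((1 - s ^ 2) * T - 11 / 50 * (yOf p s + 2 * s ^ 2 + 1)) +
      (1 - s ^ 2) * (T - 8) - 1 / 2 * (yOf p s + 2 * s ^ 2 + 1))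
    (c3 : 0 ≤ bP toReal d (yOf p s) (eOf p))
    (c4 : 0 ≤ bP toReal d (yOf p s) (eOf p) + 50 / 77 * s ^ 2 * dP toReal d (yOf p s) (eOf p))
    (hK : ∀ B : ℝ, (B = bP toReal d (yOf p s) (eOf p) ∨
        B = bP toReal d (yOf p s) (eOf p) + 50 / 77 * s ^ 2 * dP toReal d (yOf p s) (eOf p)) →
      ∀ a : ℝ, (a = 0 ∨ a = A / 8) →
      ∀ L : ℝ, (L = 0 ∨ L = 1 / 7 * eOf p * (1 - s ^ 2) * lamP toReal d (yOf p s) (eOf p)) →
      0 ≤ 11 / 50 * (B * (11 / 50) + (1 - s ^ 2) * udP toReal d (yOf p s) (eOf p)) -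
        (1 - s ^ 2) * skP toReal d (yOf p s) (eOf p) + (1 - s ^ 2) * a + L)
    (c8 : 0 ≤ R - skP2 toReal d (yOf p s) (eOf p)) :
    -(eOf p ^ 2 * R) ≤ quadCell p d s t r := by
  have hs := h.state.s_mem
  have hc : 0 < 1 - s ^ 2 := one_sub_pos h
  obtain ⟨he, -⟩ := eOf_bounds hp
  obtain ⟨v, hve⟩ : ∃ v, v = 1 / r := ⟨_, rfl⟩
  obtain ⟨δ, hδ⟩ : ∃ δ, δ = (t - s) / s := ⟨_, rfl⟩
  rw [← hve] at hv
  have hv' : 0 < v := by linarith
  have h0 : 0 ≤ ell := by rw [hw]; positivity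
  have hexp : Real.exp ell < 1 / r := by
    rw [← hve]
    linarith [exp_sub_one_le h0 h1,
      mul_le_mul h1 (show 1 + 13 / 25 * ell ≤ 11 / 10 by linarith) (by positivity) (by norm_num)]
  have hL : (2079 : ℝ) / 1000 ≤ Real.log 8 := by
    rw [show (8 : ℝ) = 2 ^ 3 by norm_num, Real.log_pow]
    linarith [Real.log_two_gt_d9]
  have hhalf := tail_half h hexp (v₀ := 8) (by norm_num) hL
  rw [← hδ, ← hve, ← yOf, hw, ← hT] at hhalf
  have hqpos : 0 < yOf p s + 2 * s ^ 2 + 1 := by rw [yOf]; positivity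
  have hu : 0 ≤ v - 1 := by linarith
  have hδu : 11 / 50 * (v - 1) ≤ δ := by
    refine le_of_mul_le_mul_left ?_ hqpos
    linarith [mul_nonneg c1 (show 0 ≤ v - 8 by linarith)]
  obtain ⟨qh, hqh⟩ : ∃ n : ℕ, v ≤ n := ⟨⌈v⌉₊, Nat.le_ceil v⟩
  have hg : 0 ≤ gP toReal d (eOf p) *
      (invLo toReal (yOf p s) (eOf p) + invRes toReal (yOf p s) (eOf p)) := by
    refine mul_nonneg hd.gam_nonneg ?_
    rw [invLo_eq, invRes_eq]; positivity
  have hAq : A / v * v ≤ aP toReal d (yOf p s) (eOf p) (qh : ℚ) := by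
    rw [div_mul_cancel₀ _ hv'.ne', hA, aP, cP_eq, zP_eq]
    simp only [toReal]
    push_cast
    have hK : (2 * (qh : ℝ) + 1) / (2 * ((qh : ℝ) + 2)) ≤ 1 := by
      rw [div_le_one (by positivity)]; linarith
    have := mul_le_mul_of_nonneg_right hK hg
    linarith
  have hb := base_ge (v := v) (δ := δ) (qh := (qh : ℚ)) (α := A / v) h hd.g_pos hd.gam_nonneg
    hd.low_pos hd.nu_bounds hz hve.symm hδ.symm (by exact_mod_cast hqh) hAq
  rw [cP_eq] at hb
  set y := yOf p s with hy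
  set e := eOf p with hedef
  set c := 1 - s ^ 2 with hcdef
  set B := bP toReal d y e
  set D := dP toReal d y e
  set U := udP toReal d y e
  set S := skP toReal d y e with hS
  set L := lamP toReal d y e
  have hy0 : 0 ≤ y := by rw [hy, yOf]; positivity
  have eS : S = skP2 toReal d y e * e ^ 2 := by
    rw [hS, skP, skP2, invRes, zP]; simp only [toReal]; push_cast; ring
  have hδ0 : 0 ≤ δ := le_trans (by positivity) hδu
  have p1 := mul_nonneg (mul_nonneg he.le hc.le) (mul_nonneg c8 he.le)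
  have hS0 : 0 ≤ S := by
    rw [hS, skP, invRes]; simp only [toReal]; push_cast
    have := hd.gam_nonneg
    have : 0 ≤ zP y e ^ 4 := by rw [zP]; positivity
    rw [← hy, ← hedef] at *
    positivity
  have hz2 : e * y = s ^ 2 := by rw [hy, hedef, ← zP_eq p s, zP, mul_comm]
  have hδ7 : 77 / 50 ≤ δ := by linarith
  obtain ⟨Bm, hBm, hB1, hB0⟩ : ∃ Bm, (Bm = B ∨ Bm = B + 50 / 77 * s ^ 2 * D) ∧
      Bm * δ ^ 2 ≤ B * δ ^ 2 + e * y * D * δ ∧ 0 ≤ Bm := by
    rcases le_total 0 D with hD | hD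
    · exact ⟨B, Or.inl rfl, by linarith [mul_nonneg (mul_nonneg (mul_nonneg he.le hy0) hD) hδ0],
        c3⟩
    · refine ⟨_, Or.inr rfl, ?_, c4⟩
      rw [hz2]
      linarith [mul_nonneg (mul_nonneg (mul_nonneg (sq_nonneg s) (neg_nonneg.2 hD)) hδ0)
        (show 0 ≤ 50 / 77 * δ - 1 by linarith)]
  obtain ⟨Lm, hLm, hL1⟩ : ∃ Lm, (Lm = 0 ∨ Lm = 1 / 7 * e * c * L) ∧
      Lm * (v - 1) ^ 2 ≤ c * e * L * (v - 1) := by
    rcases le_total 0 L with hL | hL
    · exact ⟨0, Or.inl rfl, by linarith [mul_nonneg (mul_nonneg (mul_nonneg hc.le he.le) hL) hu]⟩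
    · refine ⟨_, Or.inr rfl, ?_⟩
      linarith [mul_nonneg (mul_nonneg (mul_nonneg (mul_nonneg hc.le he.le) (neg_nonneg.2 hL)) hu)
        (show 0 ≤ (v - 1) / 7 - 1 by linarith)]
  obtain ⟨am, ham, hA1⟩ : ∃ am, (am = 0 ∨ am = A / 8) ∧ am ≤ A / v := by
    rcases le_total 0 A with hA0 | hA0
    · exact ⟨0, Or.inl rfl, div_nonneg hA0 hv'.le⟩
    · refine ⟨_, Or.inr rfl, ?_⟩
      rw [div_le_div_iff₀ (by norm_num) hv']
      linarith [mul_nonneg (neg_nonneg.2 hA0) (sub_nonneg.2 hv)]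
  have k0 := hK Bm hBm 0 (Or.inl rfl) 0 (Or.inl rfl)
  have hBU : 0 ≤ Bm * (11 / 50) + c * U := by linarith [mul_nonneg hc.le hS0]
  have p4 : 0 ≤ (Bm * δ ^ 2 + c * U * ((v - 1) * δ)) -
      11 / 50 * (Bm * (11 / 50) + c * U) * (v - 1) ^ 2 := by
    have h' : 0 ≤ (δ - 11 / 50 * (v - 1)) *
        (Bm * (δ - 11 / 50 * (v - 1)) + (v - 1) * (2 * (Bm * (11 / 50)) + c * U)) :=
      mul_nonneg (sub_nonneg.2 hδu) (add_nonneg (mul_nonneg hB0 (sub_nonneg.2 hδu))
        (mul_nonneg hu (by linarith [mul_nonneg hB0 (show (0 : ℝ) ≤ 11 / 50 by norm_num)])))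
    linear_combination h'
  have p5 := mul_nonneg (hK Bm hBm am ham Lm hLm) (sq_nonneg (v - 1))
  have p6 := mul_le_mul_of_nonneg_right (mul_le_mul_of_nonneg_left hA1 hc.le) (sq_nonneg (v - 1))
  have hgoal : 0 ≤ c * (quadCell p d s t r + e ^ 2 * R) := by
    rw [quadCell, mul_add]
    have q1 : 0 ≤ c * (e ^ 2 * R) - c * S := by rw [eS]; linear_combination p1
    linarith
  exact neg_le_iff_add_nonneg'.2 (by linarith [nonneg_of_mul_nonneg_right hgoal hc])

/-- A row in the chart that passes its test. -/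
theorem ChartRow.sound {fd : Fld} {R : ChartRow} (hR : R.ok d fd = true) (hd : ParOK p d)
    (hp : 98 ≤ p) {ell s t a r q w : ℝ} (h : FlatState p ell s t a r q) (hw : ell = w * eOf p)
    (hy : 32 ≤ yOf p s) (hm : R.box.Mem (s ^ 2) (32 / yOf p s) w) :
    -(eOf p ^ 2 * remFull fd (yOf p s) (eOf p) w) ≤ quadCell p d s t r := by
  simp only [ChartRow.ok, Bool.and_eq_true, Box.inChart, decide_eq_true_eq] at hR
  obtain ⟨⟨⟨⟨⟨⟨⟨⟨⟨ha0, hb0⟩, hb1⟩, hw0⟩, hz⟩, hw1⟩, hsep⟩, hch⟩, hall⟩, hbig⟩ := hR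
  have hw0' : 0 ≤ w := le_trans (by exact_mod_cast hw0) hm.w_mem.1
  obtain ⟨he, he'⟩ := eOf_bounds hp
  have hz' : s ^ 2 ≤ 44 / 100 := by
    have h2 : (R.box.a1 : ℝ) ≤ 44 / 100 := by
      have := (Rat.cast_le (K := ℝ)).2 hz; push_cast at this; exact this
    linarith [hm.a_mem.2]
  have hl' : ell ≤ 4 / 100 := by
    have h2 : (R.box.w1 : ℝ) ≤ 396 / 100 := by
      have := (Rat.cast_le (K := ℝ)).2 hw1; push_cast at this; exact this
    rw [hw]
    linarith [mul_le_mul (hm.w_mem.2.trans h2) he' he.le (by norm_num)]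
  have hy0 : 0 < yOf p s := by linarith
  rw [← zP_eq p s] at hm
  have ok : ∀ e : Expr, okFar R.box e = true → 0 ≤ e.eval [yOf p s, eOf p, w] :=
    fun e he => okFar_nonneg he hy0 hm
  rcases le_or_gt (1 / r) 8 with hv | hv
  · have hv0 : ((0 : ℚ) : ℝ) ≤ 1 / r := by
      have := h.state.rate_pos; push_cast; positivity
    obtain ⟨P, hPm, hPv, hPv'⟩ := chainTo_sound R.pieces hch hv0 (by push_cast; exact hv)
    simp only [List.all_eq_true] at hall
    have := okPiece_sound (hall P hPm) ok hp hd h hz' hw hw0' hl' hPv hPv'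
      (fun hh => by simp at hh) (fun U hU => by simp at hU)
    simp [yV, eV, wV] at this
    rwa [remPoly_far hsep hy] at this
  · simp only [bigExprs, List.all_cons, List.all_nil, Bool.and_eq_true, and_true] at hbig
    obtain ⟨b1, b2, b3, b4, b5, b6, b7, b8, b9, b10, b11, b12, b13⟩ := hbig
    have k1 := ok _ b1
    have k2 := ok _ b2
    have k3 := ok _ b3
    have k4 := ok _ b4
    have k5 := ok _ b5
    have k6 := ok _ b6
    have k7 := ok _ b7
    have k8 := ok _ b8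
    have k9 := ok _ b9
    have k10 := ok _ b10
    have k11 := ok _ b11
    have k12 := ok _ b12
    have k13 := ok _ b13
    simp [yV, eV, wV, topA] at k1 k2 k3 k4 k5 k6 k7 k8 k9 k10 k11 k12 k13
    rw [remPoly_far hsep hy] at k13
    simp only [chord2, chord1, cP_eq, zP_eq, qP, toReal] at k1 k2 k4 k5 k6 k7 k8 k9 k10 k11 k12
    push_cast at k1 k2 k4 k5 k6 k7 k8 k9 k10 k11 k12
    refine big_ge hp hd h hz' hw hw0' hl' hv.le rfl rfl ?_ ?_ k3 ?_ ?_ ?_
    · linarith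
    · linarith
    · linarith
    · rintro B (rfl | rfl) a (rfl | rfl) L (rfl | rfl) <;> linarith
    · linarith

end Vale.Agent.P237.Petty.Cor.Band
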