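import Vale.Agent.P237.Petty.Cor.Band.Spec
import Vale.Agent.P237.Petty.Cor.Band.Piece
import Vale.Agent.P237.Petty.Cor.Tiny.Lower

/-!
# P237: what the test of a row gives: signs, bounds of the mass below and of `1 / r`, the remainder
-/

namespace Vale.Agent.P237.Petty.Cor.Band

open Set
open Vale.Agent.P100.Bernstein
open Vale.Agent.P237.Petty.Cor.Top (toReal)
open Lift (circLow)

variable {p : ℕ}

/-- A point is in a box. -/
structure Box.Mem (B : Box) (a b w : ℝ) : Prop where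
  a_mem : (B.a0 : ℝ) ≤ a ∧ a ≤ B.a1
  b_mem : (B.b0 : ℝ) ≤ b ∧ b ≤ B.b1
  w_mem : (B.w0 : ℝ) ≤ w ∧ w ≤ B.w1

theorem toIv_spec {l h : ℚ} {x : ℝ} (h1 : (l : ℝ) ≤ x) (h2 : x ≤ h) :
    ((toIv l h).lo : ℝ) ≤ (toIv l h).den * x ∧ ((toIv l h).den : ℝ) * x ≤ (toIv l h).hi := by
  have e : ∀ q : ℚ, q.den ∣ Nat.lcm l.den h.den →
      ((q.num * (Nat.lcm l.den h.den / q.den : ℕ) : ℤ) : ℝ) = (Nat.lcm l.den h.den : ℕ) * (q : ℝ) := by
    intro q hq
    have hd : (q.den : ℝ) ≠ 0 := by exact_mod_cast q.den_pos.ne'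
    rw [Int.cast_mul, Int.cast_natCast, Rat.cast_def, Nat.cast_div hq hd]
    field_simp
  have hL : (0 : ℝ) ≤ (Nat.lcm l.den h.den : ℕ) := Nat.cast_nonneg _
  rw [toIv]
  simp only []
  rw [e l (Nat.dvd_lcm_left _ _), e h (Nat.dvd_lcm_right _ _)]
  exact ⟨mul_le_mul_of_nonneg_left h1 hL, mul_le_mul_of_nonneg_left h2 hL⟩

theorem Box.inBox {B : Box} {a b w : ℝ} (h : B.Mem a b w) : InBox B.ivs [a, b, w] :=
  ⟨(toIv_spec h.a_mem.1 h.a_mem.2).1, (toIv_spec h.a_mem.1 h.a_mem.2).2,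
    (toIv_spec h.b_mem.1 h.b_mem.2).1, (toIv_spec h.b_mem.1 h.b_mem.2).2,
    (toIv_spec h.w_mem.1 h.w_mem.2).1, (toIv_spec h.w_mem.1 h.w_mem.2).2, trivial⟩

theorem auto_sound {a : Expr} {x : List ℝ} : ∀ (n : ℕ) (B : List Iv), a.ok B.length = true →
    auto a n B = true → InBox B x → 0 ≤ a.eval x
  | 0, _, he, h, hx => (checkBox_sound he (Few.checkBox_of_quickBox h) hx).1
  | n + 1, B, he, h, hx => by
    simp only [auto, Bool.or_eq_true, Bool.and_eq_true] at h
    rcases h with h | ⟨h1, h2⟩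
    · exact (checkBox_sound he (Few.checkBox_of_quickBox h) hx).1
    · exact (inBox_halves _ B x hx).elim
        (auto_sound n _ ((length_halves _ B).1.symm ▸ he) h1)
        (auto_sound n _ ((length_halves _ B).2.symm ▸ he) h2)

theorem okBulk_nonneg {B : Box} {a : Expr} (h : okBulk B a = true) {y e w : ℝ}
    (hm : B.Mem y e w) : 0 ≤ a.eval [y, e, w] := by
  simp only [okBulk, Bool.and_eq_true] at h
  exact auto_sound fuel B.ivs (by exact h.1) h.2 (Box.inBox hm)

theorem toChart_ok : ∀ a : Expr, a.ok 3 = true → (toChart a).1.ok 3 = true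
  | .num _, _ => by simp [toChart, Expr.ok]
  | .frac _ _, h => by simpa [toChart, Expr.ok] using h
  | .var i, _ => by
    rcases i with _ | _ | i <;> simp [toChart, Expr.ok, HMul.hMul, Mul.mul]
  | .add a b, h | .sub a b, h => by
    simp only [Expr.ok, Bool.and_eq_true] at h
    simp [toChart, Expr.ok, HMul.hMul, Mul.mul, HPow.hPow, Pow.pow, toChart_ok a h.1,
      toChart_ok b h.2]
  | .neg a, h => by simpa [toChart, Expr.ok] using toChart_ok a (by simpa [Expr.ok] using h)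
  | .mul a b, h => by
    simp only [Expr.ok, Bool.and_eq_true] at h
    by_cases hz : isZ a b = true
    · simp [toChart, hz, Expr.ok]
    · simp [toChart, hz, Expr.ok, toChart_ok a h.1, toChart_ok b h.2]
  | .pow a _, h => by simpa [toChart, Expr.ok] using toChart_ok a (by simpa [Expr.ok] using h)

theorem autoDims_sound {a : Expr} {x : List ℝ} : ∀ (l : List ℕ) (B : List Iv), a.ok B.length = true →
    autoDims a l B = true → InBox B x → 0 ≤ a.eval x
  | [], _, he, h, hx => (checkBox_sound he (Few.checkBox_of_quickBox h) hx).1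
  | i :: l, B, he, h, hx => by
    simp only [autoDims, Bool.or_eq_true, Bool.and_eq_true] at h
    rcases h with h | ⟨h1, h2⟩
    · exact (checkBox_sound he (Few.checkBox_of_quickBox h) hx).1
    · exact (inBox_halves i B x hx).elim
        (autoDims_sound l _ ((length_halves i B).1.symm ▸ he) h1)
        (autoDims_sound l _ ((length_halves i B).2.symm ▸ he) h2)

theorem subst2_eval {X Y : Expr} {x : List ℝ} {u v w : ℝ} (hX : X.eval x = u) (hY : Y.eval x = v)
    (hw : x.getD 2 0 = w) : ∀ a : Expr, a.ok 3 = true →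
      (subst2 X Y a).eval x = a.eval [u, v, w]
  | .num c, _ => by simp [subst2, Expr.eval]
  | .frac c d, _ => by simp [subst2, Expr.eval]
  | .var i, h => by
    simp only [Expr.ok, decide_eq_true_eq] at h
    rcases i with _ | _ | _ | i
    · simp [subst2, Expr.eval, hX]
    · simp [subst2, Expr.eval, hY]
    · simpa [subst2, Expr.eval] using hw
    · omega
  | .add a b, h | .sub a b, h | .mul a b, h => by
    simp only [Expr.ok, Bool.and_eq_true] at h
    simp only [subst2, Expr.eval]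
    rw [subst2_eval hX hY hw a h.1, subst2_eval hX hY hw b h.2]
  | .neg a, h | .pow a _, h => by
    simp only [Expr.ok] at h
    simp only [subst2, Expr.eval]
    rw [subst2_eval hX hY hw a h]

theorem okCorner_nonneg {B : Box} {a : Expr} (ha : a.ok 3 = true) (h : okCorner B a = true)
    {z v w : ℝ} (hv : 0 < v) (hm : B.Mem z v w) : 0 ≤ a.eval [z, v, w] := by
  simp only [okCorner, Bool.and_eq_true, decide_eq_true_eq] at h
  obtain ⟨⟨⟨⟨⟨⟨⟨ha0, -⟩, hA⟩, hB⟩, o1⟩, o2⟩, h1⟩, h2⟩ := h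
  have hA' : (0 : ℝ) < (B.a1 : ℝ) := by exact_mod_cast hA
  have hB' : (0 : ℝ) < (B.b1 : ℝ) := by exact_mod_cast hB
  have hz : 0 ≤ z := le_trans (le_of_eq (by simp [ha0])) hm.a_mem.1
  rcases le_or_gt (z * B.b1) (B.a1 * v) with hc | hc
  · have hm' : B.slim.Mem (z / v) v w := by
      refine ⟨⟨by simp only [Box.slim]; push_cast; positivity, ?_⟩, hm.b_mem, hm.w_mem⟩
      simp only [Box.slim]
      push_cast
      rw [div_le_div_iff₀ hv hB']
      exact hc
    have := autoDims_sound _ B.slim.ivs (by exact o1) h1 (Box.inBox hm')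
    rwa [subst2_eval (u := z) (v := v) (w := w) (by simp [Expr.eval, hv.ne'])
      (by simp [Expr.eval]) (by simp) a ha] at this
  · have hz0 : 0 < z := by
      rcases hz.lt_or_eq with h' | h'
      · exact h'
      · rw [← h', zero_mul] at hc
        linarith [mul_pos hA' hv]
    have hm' : B.flat.Mem z (v / z) w := by
      refine ⟨hm.a_mem, ⟨by simp only [Box.flat]; push_cast; positivity, ?_⟩, hm.w_mem⟩
      simp only [Box.flat]
      push_cast
      rw [div_le_div_iff₀ hz0 hA']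
      linarith
    have := autoDims_sound _ B.flat.ivs (by exact o2) h2 (Box.inBox hm')
    rwa [subst2_eval (u := z) (v := v) (w := w) (by simp [Expr.eval])
      (by simp [Expr.eval]; field_simp) (by simp) a ha] at this

theorem okFar_nonneg {B : Box} {a : Expr} (h : okFar B a = true) {y e w : ℝ} (hy : 0 < y)
    (hm : B.Mem (y * e) (32 / y) w) : 0 ≤ a.eval [y, e, w] := by
  simp only [okFar, Bool.and_eq_true] at h
  obtain ⟨ha, h⟩ := h
  have ha' := toChart_ok a ha
  have h1 : 0 ≤ (toChart a).1.eval [y * e, 32 / y, w] := by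
    by_cases hc : (decide (B.a0 = 0) && decide (B.b0 = 0)) = true
    · rw [hc, cond_true, Bool.or_eq_true] at h
      rcases h with h | h
      · exact auto_sound 3 B.ivs (by exact ha') h (Box.inBox hm)
      · exact okCorner_nonneg ha' h (by positivity) hm
    · rw [Bool.not_eq_true] at hc
      rw [hc, cond_false] at h
      exact autoDims_sound farDims B.ivs (by exact ha') h (Box.inBox hm)
  rw [toChart_eval (w := w) (y := y) (e := e) (by field_simp) (by field_simp) rfl a ha] at h1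
  exact nonneg_of_mul_nonneg_right h1 (pow_pos (by positivity) _)

theorem exp_le_expUp {x : ℚ} (h0 : 0 ≤ x) (h1 : x ≤ 16) : Real.exp (x : ℝ) ≤ (expUp x : ℝ) := by
  have u0 : (0 : ℝ) ≤ (x : ℝ) / 16 := div_nonneg (by exact_mod_cast h0) (by norm_num)
  have u1 : (x : ℝ) / 16 ≤ 1 := by
    rw [div_le_one (by norm_num)]
    exact_mod_cast h1
  have h := Real.exp_bound' u0 u1 (n := 6) (by norm_num)
  simp only [Finset.sum_range_succ, Finset.sum_range_zero, Nat.factorial] at h
  norm_num at h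
  calc Real.exp (x : ℝ) = Real.exp ((x : ℝ) / 16) ^ 16 := by
        rw [← Real.exp_nat_mul]; congr 1; push_cast; ring
    _ ≤ _ := by
        rw [expUp]
        push_cast
        refine pow_le_pow_left₀ (Real.exp_pos _).le (h.trans (le_of_eq ?_)) 16
        ring

theorem le_log_of_expUp {L v : ℚ} (h0 : 0 ≤ L) (h1 : L ≤ 16) (hv : 0 < v) (h : expUp L ≤ v) :
    (L : ℝ) ≤ Real.log v :=
  (Real.le_log_iff_exp_le (by exact_mod_cast hv)).2
    ((exp_le_expUp h0 h1).trans (by exact_mod_cast h))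

/-- The bound of the mass below of a row. -/
theorem env_sound {B : Box} {E : EnvSpec} (hok : E.ok B = true) (hhas : E.has = true)
    (hp : 98 ≤ p) {s w : ℝ} (hs : s ∈ Ioo (0 : ℝ) 1)
    (hm : B.Mem (yOf p s) (eOf p) w) :
    0 ≤ E.env.at toReal (yOf p s) (eOf p) ∧
      circLow p s ≤ E.env.at toReal (yOf p s) (eOf p) * (s * arc s ^ (p + 1)) := by
  have hc : 0 < 1 - s ^ 2 := by nlinarith [hs.1, hs.2]
  have hyz : yOf p s * eOf p = s ^ 2 := zP_eq p s
  have hy : 0 ≤ yOf p s := by rw [yOf]; positivity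
  have he : 0 ≤ eOf p := by rw [eOf]; positivity
  have hA : 0 ≤ s * arc s ^ (p + 1) :=
    mul_nonneg hs.1.le (pow_nonneg (Real.sqrt_nonneg _) _)
  obtain ⟨⟨ha0, ha1⟩, ⟨hb0, hb1⟩, -⟩ := hm
  have hmax : yOf p s ^ 2 * eOf p ≤ (B.a1 : ℝ) ^ 2 * B.b1 :=
    mul_le_mul (pow_le_pow_left₀ hy ha1 2) hb1 he (sq_nonneg _)
  have hinv : ∀ k : ℚ, 0 ≤ k → (1 : ℚ) ≤ k * (1 - B.a1 * B.b1) → 0 < 1 - B.a1 * B.b1 →
      1 / (1 - s ^ 2) ≤ (k : ℝ) := by
    intro k hk hk1 hpos
    have hk1' : (1 : ℝ) ≤ (k : ℝ) * (1 - B.a1 * B.b1) := by exact_mod_cast hk1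
    have hk' : (0 : ℝ) ≤ (k : ℝ) := by exact_mod_cast hk
    rw [div_le_iff₀ hc]
    refine hk1'.trans (mul_le_mul_of_nonneg_left ?_ hk')
    rw [← hyz]
    have := mul_le_mul ha1 hb1 he (hy.trans ha1)
    linarith
  cases E with
  | none => simp [EnvSpec.has] at hhas
  | ser a b k =>
    simp only [EnvSpec.ok, Bool.and_eq_true, decide_eq_true_eq] at hok
    obtain ⟨⟨⟨⟨⟨⟨⟨hb, hk⟩, hk1⟩, -⟩, -⟩, hpos⟩, hY⟩, hcert⟩ := hok
    have hb' : (0 : ℝ) ≤ (b : ℝ) := by exact_mod_cast hb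
    have hk' : (0 : ℝ) ≤ (k : ℝ) := by exact_mod_cast hk
    have hY' : (B.a1 : ℝ) + k * (B.a1 : ℝ) ^ 2 * B.b1 ≤ 8 := by exact_mod_cast hY
    set X := ((p : ℝ) + 1) * s ^ 2 / (1 - s ^ 2) with hX
    have hX1 : X ≤ yOf p s + k * (yOf p s ^ 2 * eOf p) := by
      have e : X = yOf p s + yOf p s ^ 2 * eOf p * (1 / (1 - s ^ 2)) := by
        rw [show yOf p s ^ 2 * eOf p = yOf p s * s ^ 2 by rw [← hyz]; ring, hX, ← yOf]
        field_simp
        ring
      rw [e, mul_comm (k : ℝ)]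
      gcongr
      exact hinv k hk hk1 hpos
    have hX0 : yOf p s ≤ X := by
      rw [hX, ← yOf, le_div_iff₀ hc]
      linarith [mul_nonneg hy (sq_nonneg s)]
    have hXb : X ≤ (B.a1 : ℝ) + k * (B.a1 : ℝ) ^ 2 * B.b1 := by
      refine hX1.trans (add_le_add ha1 ?_)
      rw [mul_assoc]
      exact mul_le_mul_of_nonneg_left hmax hk'
    have hser := okBulk_nonneg hcert (y := X) (e := 0) (w := 0)
      ⟨⟨ha0.trans hX0, by push_cast; exact hXb⟩, by norm_num, by norm_num⟩
    simp [yV, serExpr, toReal] at hser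
    have h1 : Tiny.lowSer X ≤ a + b * X := by rw [Tiny.lowSer]; linarith
    have h2 : (a : ℝ) + b * X ≤ (EnvSpec.ser a b k).env.at toReal (yOf p s) (eOf p) := by
      simp only [EnvSpec.env, Env.at, toReal]
      push_cast
      linarith [mul_le_mul_of_nonneg_left hX1 hb']
    refine ⟨((Tiny.lowSer_pos (hy.trans hX0)).1.le.trans h1).trans h2, ?_⟩
    exact (Tiny.circLow_le_ser hs (hXb.trans hY')).trans
      (mul_le_mul_of_nonneg_right (h1.trans h2) hA)
  | expo a b k Y =>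
    simp only [EnvSpec.ok, Bool.and_eq_true, decide_eq_true_eq] at hok
    obtain ⟨⟨⟨⟨⟨⟨⟨⟨⟨⟨⟨hb, hk⟩, hk1⟩, hA0⟩, -⟩, hpos⟩, hY0⟩, hY2⟩, -⟩, hb16⟩, he1⟩, he2⟩ := hok
    have hb' : (0 : ℝ) ≤ (b : ℝ) := by exact_mod_cast hb
    have hk' : (0 : ℝ) ≤ (k : ℝ) := by exact_mod_cast hk
    have hYpos : (0 : ℝ) < (Y : ℝ) := by exact_mod_cast hY0
    have hY2' : (Y : ℝ) ^ 2 ≤ ((p : ℝ) + 1) * s ^ 2 := le_trans (by exact_mod_cast hY2) ha0
    set X := ((p : ℝ) + 1) * s ^ 2 / 2 + ((p : ℝ) + 1) * s ^ 2 * s ^ 2 / (4 * (1 - s ^ 2)) with hX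
    have eX : X = yOf p s / 2 + yOf p s ^ 2 * eOf p / 4 * (1 / (1 - s ^ 2)) := by
      rw [hX, ← yOf, show yOf p s ^ 2 * eOf p = yOf p s * s ^ 2 by rw [← hyz]; ring]
      field_simp
    have hX1 : X ≤ yOf p s / 2 + k * (yOf p s ^ 2 * eOf p) / 4 := by
      rw [eX, show (k : ℝ) * (yOf p s ^ 2 * eOf p) / 4 = yOf p s ^ 2 * eOf p / 4 * k by ring]
      gcongr
      exact hinv k hk hk1 hpos
    have hX0 : ((B.a0 / 2 : ℚ) : ℝ) ≤ X := by
      rw [eX]
      push_cast
      have : 0 ≤ yOf p s ^ 2 * eOf p / 4 * (1 / (1 - s ^ 2)) := by positivity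
      linarith
    have hXb : X ≤ ((B.a1 / 2 + k * B.a1 ^ 2 * B.b1 / 4 : ℚ) : ℝ) := by
      refine hX1.trans ?_
      push_cast
      linarith [mul_le_mul_of_nonneg_left hmax hk']
    obtain ⟨u, v, hu, hv, huv, hXe⟩ := exists_weights hX0 hXb
    have hA16 : B.a0 / 2 ≤ 16 :=
      Rat.cast_le.1 (hX0.trans (hXb.trans (Rat.cast_le.2 hb16)))
    have hQ0 : 0 ≤ B.a1 / 2 + k * B.a1 ^ 2 * B.b1 / 4 := by
      exact_mod_cast (show (0 : ℝ) ≤ ((B.a0 / 2 : ℚ) : ℝ) by
        push_cast; exact div_nonneg (by exact_mod_cast hA0) (by norm_num)).trans (hX0.trans hXb)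
    have k1 := (exp_le_expUp (by positivity) hA16).trans (Rat.cast_le.2 he1)
    have k2 := (exp_le_expUp hQ0 hb16).trans (Rat.cast_le.2 he2)
    have h1 : Real.exp X ≤ a + b * X := by
      have hcx := convexOn_exp.2 (mem_univ ((B.a0 / 2 : ℚ) : ℝ))
        (mem_univ ((B.a1 / 2 + k * B.a1 ^ 2 * B.b1 / 4 : ℚ) : ℝ)) hu hv huv
      simp only [smul_eq_mul] at hcx
      rw [hXe, mul_comm _ u, mul_comm _ v]
      refine hcx.trans ((add_le_add (mul_le_mul_of_nonneg_left k1 hu)
        (mul_le_mul_of_nonneg_left k2 hv)).trans (le_of_eq ?_))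
      push_cast
      linear_combination (a : ℝ) * huv
    have hf : (0 : ℝ) ≤ 127 / 100 / (Y : ℝ) := by positivity
    have h2 : ((a : ℝ) + b * X) * (127 / 100 / Y) ≤
        (EnvSpec.expo a b k Y).env.at toReal (yOf p s) (eOf p) := by
      simp only [EnvSpec.env, Env.at, toReal]
      push_cast
      linarith [mul_le_mul_of_nonneg_left (mul_le_mul_of_nonneg_left hX1 hb') hf]
    refine ⟨(mul_nonneg ((Real.exp_pos _).le.trans h1) hf).trans h2, ?_⟩
    exact (circLow_le_away hp hs hYpos hY2' h1).trans (mul_le_mul_of_nonneg_right h2 hA)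

/-- The bound of `1 / r` of a row. -/
theorem cap_sound {B : Box} {E : EnvSpec} {c : ℚ} {S : CapSpec} (hcok : S.ok B E c = true)
    (hEok : E.ok B = true) (hp : 98 ≤ p) {ell s t a r q w : ℝ} (h : FlatState p ell s t a r q)
    (hw : ell = w * eOf p) (hw0 : 0 ≤ w) (h1 : ell ≤ 4 / 100) (hm : B.Mem (yOf p s) (eOf p) w) :
    1 / r ≤ c ∧ ∀ U, S.slope = some U → 1 / r ≤ 1 + eOf p * U * w := by
  have hs := h.state.s_mem
  have hc : 0 < 1 - s ^ 2 := by nlinarith [hs.1, hs.2]
  have he : 0 < eOf p := by rw [eOf]; positivity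
  have h0 : 0 ≤ ell := by rw [hw]; positivity
  have hE : Real.exp ell ≤ 1 + ell * (1 + 13 / 25 * ell) := by
    linarith [exp_sub_one_le h0 h1]
  have hz := zP_eq p s
  have hq : qP toReal (yOf p s) (eOf p) + 1 = ((p : ℝ) + 1) * s ^ 2 + 2 * s ^ 2 + 1 := by
    rw [qP, hz]; simp only [toReal, yOf]; push_cast; ring
  obtain ⟨-, hb, hww⟩ := id hm
  cases S with
  | near U =>
    simp only [CapSpec.ok, Bool.and_eq_true, decide_eq_true_eq] at hcok
    obtain ⟨⟨⟨hhas, hcap⟩, hU⟩, hcert⟩ := hcok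
    obtain ⟨-, hΦ⟩ := env_sound hEok hhas hp hs hm
    have hX := okBulk_nonneg hcert hm
    simp [growth, yV, eV, wV] at hX
    rw [cP_eq, hq] at hX
    simp only [toReal] at hX
    have h2 : 1 / r ≤ 1 + eOf p * U * w := by
      refine inv_rate_le_near h h0 hE hΦ ?_
      have := mul_nonneg h0 (sub_nonneg.2 hX)
      rw [hw] at this ⊢
      linear_combination this
    refine ⟨h2.trans ?_, fun U' hU' => ?_⟩
    · have hcap' : 1 + (B.b1 : ℝ) * U * B.w1 ≤ c := by exact_mod_cast hcap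
      have hU' : (0 : ℝ) ≤ (U : ℝ) := by exact_mod_cast hU
      have := mul_le_mul (mul_le_mul_of_nonneg_right hb.2 hU') hww.2 hw0
        (mul_nonneg (he.le.trans hb.2) hU')
      linarith
    · obtain rfl : U = U' := Option.some_injective _ hU'
      exact h2
  | far x K =>
    simp only [CapSpec.ok, Bool.and_eq_true, decide_eq_true_eq] at hcok
    obtain ⟨⟨⟨⟨⟨⟨⟨⟨⟨hx, hx2⟩, hK⟩, hx10⟩, hx16⟩, -⟩, -⟩, hcap⟩, hhb⟩, hhs⟩ := hcok
    refine ⟨?_, fun U' hU' => by simp [CapSpec.slope] at hU'⟩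
    have hpp : (98 : ℝ) ≤ p := by exact_mod_cast hp
    have hx' : (0 : ℝ) < (x : ℝ) := by exact_mod_cast hx
    have hxy : (x : ℝ) ^ 2 ≤ ((p : ℝ) + 1) * s ^ 2 :=
      le_trans (by exact_mod_cast hx2) hm.a_mem.1
    have hm1 : (0 : ℝ) < (p : ℝ) + 1 := by positivity
    set u := (x : ℝ) / √((p : ℝ) + 1) with hu
    have hu0 : 0 < u := div_pos hx' (Real.sqrt_pos.2 hm1)
    have hu2 : ((p : ℝ) + 1) * u ^ 2 = (x : ℝ) ^ 2 := by
      rw [hu, div_pow, Real.sq_sqrt hm1.le]; field_simp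
    have hus : u ≤ s := (pow_le_pow_iff_left₀ hu0.le hs.1.le two_ne_zero).1
      (le_of_mul_le_mul_left (by rw [hu2]; exact hxy) hm1)
    have hx10' : (x : ℝ) ^ 2 ≤ 10 := by exact_mod_cast hx10
    have hL : circLow p u ≤ (baseLow x : ℝ) * u := by
      refine (circLow_le_poly ⟨hu0.le, hus.trans hs.2.le⟩).trans (le_of_eq ?_)
      rw [hu2, baseLow]
      push_cast
      ring
    have hC : 1 / arc u ^ (p + 1) ≤ (expUp (x ^ 2 / (2 * (1 - x ^ 2 / 99))) : ℝ) := by
      have hd : (0 : ℝ) < 1 - (x : ℝ) ^ 2 / 99 := by linarith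
      have hd' : (0 : ℚ) < 1 - x ^ 2 / 99 := by exact_mod_cast hd
      refine (inv_arc_pow_le (p := p) ⟨by linarith, by linarith [hs.2]⟩).trans
        (le_trans ?_ (exp_le_expUp (div_nonneg (sq_nonneg x) (by linarith)) hx16))
      rw [Real.exp_le_exp, hu2]
      push_cast
      refine div_le_div_of_nonneg_left (sq_nonneg _) (by linarith) ?_
      have : u ^ 2 ≤ (x : ℝ) ^ 2 / 99 := by
        rw [← hu2]; nlinarith [sq_nonneg u]
      linarith
    have hb' := okBulk_nonneg hhb hm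
    have hsq' := okBulk_nonneg hhs hm
    simp [hazExpr, hazSquare, growth, yV, eV, wV] at hb' hsq'
    rw [cP_eq, hq] at hsq'
    simp only [toReal] at hb' hsq'
    push_cast at hb' hsq'
    have hcap' : 1 + ell * (1 + 13 / 25 * ell) ≤ c := by
      have hle : ell ≤ (B.w1 : ℝ) * B.b1 := by
        rw [hw]; exact mul_le_mul hww.2 hb.2 he.le (hw0.trans hww.2)
      have hcap'' : 1 + (B.w1 : ℝ) * B.b1 * (1 + 13 / 25 * B.w1 * B.b1) ≤ c := by
        have := (Rat.cast_le (K := ℝ)).2 hcap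
        push_cast at this
        exact this
      have := mul_le_mul hle (show 1 + 13 / 25 * ell ≤ 1 + 13 / 25 * ((B.w1 : ℝ) * B.b1) by linarith)
        (by positivity) (h0.trans hle)
      linarith
    refine inv_rate_le_far (Kb := (K : ℝ)) h h0 hE hx' hxy hL hC ?_ (Rat.cast_nonneg.2 hK) hcap' ?_
    · rw [show 1 / ((p : ℝ) + 1) = eOf p from rfl, hw]
      linear_combination hb'
    · rw [hw]
      simp only [yOf] at hsq'
      linear_combination hsq'

/-- The spline. -/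
noncomputable def qFull (y e w : ℝ) : List Atom → ℝ
  | [] => 0
  | a :: l => a.c.at toReal e w * max 0 (y - a.k) ^ a.n + qFull y e w l

/-- Its derivative. -/
noncomputable def qFull' (y e w : ℝ) : List Atom → ℝ
  | [] => 0
  | a :: l => a.c.at toReal e w * (a.n * max 0 (y - a.k) ^ (a.n - 1)) + qFull' y e w l

/-- The remainder. -/
noncomputable def remFull (fd : Fld) (y e w : ℝ) : ℝ :=
  remOf toReal y e w fd (qFull y e w fd.atoms) (qFull' y e w fd.atoms)

theorem qPoly_filter {y0 y1 : ℚ} {y e w : ℝ} (hy0 : (y0 : ℝ) ≤ y) (hy1 : y ≤ y1) :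
    ∀ l : List Atom,
      (l.all fun a => decide (a.k ≤ y0) || (decide (2 ≤ a.n) && decide (y1 ≤ a.k))) = true →
      qPoly toReal y e w (l.filter fun a => decide (a.k ≤ y0)) = qFull y e w l ∧
        qPoly' toReal y e w (l.filter fun a => decide (a.k ≤ y0)) = qFull' y e w l
  | [], _ => by simp [qPoly, qPoly', qFull, qFull', toReal]
  | a :: l, h => by
    simp only [List.all_cons, Bool.and_eq_true, Bool.or_eq_true, decide_eq_true_eq] at h
    obtain ⟨i1, i2⟩ := qPoly_filter (e := e) (w := w) hy0 hy1 l h.2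
    rcases h.1 with ha | ⟨hn, ha⟩
    · have : (0 : ℝ) ≤ y - a.k := by
        have : (a.k : ℝ) ≤ y0 := by exact_mod_cast ha
        linarith
      rw [List.filter_cons_of_pos (by simpa using ha)]
      simp only [qPoly, qPoly', qFull, qFull', i1, i2, max_eq_right this, toReal]
      push_cast
      exact ⟨trivial, rfl⟩
    · by_cases hk : a.k ≤ y0
      · have : (0 : ℝ) ≤ y - a.k := by
          have : (a.k : ℝ) ≤ y0 := by exact_mod_cast hk
          linarith
        rw [List.filter_cons_of_pos (by simpa using hk)]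
        simp only [qPoly, qPoly', qFull, qFull', i1, i2, max_eq_right this, toReal]
        push_cast
        exact ⟨trivial, rfl⟩
      have h0 : max 0 (y - (a.k : ℝ)) = 0 := by
        have : (y1 : ℝ) ≤ a.k := by exact_mod_cast ha
        exact max_eq_left (by linarith)
      rw [List.filter_cons_of_neg (by simpa using hk)]
      simp only [qFull, qFull', i1, i2, h0, zero_pow (show a.n ≠ 0 by omega),
        zero_pow (show a.n - 1 ≠ 0 by omega)]
      simp

theorem remPoly_eq {fd : Fld} {y0 y1 : ℚ} (h : fd.sep y0 y1 = true) {y e w : ℝ}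
    (hy0 : (y0 : ℝ) ≤ y) (hy1 : y ≤ y1) :
    remPoly toReal y e w fd (fd.active y0) = remFull fd y e w := by
  obtain ⟨i1, i2⟩ := qPoly_filter (e := e) (w := w) hy0 hy1 fd.atoms h
  rw [remPoly, remFull, Fld.active, i1, i2]

theorem qPoly_far {y0 : ℚ} {y e w : ℝ} (hy : (y0 : ℝ) ≤ y) :
    ∀ l : List Atom, (l.all fun a => decide (a.k ≤ y0)) = true →
      qPoly toReal y e w l = qFull y e w l ∧ qPoly' toReal y e w l = qFull' y e w l
  | [], _ => by simp [qPoly, qPoly', qFull, qFull', toReal]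
  | a :: l, h => by
    simp only [List.all_cons, Bool.and_eq_true, decide_eq_true_eq] at h
    obtain ⟨i1, i2⟩ := qPoly_far (e := e) (w := w) hy l h.2
    have : (0 : ℝ) ≤ y - a.k := by
      have : (a.k : ℝ) ≤ y0 := by exact_mod_cast h.1
      linarith
    simp only [qPoly, qPoly', qFull, qFull', i1, i2, max_eq_right this, toReal]
    push_cast
    exact ⟨trivial, rfl⟩

theorem remPoly_far {fd : Fld} (h : fd.sepFar 32 = true) {y e w : ℝ} (hy : 32 ≤ y) :
    remPoly toReal y e w fd fd.atoms = remFull fd y e w := by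
  obtain ⟨i1, i2⟩ := qPoly_far (y0 := 32) (e := e) (w := w) (by exact_mod_cast hy) fd.atoms h
  rw [remPoly, remFull, i1, i2]

end Vale.Agent.P237.Petty.Cor.Band
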