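import Vale.Agent.P237.Petty.Cor.Band.Eval
import Vale.Agent.P237.Petty.Cor.Band.Chart
import Vale.Agent.P237.Petty.Cor.Few.Mask

/-!
# P237: a row of a cell of small values and its test by the kernel

A row is a box of `(y, e, w)`, or of `(z, φ, w)` in the chart, with a bound of the mass below, a
bound of `1 / r` and pieces of its values. Every polynomial condition is tested by bisection.
-/

namespace Vale.Agent.P237.Petty.Cor.Band

open Vale.Agent.P100.Bernstein

/-- Three intervals. -/
structure Box where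
  /-- The first start. -/
  a0 : ℚ
  /-- The first end. -/
  a1 : ℚ
  /-- The second start. -/
  b0 : ℚ
  /-- The second end. -/
  b1 : ℚ
  /-- The start of `w`. -/
  w0 : ℚ
  /-- The end of `w`. -/
  w1 : ℚ

/-- An interval with rational ends. -/
def toIv (l h : ℚ) : Iv :=
  ⟨l.num * (Nat.lcm l.den h.den / l.den : ℕ), h.num * (Nat.lcm l.den h.den / h.den : ℕ),
    Nat.lcm l.den h.den⟩

/-- The box as intervals. -/
def Box.ivs (B : Box) : List Iv := [toIv B.a0 B.a1, toIv B.b0 B.b1, toIv B.w0 B.w1]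

/-- The test of the sign on one box, by the mask of the top bits. -/
def leafTest (a : Expr) (B : List Iv) : Bool :=
  Few.quickBox a B (radix a B) (points a B) (padD B.length (a.pack B []).deg)

/-- A test of the sign by bisection, at most `n` times. -/
def auto (a : Expr) : ℕ → List Iv → Bool
  | 0, B => leafTest a B
  | n + 1, B => leafTest a B ||
      (auto a n (halves ((n + 1) % 3) B).1 && auto a n (halves ((n + 1) % 3) B).2)

/-- The times of bisection. -/
def fuel : ℕ := 11

/-- The test of nonnegativity on a box of `(y, e, w)`. -/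
def okBulk (B : Box) (a : Expr) : Bool := a.ok 3 && auto a fuel B.ivs

/-- An expression at other values of the first two variables. -/
def subst2 (X Y : Expr) : Expr → Expr
  | .num c => .num c
  | .frac c d => .frac c d
  | .var i => if i = 0 then X else if i = 1 then Y else .var 2
  | .add a b => .add (subst2 X Y a) (subst2 X Y b)
  | .sub a b => .sub (subst2 X Y a) (subst2 X Y b)
  | .neg a => .neg (subst2 X Y a)
  | .mul a b => .mul (subst2 X Y a) (subst2 X Y b)
  | .pow a k => .pow (subst2 X Y a) k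

/-- A test of the sign by bisection across the listed axes in turn. -/
def autoDims (a : Expr) : List ℕ → List Iv → Bool
  | [], B => leafTest a B
  | i :: l, B => leafTest a B ||
      (autoDims a l (halves i B).1 && autoDims a l (halves i B).2)

/-- The box of `(z / φ, φ, w)` below the diagonal of a corner box. -/
def Box.slim (B : Box) : Box := { B with a0 := 0, a1 := B.a1 / B.b1 }

/-- The box of `(z, φ / z, w)` above the diagonal of a corner box. -/
def Box.flat (B : Box) : Box := { B with b0 := 0, b1 := B.b1 / B.a1 }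

/-- The test at a corner of the chart, on the two sides of a line through it. -/
def okCorner (B : Box) (a : Expr) : Bool :=
  let a1 := subst2 (.mul (.var 0) (.var 1)) (.var 1) a
  let a2 := subst2 (.var 0) (.mul (.var 0) (.var 1)) a
  decide (B.a0 = 0) && decide (B.b0 = 0) && decide (0 < B.a1) && decide (0 < B.b1) &&
    a1.ok 3 && a2.ok 3 &&
    autoDims a1 [0, 0, 0, 0, 1, 0, 0, 2, 0, 1, 0, 2, 1, 0, 0, 0, 1] B.slim.ivs &&
    autoDims a2 [0, 1, 0, 1, 2, 0, 1, 2, 0, 1] B.flat.ivs

/-- The order of the cuts in the chart, most of them across `z`. -/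
def farDims : List ℕ := [0, 0, 0, 1, 0, 0, 2, 0, 1, 0, 2, 1, 0]

/-- The test of nonnegativity on a box of `(z, φ, w)`. -/
def okFar (B : Box) (a : Expr) : Bool :=
  a.ok 3 && bif decide (B.a0 = 0) && decide (B.b0 = 0) then
      auto (toChart a).1 3 B.ivs || okCorner B (toChart a).1
    else autoDims (toChart a).1 farDims B.ivs

/-- `y`. -/
def yV : Expr := .var 0

/-- `e`. -/
def eV : Expr := .var 1

/-- `w`. -/
def wV : Expr := .var 2

/-- A small positive constant. -/
def tiny : Expr := .frac 1 1000000000000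

/-- Above the exponential. -/
def expUp (x : ℚ) : ℚ :=
  (1 + x / 16 + (x / 16) ^ 2 / 2 + (x / 16) ^ 3 / 6 + (x / 16) ^ 4 / 24 + (x / 16) ^ 5 / 120 +
    (x / 16) ^ 6 * 7 / 4320) ^ 16

/-- The multipliers, the bound of the coefficient of `u ^ 2 / v` and the positivity of a form. -/
def pieceExprs (P : Piece) (A : Expr) (M : Form Expr) : List Expr :=
  [P.mu, P.rho, P.eta, P.tau, P.tau2, P.rlt, P.rlt2, P.the].map
      (fun l => Mult.at ofQ yV eV wV l) ++
    [alphaOK ofQ P A, M.g - tiny, M.minor ofQ - tiny, M.det ofQ]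

/-- The conditions on the constants of a piece. -/
def Piece.base (P : Piece) : Bool :=
  decide (0 < P.vh) && decide (0 ≤ P.gam) && decide (0 ≤ P.sv) && decide (P.vh ≤ P.sv ^ 2)

/-- The conditions on the constants of a piece beyond `1`. -/
def Piece.farBase (P : Piece) : Bool :=
  decide (21 / 20 ≤ P.vl) && decide (0 < P.v0) && decide (0 ≤ P.L0) && decide (P.L0 ≤ 10) &&
    decide (P.L0 / 16 ≤ 1) && decide (expUp P.L0 ≤ P.v0)

/-- The conditions on the constants of a piece near `1`, with the bound of `1 / r`. -/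
def Piece.nearBase (P : Piece) (env : Bool) (cap : Option ℚ) : Bool :=
  decide (P.L0 = 0) && (P.eta.isEmpty || env) &&
    (P.tau.isEmpty || (decide (1 ≤ P.vl) && cap == some P.cap)) &&
    (P.the.isEmpty || decide (0 ≤ (P.vl - 1) * (P.vh - 1)))

/-- The test of a piece. -/
def okPiece (ok : Expr → Bool) (d : Par) (F : Env) (env : Bool) (cap : Option ℚ) (R : Expr)
    (P : Piece) : Bool :=
  P.base &&
    bif decide (21 / 20 ≤ P.vl) then
      P.farBase && (P.eta.isEmpty || env) &&
        (pieceExprs P (farA ofQ d P yV eV wV) (farForm ofQ d P F R yV eV wV)).all ok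
    else
      P.nearBase env cap &&
        (pieceExprs P (nearA ofQ d P yV eV wV) (nearForm ofQ d P F R yV eV wV)).all ok

/-- The pieces reach from `lo` to `hi`. -/
def chainTo (lo hi : ℚ) : List Piece → Bool
  | [] => false
  | [P] => decide (P.vl ≤ lo) && decide (hi ≤ P.vh)
  | P :: l => decide (P.vl ≤ lo) && chainTo P.vh hi l

/-- A bound of the mass below: none, by the series, or by the exponential. -/
inductive EnvSpec where
  /-- None. -/
  | none
  /-- By the series, below the chord `a + b X`. -/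
  | ser (a b k : ℚ)
  /-- By the exponential, below the chord `a + b X`. -/
  | expo (a b k Y : ℚ)

/-- The bound of the mass below. -/
def EnvSpec.env : EnvSpec → Env
  | .none => ⟨0, 0, 0⟩
  | .ser a b k => ⟨a, b, b * k⟩
  | .expo a b k Y => ⟨127 / 100 / Y * a, 127 / 100 / Y * b / 2, 127 / 100 / Y * b * k / 4⟩

/-- A bound of the mass below is there. -/
def EnvSpec.has : EnvSpec → Bool
  | .none => false
  | _ => true

/-- The series. -/
def serExpr (X : Expr) : Expr :=
  1 + X * .frac 1 3 + X ^ 2 * .frac 1 15 + X ^ 3 * .frac 1 105 + X ^ 4 * .frac 1 945 +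
    X ^ 5 * .frac 1 10395 + X ^ 6 * .frac 1 135135 + X ^ 7 * .frac 1 2027025 +
    X ^ 8 * .frac 1 34459425 + X ^ 9 * .frac 1 654729075 + X ^ 10 * .frac 1 8511477975

/-- The test of a bound of the mass below. -/
def EnvSpec.ok (B : Box) : EnvSpec → Bool
  | .none => true
  | .ser a b k =>
    decide (0 ≤ b) && decide (0 ≤ k) && decide (1 ≤ k * (1 - B.a1 * B.b1)) &&
      decide (0 ≤ B.a0) && decide (0 ≤ B.b0) && decide (0 < 1 - B.a1 * B.b1) &&
      decide (B.a1 + k * B.a1 ^ 2 * B.b1 ≤ 8) &&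
      okBulk ⟨B.a0, B.a1 + k * B.a1 ^ 2 * B.b1, 0, 1, 0, 1⟩
        (ofQ a + ofQ b * yV - serExpr yV)
  | .expo a b k Y =>
    decide (0 ≤ b) && decide (0 ≤ k) && decide (1 ≤ k * (1 - B.a1 * B.b1)) &&
      decide (0 ≤ B.a0) && decide (0 ≤ B.b0) && decide (0 < 1 - B.a1 * B.b1) &&
      decide (0 < Y) && decide (Y ^ 2 ≤ B.a0) && decide (0 ≤ a + b * (B.a0 / 2)) &&
      decide (B.a1 / 2 + k * B.a1 ^ 2 * B.b1 / 4 ≤ 16) &&
      decide (expUp (B.a0 / 2) ≤ a + b * (B.a0 / 2)) &&
      decide (expUp (B.a1 / 2 + k * B.a1 ^ 2 * B.b1 / 4) ≤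
        a + b * (B.a1 / 2 + k * B.a1 ^ 2 * B.b1 / 4))

/-- A bound of `1 / r`: at the abscissa of the circle, or by the hazard. -/
inductive CapSpec where
  /-- `1 + e U w`. -/
  | near (U : ℚ)
  /-- From the hazard at `x / √(p + 1)`. -/
  | far (x K : ℚ)

/-- `1 + 13 / 25 w e`. -/
def growth : Expr := 1 + .frac 13 25 * wV * eV

/-- Below the mass below at the base, over the base. -/
def baseLow (x : ℚ) : ℚ := 1 - x ^ 2 / 6 + x ^ 4 / 40 - x ^ 6 / 336 + x ^ 8 / 3456

/-- The hazard inequality at the base, cleared. -/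
def hazExpr (x K : ℚ) : Expr :=
  ofQ (K * x) * (1 + 2 * eV) * (ofQ (x ^ 2) * (1 + 2 * eV) + 3) -
    ((1 - ofQ (x ^ 2) * eV) * (ofQ (x ^ 2 + 2) + ofQ (3 * x ^ 2) * eV) +
      wV * eV * ofQ (baseLow x * expUp (x ^ 2 / (2 * (1 - x ^ 2 / 99))) * x ^ 2) * (1 + 2 * eV) *
        (ofQ (x ^ 2) * (1 + 2 * eV) + 3))

/-- The hazard bound against `cap`, squared. -/
def hazSquare (K cap : ℚ) : Expr :=
  ofQ (cap ^ 2) * cP ofQ yV eV ^ 2 * yV -
    ((1 + wV * eV * growth) * ofQ K * (qP ofQ yV eV + 1)) ^ 2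

/-- The test of a bound `cap` of `1 / r`. -/
def CapSpec.ok (B : Box) (env : EnvSpec) (cap : ℚ) : CapSpec → Bool
  | .near U =>
    env.has && decide (1 + B.b1 * U * B.w1 ≤ cap) && decide (0 ≤ U) &&
      okBulk B (cP ofQ yV eV * ofQ U - cP ofQ yV eV * growth -
        (1 + wV * eV * growth) * env.env.at ofQ yV eV * (qP ofQ yV eV + 1))
  | .far x K =>
    decide (0 < x) && decide (x ^ 2 ≤ B.a0) && decide (0 ≤ K) && decide (x ^ 2 ≤ 10) &&
      decide (x ^ 2 / (2 * (1 - x ^ 2 / 99)) ≤ 16) && decide (0 ≤ baseLow x) &&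
      decide (0 ≤ B.w0) && decide (1 + B.w1 * B.b1 * (1 + 13 / 25 * B.w1 * B.b1) ≤ cap) &&
      okBulk B (hazExpr x K) && okBulk B (hazSquare K cap)

/-- The factor of the bound near `1`, if there is one. -/
def CapSpec.slope : CapSpec → Option ℚ
  | .near U => some U
  | .far _ _ => none

/-- A row in the bulk. -/
structure Row where
  /-- The box. -/
  box : Box
  /-- The bound of the mass below. -/
  env : EnvSpec
  /-- The way to the bound of `1 / r`. -/
  capBy : CapSpec
  /-- The bound of `1 / r`. -/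
  cap : ℚ
  /-- The pieces. -/
  pieces : List Piece

/-- A row in the chart. -/
structure ChartRow where
  /-- The box. -/
  box : Box
  /-- The pieces. -/
  pieces : List Piece

/-- The conditions on a box of `(y, e, w)`. -/
def Box.inBulk (B : Box) : Bool :=
  decide (0 ≤ B.a0) && decide (0 ≤ B.b0) && decide (0 ≤ B.w0) &&
    decide (B.a1 * B.b1 ≤ 44 / 100) && decide (B.w1 * B.b1 ≤ 4 / 100) && decide (B.b1 ≤ 1 / 99)

/-- The conditions on a box of `(z, φ, w)`. -/
def Box.inChart (B : Box) : Bool :=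
  decide (0 ≤ B.a0) && decide (0 ≤ B.b0) && decide (B.b1 ≤ 1) && decide (0 ≤ B.w0) &&
    decide (B.a1 ≤ 44 / 100) && decide (B.w1 ≤ 396 / 100)

/-- The test of a row in the bulk. -/
def Row.ok (d : Par) (fd : Fld) (r : Row) : Bool :=
  r.box.inBulk && fd.sep r.box.a0 r.box.a1 && r.env.ok r.box && r.capBy.ok r.box r.env r.cap &&
    chainTo 0 r.cap r.pieces &&
    r.pieces.all fun P => okPiece (okBulk r.box) d r.env.env r.env.has r.capBy.slope
      (remPoly ofQ yV eV wV fd (fd.active r.box.a0)) P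

/-- The coefficient of `u ^ 2 / v` for every large value. -/
def topA (d : Par) : Expr :=
  ofQ (2 * (1 + d.g)) * nLo ofQ d eV * cP ofQ yV eV -
    gP ofQ d eV * (invLo ofQ yV eV + invRes ofQ yV eV) - ofQ d.side * nHi ofQ d eV * zP yV eV

/-- The conditions beyond `8`, with the slope `11 / 50`. The linear terms are below squares, so the
coefficient of `δ ^ 2` may lose `Bd` and the one of `u ^ 2` may lose `Lu`. -/
def bigExprs (d : Par) (R : Expr) : List Expr :=
  let c := cP ofQ yV eV
  let q := qP ofQ yV eV + 1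
  let T := chord2 ofQ (⟨8, 8, 1, 8, 2079 / 1000, 0, [], [], [], [], [], [], [], [], 0⟩ : Piece)
    yV eV wV
  let k : Expr := .frac 11 50
  let K := k * (bP ofQ d yV eV * k + c * udP ofQ d yV eV) - c * skP ofQ d yV eV
  let Bd : Expr := .frac 50 77 * zP yV eV * dP ofQ d yV eV
  let Lu : Expr := .frac 1 7 * eV * c * lamP ofQ d yV eV
  let K' := K + k * k * Bd
  let cA : Expr := .frac 1 8 * c * topA d
  [c * T - k * q, 7 * (c * T - k * q) + c * (T - 8) - .frac 1 2 * q, bP ofQ d yV eV,
    bP ofQ d yV eV + Bd, K, K + cA, K + Lu, K + cA + Lu, K', K' + cA, K' + Lu, K' + cA + Lu,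
    R - skP2 ofQ d yV eV]

/-- The test of a row in the chart. -/
def ChartRow.ok (d : Par) (fd : Fld) (r : ChartRow) : Bool :=
  r.box.inChart && fd.sepFar 32 && chainTo 0 8 r.pieces &&
    (r.pieces.all fun P => okPiece (okFar r.box) d ⟨0, 0, 0⟩ false none
      (remPoly ofQ yV eV wV fd fd.atoms) P) &&
    (bigExprs d (remPoly ofQ yV eV wV fd fd.atoms)).all (okFar r.box)

/-- A row of the chart from the tests of its parts. -/
theorem ChartRow.ok_of {d : Par} {fd : Fld} {r : ChartRow}
    (h1 : (r.box.inChart && fd.sepFar 32 && chainTo 0 8 r.pieces) = true)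
    (h2 : ∀ P ∈ r.pieces, okPiece (okFar r.box) d ⟨0, 0, 0⟩ false none
      (remPoly ofQ yV eV wV fd fd.atoms) P = true)
    (h3 : (bigExprs d (remPoly ofQ yV eV wV fd fd.atoms)).all (okFar r.box) = true) :
    r.ok d fd = true := by
  rw [ChartRow.ok, h1, List.all_eq_true.2 h2, h3]
  rfl

/-- The value of a list of integers in units of `10 ^ (-10)`. -/
def unit10 (v : List ℤ) (i : ℕ) : ℚ := (v.getD i 0 : ℤ) / 10000000000

/-- The affine function through two values, as constant and slope. -/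
def line (x0 x1 v0 v1 : ℚ) : ℚ × ℚ :=
  (v0 - (v1 - v0) / (x1 - x0) * x0, (v1 - v0) / (x1 - x0))

/-- A multiplier from its values at the ends in `w`, or at the corners. -/
def corners (B : Box) (v : List ℤ) : Mult :=
  let l := fun a b : ℚ => line B.w0 B.w1 a b
  let n := unit10 v
  bif v.isEmpty then [] else bif v.length == 2 then
    [⟨0, 0, 0, (l (n 0) (n 1)).1, (l (n 0) (n 1)).2⟩]
  else
    let hy := B.a1 - B.a0
    let he := B.b1 - B.b0
    let fye := fun i => (n (i + 6) - n (i + 4) - n (i + 2) + n i) / (hy * he)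
    let fy := fun i => (n (i + 2) - n i) / hy - fye i * B.b0
    let fe := fun i => (n (i + 4) - n i) / he - fye i * B.a0
    let f0 := fun i => n i - fy i * B.a0 - fe i * B.b0 - fye i * B.a0 * B.b0
    [⟨0, 0, 0, (l (f0 0) (f0 1)).1, (l (f0 0) (f0 1)).2⟩,
      ⟨1, 0, 0, (l (fy 0) (fy 1)).1, (l (fy 0) (fy 1)).2⟩,
      ⟨0, 1, 0, (l (fe 0) (fe 1)).1, (l (fe 0) (fe 1)).2⟩,
      ⟨1, 1, 0, (l (fye 0) (fye 1)).1, (l (fye 0) (fye 1)).2⟩]

/-- A multiplier of the chart, times `(y / 32) ^ k`, from its values at the corners. -/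
def cornersFar (B : Box) (k : ℕ) (v : List ℤ) : Mult :=
  let n := unit10 v
  bif v.isEmpty then [] else
    let c := fun i => line B.a0 B.a1 (n i / 32 ^ k) (n (i + 2) / 32 ^ k)
    [⟨k, 0, 0, (line B.w0 B.w1 (c 0).1 (c 1).1).1, (line B.w0 B.w1 (c 0).1 (c 1).1).2⟩,
      ⟨k, 0, 1, (line B.w0 B.w1 (c 0).2 (c 1).2).1, (line B.w0 B.w1 (c 0).2 (c 1).2).2⟩]

end Vale.Agent.P237.Petty.Cor.Band
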