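import Vale.Agent.P237.Petty.Cor.CutQuad
import Vale.Agent.P237.Petty.Cor.MillsUp

/-!
# P237: the linear and quadratic inequalities of a state in `u = 1 / r - 1` and `δ = (t - s) / s`

The cut around a base `v₀`, the two boxes of the displacement and the tail chord at the abscissa of
the circle, each with `y = (p + 1) s ^ 2` and `e = 1 / (p + 1)`.
-/

namespace Vale.Agent.P237.Petty.Cor.Band

open Set
open Lift (circLow circHigh)

variable {p : ℕ} {ell s t a r q : ℝ}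

theorem one_sub_pos (h : FlatState p ell s t a r q) : 0 < 1 - s ^ 2 := by
  nlinarith [h.state.s_mem.1, h.state.s_mem.2]

theorem arc_sq (h : FlatState p ell s t a r q) : arc s ^ 2 = 1 - s ^ 2 :=
  Real.sq_sqrt (one_sub_pos h).le

/-- The cut around the base `v₀`. -/
theorem cut_base (hp : 1 ≤ p) (h : FlatState p ell s t a r q) {v₀ K : ℝ} (hv₀ : 0 < v₀)
    (hK : Real.exp (2 * (ell - Real.log v₀) / ((p : ℝ) + 1)) ≤ K) :
    (1 - K) * (((p : ℝ) + 1) / 2) - K * (v₀ * r - 1) ≤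
      ((p : ℝ) + 1) * s ^ 2 * (((t - s) / s) + ((t - s) / s) ^ 2 / 2) / (1 - s ^ 2) := by
  have hp1 : (1 : ℝ) ≤ p := by exact_mod_cast hp
  have hm : (0 : ℝ) < (p : ℝ) + 1 := by positivity
  have ha := h.state.pos
  have hc := h.state.arc_pos'
  have hr := h.state.rate_pos
  have hct : 0 < arc t := arc_pos ⟨by linarith [h.state.t_mem.1], h.state.t_mem.2⟩
  have hc2 := arc_sq h
  have ht2 : arc t ^ 2 = 1 - t ^ 2 :=
    Real.sq_sqrt (by nlinarith [h.state.t_mem.1, h.state.t_mem.2])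
  have hs0 := h.state.s_mem.1
  set V := Real.exp (Real.log v₀ / ((p : ℝ) + 1)) with hV
  set T := Real.exp (2 * ell / ((p : ℝ) + 1)) with hT
  have hVp : V ^ (p + 1) = v₀ := by
    rw [hV, ← Real.exp_nat_mul]
    push_cast
    rw [mul_div_cancel₀ _ hm.ne', Real.exp_log hv₀]
  have hTp : T ^ (p + 1) = Real.exp ell ^ 2 := by
    rw [hT, ← Real.exp_nat_mul, ← Real.exp_nat_mul]
    congr 1
    push_cast
    field_simp
  have h1 : arc t ^ 2 ≤ T * a ^ 2 := by
    refine (pow_le_pow_iff_left₀ (sq_nonneg _) (by positivity) (Nat.succ_ne_zero p)).1 ?_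
    rw [mul_pow, hTp, ← pow_mul, ← pow_mul, mul_comm 2 (p + 1), pow_mul, pow_mul, ← mul_pow]
    exact pow_le_pow_left₀ (pow_nonneg hct.le _) h.cut 2
  have hV0 : 0 < V := Real.exp_pos _
  have hz : 0 < V * (a / arc s) := by positivity
  have h2 : (V * (a / arc s)) ^ 2 ≤ 1 + 2 / ((p : ℝ) + 1) * (v₀ * r - 1) := by
    have h3 := rpow_one_add_le_one_add_mul_self (s := v₀ * r - 1) (p := 2 / ((p : ℝ) + 1))
      (by nlinarith) (by positivity) ((div_le_one hm).2 (by linarith))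
    rw [add_sub_cancel] at h3
    refine le_trans (le_of_eq ?_) h3
    rw [h.state.rate_eq, ← div_pow, ← hVp, ← mul_pow, ← Real.rpow_natCast (V * (a / arc s)) (p + 1),
      ← Real.rpow_mul hz.le]
    push_cast
    rw [mul_div_cancel₀ _ hm.ne', show (2 : ℝ) = ((2 : ℕ) : ℝ) by norm_num, Real.rpow_natCast]
  set L := 1 + 2 / ((p : ℝ) + 1) * (v₀ * r - 1) with hL
  have hL0 : 0 ≤ L := (sq_nonneg _).trans h2
  have e0 : T / V ^ 2 = Real.exp (2 * (ell - Real.log v₀) / ((p : ℝ) + 1)) := by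
    rw [hT, hV, ← Real.exp_nat_mul, ← Real.exp_sub]
    congr 1
    push_cast
    field_simp
  have h4 : arc t ^ 2 ≤ K * L * arc s ^ 2 := by
    refine h1.trans ?_
    have e1 : T * a ^ 2 = T / V ^ 2 * (V * (a / arc s)) ^ 2 * arc s ^ 2 := by field_simp
    rw [e1, e0]
    exact mul_le_mul_of_nonneg_right
      (mul_le_mul hK h2 (sq_nonneg _) ((Real.exp_pos _).le.trans hK)) (sq_nonneg _)
  rw [ht2, hc2, hL] at h4
  have hs2 := one_sub_pos h
  rw [show ((p : ℝ) + 1) * s ^ 2 * (((t - s) / s) + ((t - s) / s) ^ 2 / 2) =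
    ((p : ℝ) + 1) / 2 * (t ^ 2 - s ^ 2) by field_simp; ring, le_div_iff₀ hs2]
  have h5 := mul_le_mul_of_nonneg_left h4 (show 0 ≤ ((p : ℝ) + 1) / 2 by positivity)
  have e2 : ((p : ℝ) + 1) / 2 * (K * (1 + 2 / ((p : ℝ) + 1) * (v₀ * r - 1)) * (1 - s ^ 2)) =
      K * (((p : ℝ) + 1) / 2 + (v₀ * r - 1)) * (1 - s ^ 2) := by
    field_simp
  rw [e2] at h5
  linarith

/-- The box below. -/
theorem box_low (h : FlatState p ell s t a r q) (h0 : 0 ≤ ell) {eps : ℝ}
    (heps : Real.exp ell - 1 ≤ eps) :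
    0 ≤ ((p : ℝ) + 1) * s ^ 2 * (1 + 2 * (1 / ((p : ℝ) + 1))) *
          (((p : ℝ) + 1) * s ^ 2 + 2 * s ^ 2 + 3) * ((t - s) / s) +
        eps * (1 - s ^ 2) * (((p : ℝ) + 1) * s ^ 2 + 2 * s ^ 2 + 2 + s ^ 2) := by
  have hs := h.state.s_mem
  have hc2 := arc_sq h
  have hp0 : 0 < arc s ^ (p + 1) := pow_pos h.state.arc_pos' _
  set R := (((p : ℝ) + 4) * s ^ 2 + 2) / (((p : ℝ) + 3) * s * (((p : ℝ) + 3) * s ^ 2 + 3)) with hR
  have hR0 : 0 ≤ R := by have := hs.1; positivity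
  have he : 0 ≤ eps := (sub_nonneg.2 (Real.one_le_exp h0)).trans heps
  have h1 : (s - t) * arc s ^ (p + 1) ≤ eps * (arc s ^ (p + 3) * R) := by
    refine (h.disp_ge h0).trans (mul_le_mul heps (circHigh_le ⟨hs.1, hs.2.le⟩)
      (circHigh_pos p ⟨hs.1.le, hs.2⟩).le he)
  rw [show arc s ^ (p + 3) = arc s ^ (p + 1) * arc s ^ 2 by ring, hc2] at h1
  have h2 : s - t ≤ eps * ((1 - s ^ 2) * R) := le_of_mul_le_mul_right (by linarith) hp0
  rw [hR, mul_div_assoc', mul_div_assoc', le_div_iff₀ (by have := hs.1; positivity)] at h2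
  have e : ((p : ℝ) + 1) * s ^ 2 * (1 + 2 * (1 / ((p : ℝ) + 1))) *
      (((p : ℝ) + 1) * s ^ 2 + 2 * s ^ 2 + 3) * ((t - s) / s) =
      ((p : ℝ) + 3) * s * (((p : ℝ) + 3) * s ^ 2 + 3) * (t - s) := by
    have := hs.1.ne'
    field_simp
    ring
  rw [e]
  linarith

/-- The box above, from the chord at the abscissa of the circle. -/
theorem box_high (h : FlatState p ell s t a r q) (hst : s < t) {Φ : ℝ}
    (hΦ : circLow p s ≤ Φ * (s * arc s ^ (p + 1))) :
    (t - s) / s ≤ (Real.exp (ell / 2) - Real.exp (-ell / 2)) * √(1 / r) * Φ := by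
  have hs := h.state.s_mem
  have hr := h.state.rate_pos
  have hp0 : 0 < arc s ^ (p + 1) := pow_pos h.state.arc_pos' _
  have e0 : a ^ (p + 1) = r * arc s ^ (p + 1) := by
    rw [h.state.rate_eq, div_mul_cancel₀ _ hp0.ne']
  have h1 := h.chord_geo (u := s) ⟨hs.1.le, hst⟩
  rw [e0, Real.log_mul hr.ne' hp0.ne',
    show (Real.log (arc s ^ (p + 1)) - ell - (Real.log r + Real.log (arc s ^ (p + 1)))) / 2 =
      -ell / 2 + -(Real.log r / 2) by ring,
    show circLow p s - Real.exp (-ell) * circLow p s =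
      Real.exp (-ell / 2) * ((Real.exp (ell / 2) - Real.exp (-ell / 2)) * circLow p s) by
      rw [← mul_assoc, mul_sub, ← Real.exp_add, ← Real.exp_add, show -ell / 2 + ell / 2 = 0 by ring,
        Real.exp_zero, show -ell / 2 + -ell / 2 = -ell by ring]; ring,
    Real.exp_add, Real.exp_neg (Real.log r / 2), Real.exp_half (Real.log r),
    Real.exp_log hr] at h1
  have hq : √r * √(1 / r) = 1 := by
    rw [← Real.sqrt_mul hr.le, mul_one_div_cancel hr.ne', Real.sqrt_one]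
  have hr2 : r * (√r)⁻¹ = √r := by
    rw [eq_comm, ← div_eq_mul_inv, eq_div_iff (Real.sqrt_pos.2 hr).ne', Real.mul_self_sqrt hr.le]
  have hd : 0 ≤ Real.exp (ell / 2) - Real.exp (-ell / 2) := by
    by_contra hneg
    have : 0 < (t - s) * (r * arc s ^ (p + 1)) * (Real.exp (-ell / 2) * (√r)⁻¹) := by
      have := sub_pos.2 hst
      have := Real.sqrt_pos.2 hr
      positivity
    have hL : 0 ≤ circLow p s :=
      intervalIntegral.integral_nonneg hs.1.le fun v _ => pow_nonneg (Real.sqrt_nonneg _) _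
    nlinarith [mul_nonneg (mul_nonneg (Real.exp_pos (-ell / 2)).le hL) (neg_nonneg.2 (not_le.1 hneg).le)]
  have h2 : (t - s) * (√r * arc s ^ (p + 1)) ≤
      (Real.exp (ell / 2) - Real.exp (-ell / 2)) * (Φ * (s * arc s ^ (p + 1))) := by
    refine le_trans ?_ (mul_le_mul_of_nonneg_left hΦ hd)
    refine le_of_mul_le_mul_left (le_of_eq_of_le ?_ h1) (Real.exp_pos (-ell / 2))
    linear_combination -((t - s) * arc s ^ (p + 1) * Real.exp (-ell / 2)) * hr2
  rw [div_le_iff₀ hs.1]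
  refine le_of_mul_le_mul_right ?_ (mul_pos (Real.sqrt_pos.2 hr) hp0)
  refine h2.trans (le_of_eq ?_)
  linear_combination -((Real.exp (ell / 2) - Real.exp (-ell / 2)) * Φ * s * arc s ^ (p + 1)) * hq

/-- Beyond `exp ell` the abscissa of the circle is below that of the profile, and the tail chord
there bounds the displacement from below. -/
theorem tail_line (h : FlatState p ell s t a r q) (hv : Real.exp ell < 1 / r) {v₀ L₀ : ℝ}
    (hv₀ : 0 < v₀) (hL : L₀ ≤ Real.log v₀) :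
    s < t ∧ (1 - s ^ 2) * ((1 + L₀ - ell) * (1 / r) - v₀) ≤
      ((t - s) / s) * (((p : ℝ) + 1) * s ^ 2 + 2 * s ^ 2 + 1) := by
  have hs := h.state.s_mem
  have hst : s < t := lt_of_not_ge fun hts => absurd (h.inv_rate_le_exp hts) (not_le.2 hv)
  refine ⟨hst, ?_⟩
  have hr := h.state.rate_pos
  have hp0 : 0 < arc s ^ (p + 1) := pow_pos h.state.arc_pos' _
  have e0 : a ^ (p + 1) = r * arc s ^ (p + 1) := by
    rw [h.state.rate_eq, div_mul_cancel₀ _ hp0.ne']
  have h1 := h.tailChord s ⟨hs.1.le, hst⟩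
  rw [e0, Real.log_mul hr.ne' hp0.ne',
    show Real.log (arc s ^ (p + 1)) - ell - (Real.log r + Real.log (arc s ^ (p + 1))) =
      Real.log (1 / r) - ell by rw [one_div, Real.log_inv]; ring] at h1
  have hv1 : 0 < 1 / r := by positivity
  have hlog : 0 ≤ Real.log (1 / r) - ell := sub_nonneg.2 ((Real.le_log_iff_exp_le hv1).2 hv.le)
  have hden : 0 < ((p : ℝ) + 3) * s ^ 2 + 1 := by positivity
  have h2 := (mul_le_mul_of_nonneg_left
    (circHigh_ge_sq (Ioo_subset_Icc_self hs)) hlog).trans h1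
  rw [show arc s ^ (p + 3) = arc s ^ (p + 1) * arc s ^ 2 by ring, arc_sq h, mul_div_assoc',
    mul_div_assoc', div_le_iff₀ hden] at h2
  have h3 : (Real.log (1 / r) - ell) * (1 / r) * ((1 - s ^ 2) * s) ≤
      (t - s) * (((p : ℝ) + 3) * s ^ 2 + 1) := by
    refine le_of_mul_le_mul_right ?_ (mul_pos hr hp0)
    refine le_trans (le_of_eq ?_) (h2.trans (le_of_eq (by ring)))
    field_simp
  have h4 : (1 + L₀ - ell) * (1 / r) - v₀ ≤ (Real.log (1 / r) - ell) * (1 / r) := by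
    have h5 := Real.log_le_sub_one_of_pos (show 0 < v₀ / (1 / r) by positivity)
    rw [Real.log_div hv₀.ne' hv1.ne'] at h5
    have h6 := mul_le_mul_of_nonneg_right h5 hv1.le
    rw [sub_mul, sub_mul, div_mul_cancel₀ _ hv1.ne'] at h6
    nlinarith [mul_le_mul_of_nonneg_right hL hv1.le]
  rw [div_mul_eq_mul_div, le_div_iff₀ hs.1,
    show ((p : ℝ) + 1) * s ^ 2 + 2 * s ^ 2 + 1 = ((p : ℝ) + 3) * s ^ 2 + 1 by ring]
  refine le_trans (le_of_eq (by ring)) ((mul_le_mul_of_nonneg_right h4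
    (mul_nonneg (one_sub_pos h).le hs.1.le)).trans h3)

/-- The tail chord at half the abscissa of the circle. -/
theorem tail_half (h : FlatState p ell s t a r q) (hv : Real.exp ell < 1 / r) {v₀ L₀ : ℝ}
    (hv₀ : 0 < v₀) (hL : L₀ ≤ Real.log v₀) :
    (1 - s ^ 2) * ((1 + L₀ - ell + 3 / 8 * (((p : ℝ) + 1) * s ^ 2) * (1 + 5 / 8 * s ^ 2)) *
        (1 / r) - v₀) ≤
      ((t - s) / s + 1 / 2) * (((p : ℝ) + 1) * s ^ 2 + 2 * s ^ 2 + 1) := by
  have hs := h.state.s_mem
  have hst : s < t := lt_of_not_ge fun hts => absurd (h.inv_rate_le_exp hts) (not_le.2 hv)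
  have hr := h.state.rate_pos
  have hp0 : 0 < arc s ^ (p + 1) := pow_pos h.state.arc_pos' _
  have e0 : a ^ (p + 1) = r * arc s ^ (p + 1) := by
    rw [h.state.rate_eq, div_mul_cancel₀ _ hp0.ne']
  have hc := h.state.arc_pos'
  have hc' : 0 < arc (s / 2) := arc_pos ⟨by linarith [hs.1], by linarith [hs.2]⟩
  have hz := one_sub_pos h
  have hgain : 3 / 8 * (((p : ℝ) + 1) * s ^ 2) * (1 + 5 / 8 * s ^ 2) ≤
      Real.log (arc (s / 2) ^ (p + 1)) - Real.log (arc s ^ (p + 1)) := by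
    have h1 := Real.le_log_one_add_of_nonneg (x := 3 / 4 * s ^ 2 / (1 - s ^ 2)) (by positivity)
    have e : 1 + 3 / 4 * s ^ 2 / (1 - s ^ 2) = arc (s / 2) ^ 2 / arc s ^ 2 := by
      rw [arc_sq h, show arc (s / 2) ^ 2 = 1 - (s / 2) ^ 2 from Real.sq_sqrt (by linarith)]
      field_simp
      ring
    rw [e, Real.log_div (by positivity) (by positivity), Real.log_pow, Real.log_pow] at h1
    push_cast at h1
    rw [Real.log_pow, Real.log_pow]
    push_cast
    have h2 : 3 / 4 * s ^ 2 * (1 + 5 / 8 * s ^ 2) ≤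
        2 * (3 / 4 * s ^ 2 / (1 - s ^ 2)) / (3 / 4 * s ^ 2 / (1 - s ^ 2) + 2) := by
      rw [le_div_iff₀ (by positivity)]
      field_simp
      nlinarith [pow_nonneg (sq_nonneg s) 3, pow_nonneg (sq_nonneg s) 2, sq_nonneg s]
    nlinarith [mul_le_mul_of_nonneg_left (h2.trans h1) (show 0 ≤ (p : ℝ) + 1 by positivity)]
  have h1 := h.tailChord (s / 2) ⟨by linarith [hs.1], by linarith [hs.1]⟩
  have hv1 : 0 < 1 / r := by positivity
  have hlog : 0 ≤ Real.log (1 / r) - ell := sub_nonneg.2 ((Real.le_log_iff_exp_le hv1).2 hv.le)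
  set D := 3 / 8 * (((p : ℝ) + 1) * s ^ 2) * (1 + 5 / 8 * s ^ 2) with hD
  have hD0 : 0 ≤ D := by rw [hD]; positivity
  have h1' : (D + (Real.log (1 / r) - ell)) * circHigh p s ≤ (t - s / 2) * (r * arc s ^ (p + 1)) := by
    rw [← e0]
    refine le_trans (mul_le_mul_of_nonneg_right ?_ (circHigh_pos p ⟨hs.1.le, hs.2⟩).le) h1
    rw [e0, Real.log_mul hr.ne' hp0.ne', one_div, Real.log_inv]
    linarith
  have hden : 0 < ((p : ℝ) + 3) * s ^ 2 + 1 := by positivity
  have h2 := (mul_le_mul_of_nonneg_left (circHigh_ge_sq (Ioo_subset_Icc_self hs))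
    (add_nonneg hD0 hlog)).trans h1'
  rw [show arc s ^ (p + 3) = arc s ^ (p + 1) * arc s ^ 2 by ring, arc_sq h, mul_div_assoc',
    mul_div_assoc', div_le_iff₀ hden] at h2
  have h3 : (D + (Real.log (1 / r) - ell)) * (1 / r) * ((1 - s ^ 2) * s) ≤
      (t - s / 2) * (((p : ℝ) + 3) * s ^ 2 + 1) := by
    refine le_of_mul_le_mul_right ?_ (mul_pos hr hp0)
    refine le_trans (le_of_eq ?_) (h2.trans (le_of_eq (by ring)))
    field_simp
  have h4 : (1 + L₀ - ell + D) * (1 / r) - v₀ ≤ (D + (Real.log (1 / r) - ell)) * (1 / r) := by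
    have h5 := Real.log_le_sub_one_of_pos (show 0 < v₀ / (1 / r) by positivity)
    rw [Real.log_div hv₀.ne' hv1.ne'] at h5
    have h6 := mul_le_mul_of_nonneg_right h5 hv1.le
    rw [sub_mul, sub_mul, div_mul_cancel₀ _ hv1.ne'] at h6
    nlinarith [mul_le_mul_of_nonneg_right hL hv1.le]
  rw [show (t - s) / s + 1 / 2 = (t - s / 2) / s by
      have := hs.1.ne'; field_simp; ring, div_mul_eq_mul_div,
    le_div_iff₀ hs.1,
    show ((p : ℝ) + 1) * s ^ 2 + 2 * s ^ 2 + 1 = ((p : ℝ) + 3) * s ^ 2 + 1 by ring]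
  refine le_trans (le_of_eq (by ring)) ((mul_le_mul_of_nonneg_right h4
    (mul_nonneg hz.le hs.1.le)).trans h3)

/-- A symmetric form in `(1, u, δ)` with positive principal part and determinant. -/
theorem form_nonneg {a b c d f g u x : ℝ} (hg : 0 < g) (hm : 0 < g * d - f ^ 2)
    (hdet : 0 ≤ a * (g * d - f ^ 2) - b * (b * g - f * c) + c * (b * f - c * d)) :
    0 ≤ a + 2 * b * u + 2 * c * x + d * u ^ 2 + 2 * f * (u * x) + g * x ^ 2 := by
  have e : g * (g * d - f ^ 2) *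
      (a + 2 * b * u + 2 * c * x + d * u ^ 2 + 2 * f * (u * x) + g * x ^ 2) =
      (g * d - f ^ 2) * (g * x + f * u + c) ^ 2 + ((g * d - f ^ 2) * u + (b * g - f * c)) ^ 2 +
        g * (a * (g * d - f ^ 2) - b * (b * g - f * c) + c * (b * f - c * d)) := by
    ring
  refine nonneg_of_mul_nonneg_right ?_ (mul_pos hg hm)
  rw [e]
  positivity

end Vale.Agent.P237.Petty.Cor.Band
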