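import Vale.Agent.P237.Petty.Cor.Band.RowSound
import Vale.Agent.P237.Petty.Cor.Mid36.Tail
import Vale.Agent.P237.Petty.Cor.Top.Tail

/-!
# P237: a cell of small values beyond the chart, crude

For `44 / 100 ≤ s ^ 2` the cancelled cell is at least `ell wS` less a constant times
`(p + 1) ^ 2 (s ^ 2 / (44 / 100)) ^ 36 / arc s ^ 4`.
-/

namespace Vale.Agent.P237.Petty.Cor.Band

open Set
open Vale.Agent.P237.Petty.Cor.Top (toReal)
open Ident (half rate)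
open Huge (moment)

variable {p : ℕ} {d : Par}

/-- Above the size of the shadow's factor. -/
def Par.gTop (d : Par) : ℚ := |1 + 2 * d.th| + |d.g1| / 99

/-- Above the size of the multiplier of the Fisher excess, with half the eigenvalue. -/
def Par.nTop (d : Par) : ℚ := |(1 + 2 * d.th) / 2| + |d.n1| / 99

/-- Above the multiplier of the Fisher excess. -/
def Par.nuTop (d : Par) : ℚ := (1 + 2 * d.th) / 2 + (|d.n1| + 37 / 25) / 99 - 3 / 8

/-- Above the size of the slope of the potential at infinity. -/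
def Par.l2Top (d : Par) : ℚ := max |d.l2 + d.l3 * (44 / 100)| |d.l2 + d.l3|

/-- Above the coefficient of `δ` over `y ^ 2`. -/
def Par.dTop (d : Par) : ℚ :=
  d.l2Top + (112 / 100 * (2 * |d.l2| + 3 * |d.l3|) + 19 / 16 * d.gTop + 2 * d.nTop + |d.l1|) / 43 +
    (112 / 100 * |d.l1| + 245 / 100 * d.gTop + |d.g1| + 2 * |d.n1| + |d.l0| + 336 / 100 * d.nTop) /
      1849

/-- Above the coefficient of `u δ` over `y`. -/
def Par.uTop (d : Par) : ℚ := 112 / 100 * |d.a| / 43 + 2 * |d.a2|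

/-- Above the potential over `p + 1`. -/
def Par.kTop (d : Par) : ℚ :=
  d.l2Top + (219 / 100 * d.gTop + |d.l0| / 99 + |d.l1|) / 99

/-- Above the part of the Fisher excess of order zero. -/
def Par.tstTop (d : Par) : ℚ := 4 * (1 + d.g) + 2 * |1 - d.g ^ 2|

/-- Above the part of the Fisher excess linear in the order. -/
def Par.tstLin (d : Par) : ℚ := 100 / 99 * (1 + d.g) * (max (d.g - 1) 0) ^ 2 / (2 * d.g)

/-- The share of the slope of the square potential kept beyond the chart. -/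
def Par.a2Far (d : Par) : ℚ := 4 / 5 * d.a2

/-- The constant beyond the chart. -/
def Par.tailK (d : Par) : ℚ :=
  d.dTop ^ 2 / (2 * d.a2Far) * (44 / 100) ^ 4 + 2 * d.uTop ^ 2 / d.a2Far + 2 * d.kTop + d.gTop / 99 +
    (d.nuTop * d.tstTop / 9801 + d.nuTop * d.tstLin / 99)

/-- The test of the constants beyond the chart. -/
def Par.tailOK (d : Par) : Bool :=
  decide (0 < d.a2) && decide (0 ≤ d.nuTop) && decide (0 ≤ d.a) &&
    decide ((14 / 25) * (max 0 (d.nuTop * d.g ^ 2 + d.a2 - d.a) +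
      max 0 (3 * d.nuTop * d.g ^ 2 - d.a) / 43) ≤ 43 * (d.a2 / 5))

/-- The estimate beyond the chart, in abstract variables. -/
theorem tail_alg {m y z c B D U k u δ A2 CD CU CK : ℝ} (hm : 99 ≤ m) (hy : y = m * z)
    (hz : 44 / 100 ≤ z) (hc : 0 < c) (hcz : c = 1 - z) (hA : 0 < A2) (hB : A2 * y ^ 2 ≤ B)
    (hD : |D| ≤ CD * y ^ 2) (hU : |U| ≤ CU * y) (hk : |k| ≤ CK * m) (hu : |u| ≤ 2 * m / c) :
    -((CD ^ 2 / (2 * A2) * z ^ 4 + 2 * CU ^ 2 / A2 + 2 * CK) * m ^ 2 / c ^ 2) ≤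
      k * u + (z * D / c + U * u) * δ + B / c * δ ^ 2 := by
  have hm0 : 0 < m := by linarith
  have hy0 : 0 < y := by rw [hy]; exact mul_pos hm0 (by linarith)
  have hB0 : 0 < B := lt_of_lt_of_le (by positivity) hB
  have h1 : -((z * D / c + U * u) ^ 2 / (4 * (B / c))) ≤
      (z * D / c + U * u) * δ + B / c * δ ^ 2 := by
    have := quad_vertex_le (l := z * D / c + U * u) (u := δ) (div_pos hB0 hc)
    rwa [neg_div] at this
  have hc1 : c ≤ 1 := by linarith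
  have hCK : 0 ≤ CK := nonneg_of_mul_nonneg_left ((abs_nonneg k).trans hk) hm0
  have hcc : m ^ 2 / c ≤ m ^ 2 / c ^ 2 :=
    div_le_div_of_nonneg_left (sq_nonneg m) (pow_pos hc 2) (pow_le_of_le_one hc.le hc1 two_ne_zero)
  have hD2 : D ^ 2 ≤ CD ^ 2 * y ^ 4 := by
    rw [← sq_abs]
    exact (pow_le_pow_left₀ (abs_nonneg D) hD 2).trans (le_of_eq (by ring))
  have hU2 : U ^ 2 ≤ CU ^ 2 * y ^ 2 := by
    rw [← sq_abs]
    exact (pow_le_pow_left₀ (abs_nonneg U) hU 2).trans (le_of_eq (by ring))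
  have hu2 : u ^ 2 ≤ (2 * m / c) ^ 2 := by
    rw [← sq_abs]; exact pow_le_pow_left₀ (abs_nonneg u) hu 2
  have h2 : (z * D / c + U * u) ^ 2 / (4 * (B / c)) ≤
      (CD ^ 2 / (2 * A2) * z ^ 4 + 2 * CU ^ 2 / A2) * (m ^ 2 / c) := by
    have e : (z * D / c + U * u) ^ 2 ≤ 2 * ((z / c) ^ 2 * D ^ 2 + U ^ 2 * u ^ 2) := by
      have := sq_nonneg (z * D / c - U * u)
      linear_combination this
    refine (div_le_div₀ (by positivity) (e.trans (mul_le_mul_of_nonneg_left (add_le_add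
      (mul_le_mul_of_nonneg_left hD2 (sq_nonneg (z / c)))
      (mul_le_mul hU2 hu2 (sq_nonneg u) (by positivity))) zero_le_two))
      (show 0 < 4 * (A2 * y ^ 2 / c) by positivity)
      (mul_le_mul_of_nonneg_left (div_le_div_of_nonneg_right hB hc.le) (by norm_num))).trans
      (le_of_eq ?_)
    rw [hy]
    field_simp
    ring
  have h3 : -(2 * CK * (m ^ 2 / c)) ≤ k * u := by
    have hku : |k * u| ≤ CK * m * (2 * m / c) := by
      rw [abs_mul]; exact mul_le_mul hk hu (abs_nonneg _) (by positivity)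
    have e : CK * m * (2 * m / c) = 2 * CK * (m ^ 2 / c) := by ring
    linarith [neg_abs_le (k * u)]
  have h4 := mul_le_mul_of_nonneg_left hcc
    (show 0 ≤ CD ^ 2 / (2 * A2) * z ^ 4 + 2 * CU ^ 2 / A2 + 2 * CK by positivity)
  have e4 : (CD ^ 2 / (2 * A2) * z ^ 4 + 2 * CU ^ 2 / A2 + 2 * CK) * m ^ 2 / c ^ 2 =
      (CD ^ 2 / (2 * A2) * z ^ 4 + 2 * CU ^ 2 / A2 + 2 * CK) * (m ^ 2 / c ^ 2) := by ring
  rw [e4]
  linarith

/-- The coefficient of `δ ^ 2` beyond the chart. -/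
theorem bP_far {y e : ℝ} (hd : d.tailOK = true) (hy : 43 ≤ y) (he : 0 ≤ e) (he' : e ≤ 1 / 99)
    (hz0 : 44 / 100 ≤ y * e) (hz : y * e ≤ 1) :
    (d.a2Far : ℝ) * y ^ 2 ≤ bP toReal d y e := by
  simp only [Par.tailOK, Bool.and_eq_true, decide_eq_true_eq] at hd
  obtain ⟨⟨⟨hA, hN⟩, ha⟩, h2⟩ := hd
  have hA' : (0 : ℝ) ≤ (d.a2 : ℝ) := by exact_mod_cast hA.le
  have hN' : (0 : ℝ) ≤ (d.nuTop : ℝ) := by exact_mod_cast hN
  have ha' : (0 : ℝ) ≤ (d.a : ℝ) := by exact_mod_cast ha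
  have hn : nHi toReal d e ≤ (d.nuTop : ℝ) := by
    simp only [nHi, nP, Par.nuTop, toReal]
    push_cast
    linarith [mul_le_mul_of_nonneg_right (le_abs_self (d.n1 : ℝ)) he,
      mul_le_mul_of_nonneg_left he' (abs_nonneg (d.n1 : ℝ))]
  have h2' : (14 / 25 : ℝ) * (max 0 ((d.nuTop : ℝ) * (d.g : ℝ) ^ 2 + d.a2 - d.a) +
      max 0 (3 * (d.nuTop : ℝ) * (d.g : ℝ) ^ 2 - d.a) / 43) ≤ 43 * ((d.a2 : ℝ) / 5) := by
    have := (Rat.cast_le (K := ℝ)).2 h2
    push_cast at this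
    exact this
  obtain ⟨M, hM⟩ : ∃ M, max 0 ((d.nuTop : ℝ) * (d.g : ℝ) ^ 2 + d.a2 - d.a) = M := ⟨_, rfl⟩
  obtain ⟨R, hR⟩ : ∃ R, max 0 (3 * (d.nuTop : ℝ) * (d.g : ℝ) ^ 2 - d.a) = R := ⟨_, rfl⟩
  have hM0 : 0 ≤ M := hM ▸ le_max_left _ _
  have hR0 : 0 ≤ R := hR ▸ le_max_left _ _
  have hM1 : (d.nuTop : ℝ) * (d.g : ℝ) ^ 2 + d.a2 - d.a ≤ M := hM ▸ le_max_right _ _
  have hR1 : 3 * (d.nuTop : ℝ) * (d.g : ℝ) ^ 2 - d.a ≤ R := hR ▸ le_max_right _ _
  rw [hM, hR] at h2'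
  obtain ⟨z, hzd, hz0, hz1⟩ : ∃ z, zP y e = z ∧ 44 / 100 ≤ z ∧ z ≤ 1 :=
    ⟨_, rfl, by rw [zP]; exact hz0, by rw [zP]; exact hz⟩
  simp only [bP, cP, hzd, toReal, Par.a2Far]
  push_cast
  have hc : 0 ≤ 1 - z := by linarith
  -- the loss below the share that is kept
  have q1 : (14 / 25 : ℝ) * (M * y + R) ≤ (d.a2 : ℝ) / 5 * y ^ 2 := by
    have t1 : R ≤ R / 43 * y := by
      have := mul_le_mul_of_nonneg_left hy (show 0 ≤ R / 43 by positivity)
      linarith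
    have t2 := mul_le_mul_of_nonneg_right h2' (show 0 ≤ y by linarith)
    have t3 := mul_le_mul_of_nonneg_left hy (show 0 ≤ (d.a2 : ℝ) / 5 * y by positivity)
    linarith
  have q2 : (1 - z) * (M * y + R) ≤ (14 / 25 : ℝ) * (M * y + R) :=
    mul_le_mul_of_nonneg_right (by linarith) (by positivity)
  have p1 := mul_nonneg hc (mul_nonneg (mul_nonneg (sub_nonneg.2 hn) (show 0 ≤ y + 3 * z by
    linarith)) (sq_nonneg (d.g : ℝ)))
  have p2 := mul_nonneg hc (mul_nonneg (sub_nonneg.2 hM1) (show 0 ≤ y by linarith))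
  have p3 := mul_nonneg hc (sub_nonneg.2 hR1)
  have p4 := mul_nonneg hc (mul_nonneg (show 0 ≤ z by linarith) ha')
  have p5 := mul_nonneg hc (mul_nonneg (show 0 ≤ 1 - z by linarith)
    (mul_nonneg hN' (mul_nonneg (show (0 : ℝ) ≤ 3 by norm_num) (sq_nonneg (d.g : ℝ)))))
  linarith

theorem abs_mul_le {a b A B : ℝ} (ha : |a| ≤ A) (hb : |b| ≤ B) : |a * b| ≤ A * B := by
  rw [abs_mul]
  exact mul_le_mul ha hb (abs_nonneg _) ((abs_nonneg _).trans ha)

theorem abs_param {a b e : ℝ} (he : 0 ≤ e) (he' : e ≤ 1 / 99) : |a + b * e| ≤ |a| + |b| / 99 := by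
  refine (abs_add_le _ _).trans (add_le_add le_rfl ?_)
  rw [abs_mul, abs_of_nonneg he, div_eq_mul_one_div]
  exact mul_le_mul_of_nonneg_left he' (abs_nonneg _)

theorem abs_l2 {z : ℝ} (hz : 44 / 100 ≤ z) (hz1 : z ≤ 1) :
    |(d.l2 : ℝ) + d.l3 * z| ≤ (d.l2Top : ℝ) := by
  rw [Par.l2Top]
  push_cast
  rcases le_total (0 : ℝ) (d.l3 : ℝ) with h | h
  · exact abs_le_max_abs_abs (by nlinarith) (by nlinarith)
  · rw [max_comm]
    exact abs_le_max_abs_abs (by nlinarith) (by nlinarith)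

/-- The coefficient of `δ` beyond the chart, in abstract variables. -/
theorem dP_alg {y z L L1 L2 G N q1 q2 G1 N1 L0 AL AQ AG AN : ℝ} (hy : 43 ≤ y) (hz0 : 0 ≤ 1 - z)
    (hz1 : 1 - z ≤ 56 / 100) (hL : |L| ≤ AL) (hL2 : |L2| ≤ AQ) (hG : |G| ≤ AG) (hN : |N| ≤ AN)
    (hq1 : |q1| ≤ 35 / 16) (hq2 : |q2| ≤ 19 / 16) :
    |-(L * y ^ 2) + 2 * ((1 - z) * L1) + 2 * ((1 - z) * (L2 * y)) - 2 * ((1 - z) * (G * q1)) +
        G * y * q2 + 2 * (N * y) - 6 * (N * (1 - z)) - L1 * y + (G1 - 2 * N1 - L0)| ≤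
      AL * y ^ 2 + (112 / 100 * AQ + 19 / 16 * AG + 2 * AN + |L1|) * (y * (y / 43)) +
        (112 / 100 * |L1| + 245 / 100 * AG + |G1| + 2 * |N1| + |L0| + 336 / 100 * AN) *
          (y ^ 2 / 1849) := by
  have hc' : |1 - z| ≤ 56 / 100 := by rwa [abs_of_nonneg hz0]
  have hy0 : |y| ≤ y := le_of_eq (abs_of_nonneg (by linarith))
  have hG0 : 0 ≤ AG := (abs_nonneg _).trans hG
  have hN0 : 0 ≤ AN := (abs_nonneg _).trans hN
  have hQ0 : 0 ≤ AQ := (abs_nonneg _).trans hL2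
  have a1 := abs_le.1 (abs_mul_le hL (le_of_eq (abs_of_nonneg (sq_nonneg y))))
  have a2 := abs_le.1 (abs_mul_le hc' (le_refl |L1|))
  have a3 := abs_le.1 (abs_mul_le hc' (abs_mul_le hL2 hy0))
  have a4 := abs_le.1 (abs_mul_le hc' (abs_mul_le hG hq1))
  have a5 := abs_le.1 (abs_mul_le (abs_mul_le hG hy0) hq2)
  have a6 := abs_le.1 (abs_mul_le hN hy0)
  have a7 := abs_le.1 (abs_mul_le hN hc')
  have a8 := abs_le.1 (abs_mul_le (le_refl |L1|) hy0)
  have a9 := abs_le.1 (le_refl |L0|)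
  have a10 := abs_le.1 (le_refl |G1|)
  have a11 := abs_le.1 (le_refl |N1|)
  have w1 : 1 ≤ y / 43 := by rw [one_le_div (by norm_num)]; linarith
  have w2 : 1 ≤ y ^ 2 / 1849 := by rw [one_le_div (by norm_num)]; nlinarith
  have b1 := mul_le_mul_of_nonneg_left (le_mul_of_one_le_right (show 0 ≤ y by linarith) w1)
    (show 0 ≤ 112 / 100 * AQ + 19 / 16 * AG + 2 * AN + |L1| by positivity)
  have b2 := le_mul_of_one_le_right
    (show 0 ≤ 112 / 100 * |L1| + 245 / 100 * AG + |G1| + 2 * |N1| + |L0| + 336 / 100 * AN by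
      positivity) w2
  rw [abs_le]
  constructor <;> linarith

/-- The coefficient of `δ` beyond the chart. -/
theorem dP_far {y e : ℝ} (hy : 43 ≤ y) (he : 0 ≤ e) (he' : e ≤ 1 / 99)
    (hz : 44 / 100 ≤ y * e) (hz1 : y * e ≤ 1) : |dP toReal d y e| ≤ (d.dTop : ℝ) * y ^ 2 := by
  have hG : |gP toReal d e| ≤ (d.gTop : ℝ) := by
    simp only [gP, Par.gTop, toReal]; push_cast; exact abs_param he he'
  have hN : |nP toReal d e| ≤ (d.nTop : ℝ) := by
    simp only [nP, Par.nTop, toReal]; push_cast; exact abs_param he he'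
  obtain ⟨z, hzd, hz0, hz1⟩ : ∃ z, zP y e = z ∧ 44 / 100 ≤ z ∧ z ≤ 1 := ⟨_, rfl, hz, hz1⟩
  have hz2 : z ^ 2 ≤ 1 := pow_le_one₀ (by linarith) hz1
  have q1 : |1 / 2 + 3 / 4 * z + 15 / 16 * z ^ 2| ≤ 35 / 16 := by
    rw [abs_of_nonneg (by positivity)]; linarith
  have q2 : |1 / 2 + 3 / 8 * z + 5 / 16 * z ^ 2| ≤ 19 / 16 := by
    rw [abs_of_nonneg (by positivity)]; linarith
  have q3 : |2 * (d.l2 : ℝ) + 3 * d.l3 * z| ≤ 2 * |(d.l2 : ℝ)| + 3 * |(d.l3 : ℝ)| := by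
    refine (abs_add_le _ _).trans (add_le_add ?_ ?_)
    · rw [abs_mul, abs_two]
    · rw [abs_mul, abs_mul, abs_of_pos (show (0 : ℝ) < 3 by norm_num),
        abs_of_nonneg (show 0 ≤ z by linarith)]
      exact mul_le_of_le_one_right (by positivity) hz1
  have key := dP_alg (L1 := (d.l1 : ℝ)) (G1 := (d.g1 : ℝ)) (N1 := (d.n1 : ℝ))
    (L0 := (d.l0 : ℝ)) hy (show 0 ≤ 1 - z by linarith) (show 1 - z ≤ 56 / 100 by linarith)
    (abs_l2 (d := d) hz0 hz1) q3 hG hN q1 q2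
  have e1 : dP toReal d y e =
      -(((d.l2 : ℝ) + d.l3 * z) * y ^ 2) + 2 * ((1 - z) * d.l1) +
        2 * ((1 - z) * ((2 * (d.l2 : ℝ) + 3 * d.l3 * z) * y)) -
        2 * ((1 - z) * (gP toReal d e * (1 / 2 + 3 / 4 * z + 15 / 16 * z ^ 2))) +
        gP toReal d e * y * (1 / 2 + 3 / 8 * z + 5 / 16 * z ^ 2) + 2 * (nP toReal d e * y) -
        6 * (nP toReal d e * (1 - z)) - (d.l1 : ℝ) * y + ((d.g1 : ℝ) - 2 * d.n1 - d.l0) := by
    simp only [dP, lamP, cP, hzd, toReal]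
    push_cast
    ring
  have e2 : (d.dTop : ℝ) * y ^ 2 = (d.l2Top : ℝ) * y ^ 2 +
      (112 / 100 * (2 * |(d.l2 : ℝ)| + 3 * |(d.l3 : ℝ)|) + 19 / 16 * d.gTop + 2 * d.nTop +
        |(d.l1 : ℝ)|) * (y * (y / 43)) +
      (112 / 100 * |(d.l1 : ℝ)| + 245 / 100 * d.gTop + |(d.g1 : ℝ)| + 2 * |(d.n1 : ℝ)| +
        |(d.l0 : ℝ)| + 336 / 100 * d.nTop) * (y ^ 2 / 1849) := by
    rw [Par.dTop]; push_cast; ring
  rw [e1, e2]
  exact key

/-- The potential beyond the chart. -/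
theorem potK_far (hp : 98 ≤ p) {s : ℝ} (hs : s ∈ Ioo (0 : ℝ) 1) (hz : 44 / 100 ≤ s ^ 2) :
    |potK p d s| ≤ (d.kTop : ℝ) * ((p : ℝ) + 1) := by
  obtain ⟨he, he'⟩ := eOf_bounds hp
  have hpp : (98 : ℝ) ≤ p := by exact_mod_cast hp
  have hz1 : s ^ 2 ≤ 1 := pow_le_one₀ hs.1.le hs.2.le
  have hG : |gP toReal d (eOf p)| ≤ (d.gTop : ℝ) := by
    simp only [gP, Par.gTop, toReal]; push_cast; exact abs_param he.le he'
  have q1 : |1 + s ^ 2 / 2 + 3 / 8 * s ^ 4 + 5 / 16 * s ^ 6| ≤ 219 / 100 := by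
    rw [abs_of_nonneg (by positivity)]
    linarith [pow_le_one₀ hs.1.le hs.2.le (n := 4), pow_le_one₀ hs.1.le hs.2.le (n := 6)]
  have q4 : |s ^ 4| ≤ 1 := by
    rw [abs_of_nonneg (by positivity)]; exact pow_le_one₀ hs.1.le hs.2.le
  have a1 := abs_mul_le hG q1
  have a2 : |(d.l0 : ℝ) / ((p : ℝ) + 1)| ≤ |(d.l0 : ℝ)| / 99 := by
    rw [abs_div, abs_of_pos (show (0 : ℝ) < (p : ℝ) + 1 by linarith)]
    exact div_le_div_of_nonneg_left (abs_nonneg _) (by norm_num) (by linarith)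
  have a3 := abs_mul_le (le_refl |(d.l1 : ℝ)|)
    (show |s ^ 2| ≤ 1 by rw [abs_of_nonneg (sq_nonneg s)]; exact hz1)
  have a4 := abs_mul_le (abs_mul_le (abs_l2 (d := d) hz hz1) q4)
    (le_of_eq (abs_of_pos (show (0 : ℝ) < (p : ℝ) + 1 by linarith)))
  have b1 := abs_le.1 a1
  have b2 := abs_le.1 a2
  have b3 := abs_le.1 a3
  have b4 := abs_le.1 a4
  have hG0 : (0 : ℝ) ≤ (d.gTop : ℝ) := (abs_nonneg _).trans hG
  have hS : 0 ≤ 219 / 100 * (d.gTop : ℝ) + |(d.l0 : ℝ)| / 99 + |(d.l1 : ℝ)| := by positivity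
  have hS' := le_mul_of_one_le_right hS
    (show 1 ≤ ((p : ℝ) + 1) / 99 by rw [one_le_div (by norm_num)]; linarith)
  rw [potK, Par.kTop, abs_le]
  push_cast
  constructor <;> linarith

/-- The coefficient of `u δ` beyond the chart. -/
theorem udP_far {y e : ℝ} (hy : 43 ≤ y) (hz : 44 / 100 ≤ y * e) (hz1 : y * e ≤ 1) :
    |udP toReal d y e| ≤ (d.uTop : ℝ) * y := by
  have hc' : |1 - y * e| ≤ 56 / 100 := by rw [abs_of_nonneg (by linarith)]; linarith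
  have a1 := abs_le.1 (abs_mul_le (le_refl |(d.a : ℝ)|) hc')
  have a2 := abs_le.1 (abs_mul_le (le_refl |(d.a2 : ℝ)|)
    (le_of_eq (abs_of_nonneg (show 0 ≤ y by linarith))))
  have hS := le_mul_of_one_le_right (show 0 ≤ 112 / 100 * |(d.a : ℝ)| by positivity)
    (show 1 ≤ y / 43 by rw [one_le_div (by norm_num)]; linarith)
  simp only [udP, cP, zP, Par.uTop, toReal]
  push_cast
  rw [abs_le]
  constructor <;> linarith

/-- The rate of the square potential, times `s ^ 2 c ^ 2`. -/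
theorem potB_rate {s : ℝ} (hs : s ∈ Ioo (0 : ℝ) 1) (p : ℕ) (d : Par) :
    (1 - s ^ 2) * (potB' p d s - potRate p s * potB p d s) * s ^ 2 =
      (1 - s ^ 2) * ((d.a : ℝ) * (1 + yOf p s + s ^ 2)) +
        d.a2 * yOf p s * (yOf p s - (1 - s ^ 2)) := by
  have hc : (1 - s ^ 2) ≠ 0 := by nlinarith [hs.1, hs.2]
  simp only [potB', potB, potRate, yOf]
  field_simp [hs.1.ne']
  ring

/-- The quadratic part beyond the chart. -/
theorem b_far_le (hd : ParOK p d) {s t : ℝ} (hs : s ∈ Ioo (0 : ℝ) 1) :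
    bP toReal d (yOf p s) (eOf p) / (1 - s ^ 2) * ((t - s) / s) ^ 2 ≤
      (potB' p d s - potRate p s * potB p d s) * (t - s) ^ 2 -
        nuP p d * ((d.g : ℝ) ^ 2 * ((p : ℝ) + 4) * (t - s) ^ 2) := by
  have hc : 0 < 1 - s ^ 2 := by nlinarith [hs.1, hs.2]
  rw [div_mul_eq_mul_div, div_le_iff₀ hc]
  have hB := potB_rate hs p d
  have e5 : bP toReal d (yOf p s) (eOf p) = (1 - s ^ 2) * ((d.a : ℝ) * (1 + yOf p s + s ^ 2)) +
      d.a2 * yOf p s * (yOf p s - (1 - s ^ 2)) -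
      (1 - s ^ 2) * (nHi toReal d (eOf p) * (yOf p s + 3 * s ^ 2) * (d.g : ℝ) ^ 2) := by
    rw [bP, cP_eq, zP_eq]
    simp only [toReal]
    push_cast
    ring
  rw [e5, ← hB]
  have h1 := mul_le_mul_of_nonneg_left (mul_le_mul_of_nonneg_right hd.nu_bounds.2
    (show 0 ≤ (yOf p s + 3 * s ^ 2) * (d.g : ℝ) ^ 2 * ((t - s) / s) ^ 2 by
      rw [yOf]; positivity)) hc.le
  rw [show (t - s) ^ 2 = s ^ 2 * ((t - s) / s) ^ 2 by field_simp [hs.1.ne']]
  have e6 : ((potB' p d s - potRate p s * potB p d s) * (s ^ 2 * ((t - s) / s) ^ 2) -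
      nuP p d * ((d.g : ℝ) ^ 2 * ((p : ℝ) + 4) * (s ^ 2 * ((t - s) / s) ^ 2))) * (1 - s ^ 2) =
      (1 - s ^ 2) * (potB' p d s - potRate p s * potB p d s) * s ^ 2 * ((t - s) / s) ^ 2 -
        (1 - s ^ 2) * (nuP p d * ((yOf p s + 3 * s ^ 2) * (d.g : ℝ) ^ 2 * ((t - s) / s) ^ 2)) := by
    rw [yOf]; ring
  rw [e6]
  linarith

/-- The multiplier of the Fisher excess is at most its constant. -/
theorem nu_le_top (hd : ParOK p d) (he : 0 < eOf p) (he' : eOf p ≤ 1 / 99) :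
    nuP p d ≤ (d.nuTop : ℝ) := by
  refine hd.nu_bounds.2.trans ?_
  simp only [nHi, nP, Par.nuTop, toReal]
  push_cast
  linarith [mul_le_mul_of_nonneg_right (le_abs_self (d.n1 : ℝ)) he.le,
    mul_le_mul_of_nonneg_left he' (abs_nonneg (d.n1 : ℝ))]

/-- Before the abscissa of the circle the rate is at most `p + 2`. -/
theorem rate_le {ell s t a r q : ℝ} (h : FlatState p ell s t a r q) (hts : t ≤ s) :
    r ≤ (p : ℝ) + 2 := by
  have hs := h.state.s_mem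
  have hA := pow_pos h.state.arc_pos' (p + 1)
  have hi : Lift.circHigh p s ≤ (1 - s) * arc s ^ (p + 1) := by
    have hc : Continuous fun u => arc u ^ (p + 1) := continuous_arc.pow _
    have := intervalIntegral.integral_mono_on hs.2.le (hc.intervalIntegrable s 1)
      (intervalIntegrable_const (μ := MeasureTheory.volume) (c := arc s ^ (p + 1))) fun u hu =>
        pow_le_pow_left₀ (Real.sqrt_nonneg _)
          (Real.sqrt_le_sqrt (by nlinarith [hu.1, hs.1])) _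
    rw [intervalIntegral.integral_const, smul_eq_mul] at this
    exact this
  have h1 := h.state.high.trans (mul_le_mul_of_nonneg_left hi (by positivity))
  have h2 := mul_le_mul_of_nonneg_left (show 1 - s ≤ 1 - t by linarith) (pow_nonneg h.state.pos.le (p + 1))
  rw [h.state.rate_eq, div_le_iff₀ hA]
  refine le_of_mul_le_mul_left ?_ (sub_pos.2 hs.2)
  linarith

/-- The bracket of the Fisher excess, for every slope. -/
theorem test_bracket {g s x r P : ℝ} (hg : 0 < g) (hs : s ∈ Ioo (0 : ℝ) 1) (hx : x ≤ 1 - s)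
    (hr : 0 < r) (hP : x ≤ 0 → r ≤ P) (hP0 : 0 ≤ P) :
    -(P * ((max (g - 1) 0) ^ 2 / (4 * g))) ≤
      r * (1 - s ^ 2 + g * x ^ 2 - (1 - g) * (s * x)) := by
  have hc : 0 ≤ 1 - s ^ 2 := by nlinarith [hs.1, hs.2]
  have hgx : 0 ≤ g * x ^ 2 := by positivity
  have hR : 0 ≤ (max (g - 1) 0) ^ 2 / (4 * g) := by positivity
  rcases le_total g 1 with h1 | h1
  · have h2 : (1 - g) * (s * x) ≤ 1 - s ^ 2 := by
      refine (mul_le_mul_of_nonneg_left (mul_le_mul_of_nonneg_left hx hs.1.le)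
        (sub_nonneg.2 h1)).trans ?_
      have : 0 ≤ s * (1 - s) := mul_nonneg hs.1.le (sub_nonneg.2 hs.2.le)
      nlinarith [mul_le_of_le_one_left this (show 1 - g ≤ 1 by linarith), hs.2]
    linarith [mul_nonneg hP0 hR, mul_nonneg hr.le (show 0 ≤ 1 - s ^ 2 + g * x ^ 2 - (1 - g) * (s * x) by linarith)]
  · rcases le_total 0 x with hx0 | hx0
    · linarith [mul_nonneg hP0 hR, mul_nonneg hr.le
        (show 0 ≤ 1 - s ^ 2 + g * x ^ 2 - (1 - g) * (s * x) by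
          linarith [mul_nonneg (sub_nonneg.2 h1) (mul_nonneg hs.1.le hx0)])]
    · rw [max_eq_left (sub_nonneg.2 h1)] at hR ⊢
      have h2 : -((g - 1) ^ 2 / (4 * g)) ≤ 1 - s ^ 2 + g * x ^ 2 - (1 - g) * (s * x) := by
        have h3 : 0 ≤ (2 * g * x + (g - 1) * s) ^ 2 / (4 * g) := by positivity
        have h4 : (g - 1) ^ 2 * s ^ 2 / (4 * g) ≤ (g - 1) ^ 2 / (4 * g) :=
          div_le_div_of_nonneg_right (mul_le_of_le_one_right (sq_nonneg _)
            (pow_le_one₀ hs.1.le hs.2.le)) (by positivity)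
        have e : (2 * g * x + (g - 1) * s) ^ 2 / (4 * g) =
            g * x ^ 2 - (1 - g) * (s * x) + (g - 1) ^ 2 * s ^ 2 / (4 * g) := by
          field_simp
          ring
        linarith
      linarith [mul_le_mul_of_nonneg_left h2 hr.le, mul_le_mul_of_nonneg_right (hP hx0) hR]

/-- The Fisher excess beyond the chart. -/
theorem test_far (hd : ParOK p d) (hp : 98 ≤ p) {ell s t a r q : ℝ} (h : FlatState p ell s t a r q)
    (he : 0 < eOf p) (he' : eOf p ≤ 1 / 99) :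
    -((d.nuTop : ℝ) * d.tstTop + (d.nuTop : ℝ) * d.tstLin * ((p : ℝ) + 1)) -
        nuP p d * ((d.g : ℝ) ^ 2 * ((p : ℝ) + 4) * (t - s) ^ 2) ≤
      nuP p d * testDef p d.g s t r := by
  have hν0 : 0 ≤ nuP p d := hd.low_pos.le.trans hd.nu_bounds.1
  have hs := h.state.s_mem
  have ht := h.state.t_mem
  have hr := h.state.rate_pos
  have hg := hd.g_pos
  have hpp : (98 : ℝ) ≤ p := by exact_mod_cast hp
  have hb := test_bracket (x := t - s) (P := (p : ℝ) + 2) hg hs (by linarith [ht.2]) hr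
    (fun hx => rate_le h (by linarith)) (by positivity)
  have h9 := abs_le.1 (abs_mul_le (le_refl |1 - (d.g : ℝ) ^ 2|) (Top.abs_mul_sub_le hs ht))
  obtain ⟨M, hM⟩ : ∃ M, (max ((d.g : ℝ) - 1) 0) ^ 2 / (4 * (d.g : ℝ)) = M := ⟨_, rfl⟩
  rw [hM] at hb
  have hM0 : 0 ≤ M := by rw [← hM]; positivity
  have hc1 : 1 - s ^ 2 ≤ 1 := by linarith [sq_nonneg s]
  have hc0 : 0 < 1 - s ^ 2 := one_sub_pos h
  have e : testDef p (d.g : ℝ) s t r =
      2 * (1 + (d.g : ℝ)) * (r * (1 - s ^ 2 + (d.g : ℝ) * (t - s) ^ 2 - (1 - (d.g : ℝ)) * (s * (t - s)))) +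
        2 * (1 + (d.g : ℝ)) * (1 - s ^ 2) / r - 4 * (1 + (d.g : ℝ)) * (1 - s ^ 2) +
        2 * ((1 - (d.g : ℝ) ^ 2) * (s * (t - s))) -
        (d.g : ℝ) ^ 2 * ((p : ℝ) + 4) * (t - s) ^ 2 := by
    simp only [testDef]
    field_simp
    ring
  have h3 : 0 ≤ 2 * (1 + (d.g : ℝ)) * (1 - s ^ 2) / r := by positivity
  have eT : (d.tstTop : ℝ) = 4 * (1 + (d.g : ℝ)) + 2 * |1 - (d.g : ℝ) ^ 2| := by
    rw [Par.tstTop]; push_cast; ring
  have eL : (d.tstLin : ℝ) = 200 / 99 * (1 + (d.g : ℝ)) * M := by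
    rw [← hM, Par.tstLin]; push_cast; field_simp; ring
  have h10 : -((d.tstTop : ℝ) + (d.tstLin : ℝ) * ((p : ℝ) + 1)) -
      (d.g : ℝ) ^ 2 * ((p : ℝ) + 4) * (t - s) ^ 2 ≤ testDef p (d.g : ℝ) s t r := by
    rw [e, eT, eL]
    have h4 := mul_le_mul_of_nonneg_left hc1 (show 0 ≤ 4 * (1 + (d.g : ℝ)) by linarith)
    have h5 := mul_le_mul_of_nonneg_left hb (show 0 ≤ 2 * (1 + (d.g : ℝ)) by linarith)
    have h6 := mul_le_mul_of_nonneg_left (show (p : ℝ) + 2 ≤ 100 / 99 * ((p : ℝ) + 1) by linarith)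
      (show 0 ≤ 2 * (1 + (d.g : ℝ)) * M by positivity)
    linarith [h9.1]
  have hT0 : 0 ≤ (d.tstTop : ℝ) + (d.tstLin : ℝ) * ((p : ℝ) + 1) := by
    rw [eT, eL]; positivity
  linarith [mul_le_mul_of_nonneg_left h10 hν0,
    mul_le_mul_of_nonneg_right (nu_le_top hd he he') hT0]

/-- The domination beyond the chart, in abstract variables. -/
theorem dom_alg {E C M z4 q4 T K1 G N ku dl ul b3 Bt nq tst sh G' N' : ℝ} (hT4 : z4 ≤ q4 * T)
    (hT1 : 1 ≤ T) (hC : 0 ≤ C) (hK : 0 ≤ K1 + G + N) (hM : 0 ≤ M)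
    (key : -(C * M * z4 + K1 * M) ≤ ku + (dl + ul) + b3) (e3 : b3 ≤ Bt - nq)
    (e4 : -N' - nq ≤ tst) (hsh : -G' ≤ sh) (d3 : G' ≤ G * M) (d4 : N' ≤ N * M) :
    E - (C * M * (q4 * T) + (K1 + G + N) * M * T) ≤ E + tst + sh + ku + dl + Bt + ul := by
  linarith [mul_le_mul_of_nonneg_left hT4 (mul_nonneg hC hM),
    le_mul_of_one_le_right (mul_nonneg hK hM) hT1]

/-- Terms of lower order against the square of the order. -/
theorem scale_le {G N N1 m c : ℝ} (hm : 99 ≤ m) (hc : 0 < c) (hc1 : c ≤ 1) (hG : 0 ≤ G) (hN : 0 ≤ N)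
    (hN1 : 0 ≤ N1) :
    G * m / c ^ 2 ≤ G / 99 * (m ^ 2 / c ^ 2) ∧
      N + N1 * m ≤ (N / 9801 + N1 / 99) * (m ^ 2 / c ^ 2) := by
  have h1 : 9801 ≤ m ^ 2 := by nlinarith
  have h2 : m ^ 2 ≤ m ^ 2 / c ^ 2 := le_div_self (sq_nonneg m) (by positivity)
    (pow_le_one₀ hc.le hc1)
  refine ⟨?_, ?_⟩
  · rw [mul_div_assoc']
    refine div_le_div_of_nonneg_right ?_ (sq_nonneg _)
    nlinarith [mul_nonneg hG (mul_nonneg (show 0 ≤ m by linarith) (show 0 ≤ m - 99 by linarith))]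
  · have h3 := mul_le_mul_of_nonneg_left h2 (show 0 ≤ N / 9801 + N1 / 99 by positivity)
    linarith [mul_le_mul_of_nonneg_left h1 hN,
      mul_nonneg hN1 (mul_nonneg (show 0 ≤ m by linarith) (show 0 ≤ m - 99 by linarith))]

/-- Beyond the chart the cancelled cell is crudely bounded. -/
theorem tail_pointwise (hd : ParOK p d) (hT : d.tailOK = true) (hp : 98 ≤ p) {ell s t a r q : ℝ}
    (h : FlatState p ell s t a r q) (h0 : 0 ≤ ell) (hell : ell ≤ 6 / ((p : ℝ) + 1))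
    (hz : 44 / 100 ≤ s ^ 2) :
    ell * wS p (arc s) - (d.tailK : ℝ) * ((p : ℝ) + 1) ^ 2 / (1 - s ^ 2) ^ 2 *
        (s ^ 2 / (44 / 100)) ^ 36 ≤
      cancelExpr p (gamP p d) (nuP p d) ell (fun s t => s + (d.g : ℝ) * (s - t))
        (fun _ _ => 1 + (d.g : ℝ)) (fun _ _ => -(d.g : ℝ)) (quadPot (potK p d) (potB p d))
        (quadPotS (potK p d) (potK' p d) (potB p d) (potB' p d))
        (quadPotT (potK p d) (potB p d)) s t a r := by
  have hs := h.state.s_mem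
  have ht := h.state.t_mem
  have hr := h.state.rate_pos
  obtain ⟨he, he'⟩ := eOf_bounds hp
  have hpp : (98 : ℝ) ≤ p := by exact_mod_cast hp
  have hc : 0 < 1 - s ^ 2 := one_sub_pos h
  have hme : ((p : ℝ) + 1) * eOf p = 1 := by rw [eOf]; field_simp
  have hy : (43 : ℝ) ≤ yOf p s := by
    rw [yOf]
    nlinarith [mul_le_mul (show (99 : ℝ) ≤ (p : ℝ) + 1 by linarith) hz (by norm_num)
      (show (0 : ℝ) ≤ (p : ℝ) + 1 by linarith)]
  have hzy : yOf p s * eOf p = s ^ 2 := zP_eq p s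
  have hz1 : yOf p s * eOf p ≤ 1 := by rw [hzy]; linarith
  have hz0 : 44 / 100 ≤ yOf p s * eOf p := by rw [hzy]; exact hz
  have hT' := hT
  simp only [Par.tailOK, Bool.and_eq_true, decide_eq_true_eq] at hT'
  obtain ⟨⟨⟨hA2, hN⟩, -⟩, -⟩ := hT'
  have hA2' : (0 : ℝ) < (d.a2Far : ℝ) := by
    have : (0 : ℝ) < (d.a2 : ℝ) := by exact_mod_cast hA2
    simp only [Par.a2Far]
    push_cast
    linarith
  have hν0 : 0 ≤ nuP p d := hd.low_pos.le.trans hd.nu_bounds.1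
  rw [Top.cancelExpr_eq _ _ _ _ _ _ _ _ _ _ _ hr.ne']
  have hv : 0 < 1 / r := by positivity
  have hu : |1 / r - 1| ≤ 2 * ((p : ℝ) + 1) / (1 - s ^ 2) := by
    have := Mid36.inv_rate_le_crude hp h h0 hell (by linarith)
    have : 1 ≤ 2 * ((p : ℝ) + 1) / (1 - s ^ 2) := by
      rw [le_div_iff₀ hc]; linarith [sq_nonneg s]
    rw [abs_le]
    constructor <;> linarith
  have key := tail_alg (m := (p : ℝ) + 1) (y := yOf p s) (z := s ^ 2) (c := 1 - s ^ 2)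
    (B := bP toReal d (yOf p s) (eOf p)) (D := dP toReal d (yOf p s) (eOf p))
    (U := udP toReal d (yOf p s) (eOf p)) (k := potK p d s) (u := 1 / r - 1) (δ := (t - s) / s)
    (by linarith) rfl hz hc rfl hA2' (bP_far hT hy he.le he' hz0 hz1) (dP_far hy he.le he' hz0 hz1)
    (udP_far hy hz0 hz1) (potK_far hp hs hz) hu
  -- the parts
  have e1 : (s ^ 2 * dP toReal d (yOf p s) (eOf p) / (1 - s ^ 2)) * ((t - s) / s) =
      cancelD p (nuP p d) (potK p d) (potK' p d) s * (t - s) := by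
    have hD := potD_eq (p := p) (d := d) hs
    rw [show eOf p * yOf p s = s ^ 2 by rw [mul_comm]; exact hzy] at hD
    rw [← hD]
    field_simp [hs.1.ne']
  have e2 : udP toReal d (yOf p s) (eOf p) * (1 / r - 1) * ((t - s) / s) =
      2 * potB p d s * ((1 / r - 1) * (t - s)) := by
    rw [udP, cP_eq]
    simp only [potB, toReal, yOf]
    push_cast
    field_simp [hs.1.ne']
  have e3 := b_far_le hd hs (t := t)
  have e4 := test_far hd hp h he he'
  have hsh : -((d.gTop : ℝ) * ((p : ℝ) + 1) / (1 - s ^ 2) ^ 2) ≤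
      gamP p d * Ident.b0 p * (1 / a - 1 / arc s) := by
    have hG : gamP p d * Ident.b0 p = gP toReal d (eOf p) * ((p : ℝ) + 1) := by
      rw [gamP, div_mul_cancel₀ _ (Ident.b0_pos p).ne']
    have hG' : gP toReal d (eOf p) ≤ (d.gTop : ℝ) := by
      simp only [gP, Par.gTop, toReal]; push_cast
      exact (le_abs_self _).trans (abs_param he.le he')
    have harc := h.state.arc_pos'
    have h4 : 1 / arc s ≤ 1 / (1 - s ^ 2) ^ 2 := by
      refine one_div_le_one_div_of_le (by positivity) ?_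
      rw [← arc_sq h, ← pow_mul]
      exact pow_le_of_le_one harc.le (Real.sqrt_le_one.2 (by nlinarith)) (by norm_num)
    rw [hG]
    have hg0 := hd.gam_nonneg
    have h5 := mul_le_mul (mul_le_mul_of_nonneg_right hG' (show 0 ≤ (p : ℝ) + 1 by linarith)) h4
      (by positivity) (mul_nonneg (hg0.trans hG') (by linarith))
    have h6 : 0 ≤ gP toReal d (eOf p) * ((p : ℝ) + 1) * (1 / a) :=
      mul_nonneg (mul_nonneg hg0 (by linarith)) (one_div_nonneg.2 h.state.pos.le)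
    rw [mul_one_div ((d.gTop : ℝ) * ((p : ℝ) + 1))] at h5
    linarith
  -- the domination
  have hM0 : 0 ≤ ((p : ℝ) + 1) ^ 2 / (1 - s ^ 2) ^ 2 := by positivity
  have hT1 : 1 ≤ (s ^ 2 / (44 / 100 : ℝ)) ^ 36 := one_le_pow₀ ((one_le_div (by norm_num)).2 hz)
  have hT4 : (s ^ 2) ^ 4 ≤ (44 / 100) ^ 4 * (s ^ 2 / (44 / 100 : ℝ)) ^ 36 := by
    have h4 := mul_le_mul_of_nonneg_left (pow_le_pow_right₀
      ((one_le_div (show (0 : ℝ) < 44 / 100 by norm_num)).2 hz) (show 4 ≤ 36 by norm_num))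
      (show (0 : ℝ) ≤ (44 / 100) ^ 4 by norm_num)
    rwa [← mul_pow (44 / 100 : ℝ) (s ^ 2 / (44 / 100)) 4,
      mul_div_cancel₀ _ (show (44 / 100 : ℝ) ≠ 0 by norm_num)] at h4
  have hC0 : (0 : ℝ) ≤ (d.dTop : ℝ) ^ 2 / (2 * d.a2Far) := by positivity
  have hG0 : (0 : ℝ) ≤ (d.gTop : ℝ) := by rw [Par.gTop]; push_cast; positivity
  have hN0 : (0 : ℝ) ≤ (d.nuTop : ℝ) := by exact_mod_cast hN
  have hK2 : (0 : ℝ) ≤ 2 * (d.uTop : ℝ) ^ 2 / d.a2Far + 2 * d.kTop + d.gTop / 99 +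
      (d.nuTop * d.tstTop / 9801 + d.nuTop * d.tstLin / 99) := by
    have := hd.g_pos
    have : (0 : ℝ) ≤ (d.tstTop : ℝ) := by rw [Par.tstTop]; push_cast; positivity
    have : (0 : ℝ) ≤ (d.tstLin : ℝ) := by rw [Par.tstLin]; push_cast; positivity
    have hk : (0 : ℝ) ≤ (d.kTop : ℝ) := nonneg_of_mul_nonneg_left
      ((abs_nonneg _).trans (potK_far (d := d) hp hs hz)) (by linarith)
    positivity
  have hT0 : (0 : ℝ) ≤ (d.tstTop : ℝ) ∧ (0 : ℝ) ≤ (d.tstLin : ℝ) := by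
    have := hd.g_pos
    constructor
    · rw [Par.tstTop]; push_cast; positivity
    · rw [Par.tstLin]; push_cast; positivity
  obtain ⟨d3, d4⟩ := scale_le (G := (d.gTop : ℝ)) (N := (d.nuTop : ℝ) * d.tstTop)
    (N1 := (d.nuTop : ℝ) * d.tstLin)
    (show (99 : ℝ) ≤ (p : ℝ) + 1 by linarith) hc (show 1 - s ^ 2 ≤ 1 by linarith [sq_nonneg s])
    hG0 (mul_nonneg hN0 hT0.1) (mul_nonneg hN0 hT0.2)
  have eK : (d.tailK : ℝ) * ((p : ℝ) + 1) ^ 2 / (1 - s ^ 2) ^ 2 *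
      (s ^ 2 / (44 / 100 : ℝ)) ^ 36 =
      (d.dTop : ℝ) ^ 2 / (2 * d.a2Far) * (((p : ℝ) + 1) ^ 2 / (1 - s ^ 2) ^ 2) *
          ((44 / 100) ^ 4 * (s ^ 2 / (44 / 100 : ℝ)) ^ 36) +
        (2 * (d.uTop : ℝ) ^ 2 / d.a2Far + 2 * d.kTop + d.gTop / 99 + (d.nuTop * d.tstTop / 9801 + d.nuTop * d.tstLin / 99)) *
          (((p : ℝ) + 1) ^ 2 / (1 - s ^ 2) ^ 2) * (s ^ 2 / (44 / 100 : ℝ)) ^ 36 := by
    rw [Par.tailK]; push_cast; ring
  rw [eK]
  have e7 : ((d.dTop : ℝ) ^ 2 / (2 * d.a2Far) * (s ^ 2) ^ 4 + 2 * (d.uTop : ℝ) ^ 2 / d.a2Far +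
      2 * d.kTop) * ((p : ℝ) + 1) ^ 2 / (1 - s ^ 2) ^ 2 =
      (d.dTop : ℝ) ^ 2 / (2 * d.a2Far) * (((p : ℝ) + 1) ^ 2 / (1 - s ^ 2) ^ 2) * (s ^ 2) ^ 4 +
        (2 * (d.uTop : ℝ) ^ 2 / d.a2Far + 2 * d.kTop) * (((p : ℝ) + 1) ^ 2 / (1 - s ^ 2) ^ 2) := by
    ring
  rw [e7, add_mul (s ^ 2 * dP toReal d (yOf p s) (eOf p) / (1 - s ^ 2)), e1, e2] at key
  exact dom_alg hT4 hT1 hC0 hK2 hM0 key e3 e4 hsh d3 d4

/-- The product of the last thirty-two factors in the moments, at the least order. -/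
def tailBase : ℕ := ∏ i ∈ Finset.range 32, (98 + 2 * (4 + i))

/-- The product of the odd numbers. -/
def tailOdd : ℕ := ∏ i ∈ Finset.range 36, (2 * i + 1)

/-- The factor of the mean beyond the chart. -/
def tailFac : ℚ :=
  (100 / 44) ^ 36 * (99 / 98) ^ 4 * (98 / 97 * (100 / 99)) * (tailOdd : ℚ) / (tailBase : ℚ)

theorem prod_ge {k : ℝ} (hk : 95 ≤ k) :
    (tailBase : ℝ) * (k + 3) ^ 4 ≤ ∏ i ∈ Finset.range 36, (k + 2 * (i : ℝ) + 3) := by
  rw [show (36 : ℕ) = 4 + 32 from rfl, Finset.prod_range_add, mul_comm, tailBase, Nat.cast_prod]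
  refine mul_le_mul ?_ (Finset.prod_le_prod (fun i _ => by positivity) fun i _ => by
    push_cast; linarith) (Finset.prod_nonneg fun i _ => by positivity)
    (Finset.prod_nonneg fun i _ => by positivity)
  refine le_of_eq_of_le (b := ∏ _i ∈ Finset.range 4, (k + 3)) (by simp) ?_
  exact Finset.prod_le_prod (fun _ _ => by linarith) fun i _ => by
    linarith [Nat.cast_nonneg (α := ℝ) i]

/-- The mean beyond the chart. -/
theorem tail_mean_le (hp : 98 ≤ p) :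
    (100 / 44 : ℝ) ^ 36 * moment (p - 3) 36 ≤
      (tailFac : ℝ) / ((p : ℝ) + 1) ^ 4 * half (p + 1) := by
  obtain ⟨k, rfl⟩ : ∃ k, p = k + 3 := ⟨p - 3, by omega⟩
  rw [show k + 3 - 3 = k by omega]
  have hk : (95 : ℝ) ≤ k := by exact_mod_cast (by omega : 95 ≤ k)
  have h1 := moment_eq k 36
  have h2 := mul_le_mul_of_nonneg_right (prod_ge hk) (moment_nonneg k 36)
  rw [h1] at h2
  have hodd : (∏ i ∈ Finset.range 36, (2 * (i : ℝ) + 1)) = (tailOdd : ℝ) := by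
    rw [tailOdd]; push_cast; rfl
  rw [hodd] at h2
  have hM := moment_nonneg k 36
  have hs : half k ≤ 98 / 97 * (100 / 99) * half (k + 4) := by
    have a1 := half_le_shift k
    have a2 := half_le_shift (k + 2)
    push_cast at a2
    have b1 : ((k : ℝ) + 3) / (k + 2) ≤ 98 / 97 := by
      rw [div_le_div_iff₀ (by positivity) (by norm_num)]; linarith
    have b2 : ((k : ℝ) + 2 + 3) / (k + 2 + 2) ≤ 100 / 99 := by
      rw [div_le_div_iff₀ (by positivity) (by norm_num)]; linarith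
    have hp2 := (Ident.half_pos (k + 2)).le
    have hp4 := (Ident.half_pos (k + 4)).le
    calc half k ≤ ((k : ℝ) + 3) / (k + 2) * half (k + 2) := a1
      _ ≤ 98 / 97 * half (k + 2) := mul_le_mul_of_nonneg_right b1 hp2
      _ ≤ 98 / 97 * (100 / 99 * half (k + 4)) := mul_le_mul_of_nonneg_left
          (a2.trans (mul_le_mul_of_nonneg_right b2 hp4)) (by norm_num)
      _ = 98 / 97 * (100 / 99) * half (k + 4) := by ring
  have hB : (0 : ℝ) < (tailBase : ℝ) := by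
    have : 0 < tailBase := by rw [tailBase]; exact Finset.prod_pos fun i _ => by omega
    exact_mod_cast this
  have h4 : ((k : ℝ) + 3 + 1) ^ 4 ≤ (99 / 98 * ((k : ℝ) + 3)) ^ 4 :=
    pow_le_pow_left₀ (by positivity) (by linarith) 4
  have h5 : ((k : ℝ) + 3 + 1) ^ 4 * ((tailBase : ℝ) * moment k 36) ≤
      (99 / 98) ^ 4 * ((tailOdd : ℝ) * (98 / 97 * (100 / 99) * half (k + 4))) := by
    refine (mul_le_mul_of_nonneg_right h4 (mul_nonneg hB.le hM)).trans ?_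
    rw [mul_pow, mul_assoc]
    refine mul_le_mul_of_nonneg_left ?_ (by norm_num)
    refine le_trans (le_trans (le_of_eq (by ring)) h2) (mul_le_mul_of_nonneg_left hs ?_)
    positivity
  rw [tailFac]
  push_cast
  rw [show k + 3 + 1 = k + 4 from rfl, div_mul_eq_mul_div, le_div_iff₀ (by positivity),
    div_mul_eq_mul_div, le_div_iff₀ hB]
  linarith [mul_le_mul_of_nonneg_left h5 (show (0 : ℝ) ≤ (100 / 44) ^ 36 by positivity)]

end Vale.Agent.P237.Petty.Cor.Band
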